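import Mathlib

/-!
# Kernels for the sharp isoperimetric inequality in dimension `k + 1`

The first variation field is `f(r, v) ∇r` with `f = A(r) + B(r) v`, where `v` is the cosine at the
pole and `B ≤ 0`.
-/

open Set
open scoped ContDiff

namespace Vale.Agent.P219.SharpK

noncomputable section

/-- The area part of the first variation integrand at distance `s`, cosine `w` there and `v` at the
pole, from the values of `A`, `A'`, `B`, `B'` at `s`. -/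
def areaVal (k a a' b b' s w v : ℝ) : ℝ :=
  (a' + b' * v) * (1 - w ^ 2) + (k - 1 + w ^ 2) * (a + b * v) / s +
    b * |w| * (2 - w ^ 2 - v ^ 2) / (2 * s)

/-- The kernel. -/
def kerVal (k a a' b b' s w v : ℝ) : ℝ :=
  1 + areaVal k a a' b b' s w v - k * (a + b * v) * w

/-- A profile together with the scalar inequalities it satisfies. -/
structure Prof (k : ℕ) where
  A : ℝ → ℝ
  B : ℝ → ℝ
  A' : ℝ → ℝ
  B' : ℝ → ℝ
  g : ℝ → ℝ
  α : ℝ
  bd : ℝ
  smoothA : ContDiffOn ℝ ∞ A (Ioi 0)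
  smoothB : ContDiffOn ℝ ∞ B (Ioi 0)
  derivA : ∀ s, 0 < s → HasDerivAt A (A' s) s
  derivB : ∀ s, 0 < s → HasDerivAt B (B' s) s
  B_nonpos : ∀ s, 0 < s → B s ≤ 0
  B_bd : ∀ s, 0 < s → -bd ≤ B s
  pos : ∀ s, 0 < s → ∀ v ∈ Icc (-1 : ℝ) 1, 0 ≤ A s + B s * v
  dec : ∀ s, 0 < s → ∀ v ∈ Icc (-1 : ℝ) 1, s * (A' s + B' s * v) - A s - 2 * B s * v ≤ 0
  α_pos : 0 < α
  g_cont : ContinuousOn g (Icc 0 1)
  g_zero : 0 ≤ g 0
  g_mono : MonotoneOn g (Icc 0 1)
  ker_nonneg : ∀ s, 0 < s → ∀ w ∈ Icc (-1 : ℝ) 1, ∀ v ∈ Icc (-1 : ℝ) 1,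
    0 ≤ kerVal k (A s) (A' s) (B s) (B' s) s w v
  chord : ∀ s, 0 < s → ∀ c ∈ Ioc (0 : ℝ) 1, ∀ d ∈ Ioc (0 : ℝ) 1,
    s * (c * d) ≤ α * s ^ k * (kerVal k (A s) (A' s) (B s) (B' s) s d c +
      kerVal k (A s) (A' s) (B s) (B' s) s c d) / 2 + c * d * (g c + g d)

namespace Prof

variable {k : ℕ} (p : Prof k)

/-- The kernel of a profile. -/
def R (s w v : ℝ) : ℝ := kerVal k (p.A s) (p.A' s) (p.B s) (p.B' s) s w v

theorem contOn_A' : ContinuousOn p.A' (Ioi 0) :=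
  ((p.smoothA.continuousOn_deriv_of_isOpen isOpen_Ioi (by simp)).congr fun s hs =>
    ((p.derivA s hs).deriv).symm)

theorem contOn_B' : ContinuousOn p.B' (Ioi 0) :=
  ((p.smoothB.continuousOn_deriv_of_isOpen isOpen_Ioi (by simp)).congr fun s hs =>
    ((p.derivB s hs).deriv).symm)

theorem R_nonneg {s w v : ℝ} (hs : 0 < s) (hw : |w| ≤ 1) (hv : |v| ≤ 1) : 0 ≤ p.R s w v :=
  p.ker_nonneg s hs w (abs_le.1 hw) v (abs_le.1 hv)

theorem g_nonneg {t : ℝ} (ht : t ∈ Icc (0 : ℝ) 1) : 0 ≤ p.g t :=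
  p.g_zero.trans (p.g_mono ⟨le_rfl, zero_le_one⟩ ht ht.1)

theorem bd_nonneg : 0 ≤ p.bd := by
  have h1 := p.B_nonpos 1 one_pos
  have h2 := p.B_bd 1 one_pos
  linarith

/-- The boundary weight, clamped to `[0, 1]`. -/
def gc (t : ℝ) : ℝ := p.g (max 0 (min t 1))

theorem gc_eq {t : ℝ} (h0 : 0 ≤ t) (h1 : t ≤ 1) : p.gc t = p.g t := by
  rw [gc, min_eq_left h1, max_eq_right h0]

theorem gc_nonneg (t : ℝ) : 0 ≤ p.gc t :=
  p.g_nonneg ⟨le_max_left _ _, max_le zero_le_one (min_le_right _ _)⟩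

theorem continuous_gc : Continuous p.gc :=
  p.g_cont.comp_continuous (by fun_prop) fun _ =>
    ⟨le_max_left _ _, max_le zero_le_one (min_le_right _ _)⟩

/-- The share of a chord of length `r` attributed to its end with cosine `c`, at the scale `l`. -/
def share (l ε r c d : ℝ) : ℝ :=
  p.α * (l * r) ^ k * p.R (l * Real.sqrt (r ^ 2 + ε)) (r * d / Real.sqrt (r ^ 2 + ε))
      (r * c / Real.sqrt (r ^ 2 + ε)) / (2 * (c * d)) +
    p.gc c + ((k : ℝ) + 1) * (l * Real.sqrt ε) / 2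

theorem cos_le {ε r c : ℝ} (hε : 0 < ε) (hr : 0 ≤ r) (hc : |c| ≤ 1) :
    |r * c / Real.sqrt (r ^ 2 + ε)| ≤ 1 := by
  have hs : 0 < Real.sqrt (r ^ 2 + ε) := Real.sqrt_pos.2 (by positivity)
  rw [abs_div, abs_of_pos hs, div_le_one hs, abs_mul, abs_of_nonneg hr]
  calc r * |c| ≤ r * 1 := mul_le_mul_of_nonneg_left hc hr
    _ ≤ Real.sqrt (r ^ 2 + ε) := by rw [mul_one]; exact Real.le_sqrt_of_sq_le (by linarith)

theorem share_nonneg {l ε r c d : ℝ} (hl : 0 < l) (hε : 0 < ε) (hr : 0 ≤ r) (hc : 0 < c)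
    (hc1 : c ≤ 1) (hd : 0 < d) (hd1 : d ≤ 1) : 0 ≤ p.share l ε r c d := by
  have hR := p.R_nonneg (s := l * Real.sqrt (r ^ 2 + ε))
    (mul_pos hl (Real.sqrt_pos.2 (by positivity)))
    (cos_le hε hr (abs_le.2 ⟨by linarith, hd1⟩)) (cos_le hε hr (abs_le.2 ⟨by linarith, hc1⟩))
  have hg := p.gc_nonneg c
  have := p.α_pos
  unfold share
  positivity

/-- The inequality along a chord of length `r` with end cosines `c` and `d`. -/
theorem chord_share {l ε r c d : ℝ} (hl : 0 < l) (hε : 0 < ε) (hr : 0 ≤ r) (hc : 0 < c) (hd : 0 < d)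
    (hc1 : c ≤ 1) (hd1 : d ≤ 1) : l * r ≤ p.share l ε r c d + p.share l ε r d c := by
  have hA : ∀ x y : ℝ, 0 < x → x ≤ 1 → 0 < y → y ≤ 1 → 0 ≤ p.share l ε r x y :=
    fun x y hx hx1 hy hy1 => p.share_nonneg hl hε hr hx hx1 hy hy1
  rcases hr.eq_or_lt with h | hr'
  · subst h
    rw [mul_zero]
    exact add_nonneg (hA c d hc hc1 hd hd1) (hA d c hd hd1 hc hc1)
  set s := Real.sqrt (r ^ 2 + ε) with hsdef
  have hs : 0 < s := Real.sqrt_pos.2 (by positivity)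
  have hrs : r ≤ s := Real.le_sqrt_of_sq_le (by linarith)
  have hsr : s ≤ r + Real.sqrt ε := by
    rw [hsdef, Real.sqrt_le_left (by positivity)]
    nlinarith [Real.sq_sqrt hε.le, mul_nonneg hr (Real.sqrt_nonneg ε)]
  set θ := r / s with hθ
  have hθ0 : 0 < θ := by positivity
  have hθ1 : θ ≤ 1 := (div_le_one hs).2 hrs
  have hm : ∀ x : ℝ, 0 < x → x ≤ 1 →
      (r * x / s ∈ Ioc (0 : ℝ) 1) ∧ p.g (r * x / s) ≤ p.g x := by
    intro x hx hx1
    have e : r * x / s = θ * x := by rw [hθ]; ring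
    have h1 : θ * x ≤ x := mul_le_of_le_one_left hx.le hθ1
    have h0 : 0 < θ * x := by positivity
    rw [e]
    exact ⟨⟨h0, h1.trans hx1⟩, p.g_mono ⟨h0.le, h1.trans hx1⟩ ⟨hx.le, hx1⟩ h1⟩
  obtain ⟨hc', hgc⟩ := hm c hc hc1
  obtain ⟨hd', hgd⟩ := hm d hd hd1
  have h := p.chord (l * s) (by positivity) _ hc' _ hd'
  set R1 := p.R (l * s) (r * d / s) (r * c / s) with hR1
  set R2 := p.R (l * s) (r * c / s) (r * d / s) with hR2
  change l * s * (r * c / s * (r * d / s)) ≤ p.α * (l * s) ^ k * (R1 + R2) / 2 + _ at h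
  have h2 : θ ^ (k + 2) * (l * s) ≤
      p.α * (l * r) ^ k * (R1 + R2) / (2 * (c * d)) + θ ^ (k + 2) * (p.g (r * c / s) + p.g (r * d / s)) := by
    have hk : 0 ≤ θ ^ k / (c * d) := by positivity
    have h3 := mul_le_mul_of_nonneg_left h hk
    have e : r = θ * s := by rw [hθ]; field_simp
    have e' : ∀ x, r * x / s = θ * x := fun x => by rw [hθ]; ring
    refine le_trans (le_of_eq ?_) (h3.trans (le_of_eq ?_))
    · rw [e' c, e' d]; field_simp; ring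
    · rw [show l * r = θ * (l * s) by rw [e]; ring, mul_pow, e' c, e' d]
      field_simp; ring
  have hθk : θ ^ (k + 2) ≤ 1 := pow_le_one₀ hθ0.le hθ1
  have hθk0 : (0 : ℝ) ≤ θ ^ (k + 2) := by positivity
  have hg0 : 0 ≤ p.g (r * c / s) + p.g (r * d / s) :=
    add_nonneg (p.g_nonneg (Ioc_subset_Icc_self hc')) (p.g_nonneg (Ioc_subset_Icc_self hd'))
  have hbern : 1 - ((k : ℝ) + 1) * (1 - θ) ≤ θ ^ (k + 1) := by
    have h4 := one_add_mul_le_pow (show -2 ≤ θ - 1 by linarith) (k + 1)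
    push_cast at h4
    rw [show 1 + (θ - 1) = θ by ring] at h4
    linarith
  have herr : l * r - θ ^ (k + 2) * (l * s) ≤ ((k : ℝ) + 1) * (l * Real.sqrt ε) := by
    have e : θ ^ (k + 2) * (l * s) = θ ^ (k + 1) * (l * r) := by
      rw [hθ, pow_succ _ (k + 1)]; field_simp
    rw [e]
    have h5 := mul_le_mul_of_nonneg_right hbern (mul_nonneg hl.le hr)
    have h6 : (1 - θ) * r ≤ Real.sqrt ε := by
      have h7 : (1 - θ) * r ≤ (1 - θ) * s := mul_le_mul_of_nonneg_left hrs (by linarith)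
      have h8 : (1 - θ) * s = s - r := by rw [hθ]; field_simp
      linarith
    have h9 := mul_le_mul_of_nonneg_left h6 (show 0 ≤ ((k : ℝ) + 1) * l by positivity)
    linarith
  have e2 : p.share l ε r c d + p.share l ε r d c =
      p.α * (l * r) ^ k * (R1 + R2) / (2 * (c * d)) + (p.g c + p.g d) +
        ((k : ℝ) + 1) * (l * Real.sqrt ε) := by
    simp only [share, ← hsdef, ← hR1, ← hR2, p.gc_eq hc.le hc1, p.gc_eq hd.le hd1]
    ring
  rw [e2]
  have h10 := mul_le_of_le_one_left hg0 hθk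
  linarith

end Prof

end

end Vale.Agent.P219.SharpK
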