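import Mathlib
import Vale.Agent.P219.SharpK.Prof

/-!
# Elementary lemmas for checking profiles
-/

open Set

namespace Vale.Agent.P219.SharpK

theorem affine_nonneg {F : ℝ → ℝ} {v : ℝ} (hv : v ∈ Icc (-1 : ℝ) 1)
    (h : F v = (1 + v) / 2 * F 1 + (1 - v) / 2 * F (-1)) (h1 : 0 ≤ F 1) (h2 : 0 ≤ F (-1)) :
    0 ≤ F v := by
  obtain ⟨a, b⟩ := hv
  rw [h]
  have := mul_nonneg (show 0 ≤ (1 + v) / 2 by linarith) h1
  have := mul_nonneg (show 0 ≤ (1 - v) / 2 by linarith) h2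
  linarith

/-- The term with the far cosine is bounded below, uniformly in both cosines. -/
theorem mixed_bound {b s w v : ℝ} (hb : b ≤ 0) (hs : 0 < s) (hw : w ∈ Icc (-1 : ℝ) 1) :
    b * (11 / 10) / (2 * s) ≤ b * |w| * (2 - w ^ 2 - v ^ 2) / (2 * s) := by
  obtain ⟨a, c⟩ := hw
  have h1 : |w| ≤ 1 := abs_le.2 ⟨a, c⟩
  have h2 : |w| * (2 - w ^ 2 - v ^ 2) ≤ 11 / 10 := by
    have h0 := abs_nonneg w
    have h3 : |w| * (2 - |w| ^ 2) ≤ 11 / 10 := by
      nlinarith [mul_nonneg h0 (sq_nonneg (|w| - 33 / 40)), sq_nonneg (|w| - 33 / 40)]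
    rw [← sq_abs w]
    nlinarith [mul_nonneg h0 (sq_nonneg v)]
  refine div_le_div_of_nonneg_right ?_ (by linarith)
  rw [mul_assoc]
  exact mul_le_mul_of_nonpos_left h2 hb

/-- A function of the product that is concave along a segment is controlled by its endpoints. -/
theorem conc_nonneg {F : ℝ → ℝ} {a b p : ℝ} (h1 : a ≤ p) (h2 : p ≤ b) (ha : 0 ≤ F a) (hb : 0 ≤ F b)
    (h : (b - p) * F a + (p - a) * F b ≤ (b - a) * F p) : 0 ≤ F p := by
  rcases h1.eq_or_lt with h' | h'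
  · exact h' ▸ ha
  have hab : 0 < b - a := by linarith
  have := mul_nonneg (sub_nonneg.2 h2) ha
  have := mul_nonneg (sub_nonneg.2 h1) hb
  exact nonneg_of_mul_nonneg_right (by linarith : 0 ≤ (b - a) * F p) hab

end Vale.Agent.P219.SharpK
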