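import Mathlib
import Vale.Agent.P219.Six.FirstVar.Field
import Vale.Agent.P219.SharpK.Prof

/-!
# The deformation fields of a profile and their first variation integrands
-/

open Filter Topology Set
open scoped ContDiff RealInnerProductSpace

set_option maxSynthPendingDepth 3

namespace Vale.Agent.P219.SharpK

open Vale.Agent.P219 Vale.Agent.P219.Univ Vale.Agent.P219.Six

noncomputable section

variable {k : ℕ}

theorem Prof.smoothA' (p : Prof k) : ContDiffOn ℝ ∞ p.A' (Ioi 0) :=
  (p.smoothA.deriv_of_isOpen isOpen_Ioi (by simp)).congr fun s hs => ((p.derivA s hs).deriv).symm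

theorem Prof.smoothB' (p : Prof k) : ContDiffOn ℝ ∞ p.B' (Ioi 0) :=
  (p.smoothB.deriv_of_isOpen isOpen_Ioi (by simp)).congr fun s hs => ((p.derivB s hs).deriv).symm

/-- The length `√(2 ψ + ε)`, extended smoothly to negative `ψ`. -/
def sq (ε ψ : ℝ) : ℝ :=
  Real.sqrt (2 * (ψ * Real.smoothTransition ((4 * ψ + ε) / (ε / 2))) + ε)

theorem sq_pos {ε : ℝ} (hε : 0 < ε) (ψ : ℝ) : 0 < sq ε ψ := Real.sqrt_pos.2 (FV.prof_den_pos hε ψ)

theorem sq_eq {ε ψ : ℝ} (hε : 0 < ε) (hψ : -(ε / 8) ≤ ψ) : sq ε ψ = Real.sqrt (2 * ψ + ε) := by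
  rw [sq, Real.smoothTransition.one_of_one_le (by rw [one_le_div (by positivity)]; linarith),
    mul_one]

theorem contDiff_sq {ε : ℝ} (hε : 0 < ε) : ContDiff ℝ ∞ (sq ε) := by
  refine ContDiff.sqrt ((contDiff_const.mul (contDiff_id.mul
    (Real.smoothTransition.contDiff.comp (by fun_prop)))).add contDiff_const) fun x => ?_
  exact (FV.prof_den_pos hε x).ne'

theorem hasDerivAt_sq {ε ψ : ℝ} (hε : 0 < ε) (hψ : 0 ≤ ψ) :
    HasDerivAt (sq ε) (1 / sq ε ψ) ψ := by
  have he : sq ε =ᶠ[𝓝 ψ] fun u => Real.sqrt (2 * u + ε) := by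
    filter_upwards [isOpen_Ioi.mem_nhds (show -(ε / 8) < ψ by linarith)] with u hu
    exact sq_eq hε (le_of_lt hu)
  have h0 : 2 * ψ + ε ≠ 0 := by positivity
  refine HasDerivAt.congr_of_eventuallyEq ?_ he
  refine ((((hasDerivAt_id ψ).const_mul 2).add_const ε).sqrt h0).congr_deriv ?_
  rw [sq_eq hε (by linarith)]
  simp
  field_simp

variable {n : ℕ} {g : MetricField n} {Exp Log : Space n → Space n → Space n}

/-- The component of the logarithm along `e`. -/
def uFn (Log : Space n → Space n → Space n) (a e x : Space n) : ℝ := ⟪Log a x, e⟫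

/-- The coefficient of the radial field. -/
def coef (p : Prof k) (l ε ψ u : ℝ) : ℝ :=
  p.A (l * sq ε ψ) / sq ε ψ + p.B (l * sq ε ψ) / sq ε ψ ^ 2 * u

/-- The first variation integrand of area, as a function of the squared distance, the normal
derivative of half of it, and the component along the normal at the pole. -/
def areaFn (p : Prof k) (l ε δ ρ m u : ℝ) : ℝ :=
  let s := Real.sqrt (ρ + ε)
  l * ((p.A' (l * s) + p.B' (l * s) * (u / s)) * (1 - (m / s) ^ 2) +
    ((k : ℝ) - 1 + (m / s) ^ 2) * (p.A (l * s) + p.B (l * s) * (u / s)) / (l * s) +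
    p.B (l * s) * Real.sqrt ((m / s) ^ 2 + δ) * (2 - (m / s) ^ 2 - (u / s) ^ 2) / (2 * (l * s)))

/-- The first variation integrand of volume. -/
def volFn (p : Prof k) (l ε ρ m u : ℝ) : ℝ :=
  let s := Real.sqrt (ρ + ε)
  (p.A (l * s) + p.B (l * s) * (u / s)) * (m / s)

/-- The radial field of a profile at `a`. -/
def radial (p : Prof k) (g : MetricField n) (Log : Space n → Space n → Space n) (l ε : ℝ)
    (a e x : Space n) : Space n :=
  coef p l ε (psi Log a x) (uFn Log a e x) • gGrad g (psi Log a) x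

/-- The deformation field: radial at `a`, a little towards the centre `o`, cut off outside. -/
def field (p : Prof k) (g : MetricField n) (Log : Space n → Space n → Space n) (l ε κ : ℝ)
    (o : Space n) (M : ℝ) (a e x : Space n) : Space n :=
  Real.smoothTransition (M + 2 - psi Log o x) •
    (radial p g Log l ε a e x + κ • gGrad g (psi Log o) x)

section

variable (p : Prof k) (hg : IsMetric g) (hc : JointCharts g Exp Log)

include hc in
omit hg in
theorem contDiff_uFn (a e : Space n) : ContDiff ℝ ∞ (uFn Log a e) :=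
  (hc.smooth_log_at a).inner ℝ contDiff_const

include hc in
omit hg in
theorem contDiff_coef {l ε : ℝ} (hl : 0 < l) (hε : 0 < ε) (a e : Space n) :
    ContDiff ℝ ∞ fun x => coef p l ε (psi Log a x) (uFn Log a e x) := by
  have hs : ContDiff ℝ ∞ fun x => sq ε (psi Log a x) := (contDiff_sq hε).comp (hc.smooth_psi_at a)
  have hls : ContDiff ℝ ∞ fun x => l * sq ε (psi Log a x) := contDiff_const.mul hs
  have hmem : ∀ x, l * sq ε (psi Log a x) ∈ Ioi (0 : ℝ) := fun x => mul_pos hl (sq_pos hε _)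
  exact ((p.smoothA.comp_contDiff hls hmem).div hs fun x => (sq_pos hε _).ne').add
    (((p.smoothB.comp_contDiff hls hmem).div (hs.pow 2) fun x =>
      pow_ne_zero 2 (sq_pos hε _).ne').mul (contDiff_uFn hc a e))

include hg hc in
theorem contDiff_radial {l ε : ℝ} (hl : 0 < l) (hε : 0 < ε) (a e : Space n) :
    ContDiff ℝ ∞ (radial p g Log l ε a e) :=
  (contDiff_coef p hc hl hε a e).smul (contDiff_gGrad hg (hc.smooth_psi_at a))

include hg hc in
theorem contDiff_field {l ε : ℝ} (hl : 0 < l) (hε : 0 < ε) (κ : ℝ) (o : Space n) (M : ℝ)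
    (a e : Space n) : ContDiff ℝ ∞ (field p g Log l ε κ o M a e) :=
  (Real.smoothTransition.contDiff.comp (contDiff_const.sub (hc.smooth_psi_at o))).smul
    ((contDiff_radial p hg hc hl hε a e).add
      ((contDiff_gGrad hg (hc.smooth_psi_at o)).const_smul κ))

include hc in
omit hg in
theorem field_eventually {l ε κ : ℝ} {o : Space n} {M : ℝ} {a e x : Space n}
    (hx : psi Log o x ≤ M) :
    field p g Log l ε κ o M a e =ᶠ[𝓝 x]
      fun y => radial p g Log l ε a e y + κ • gGrad g (psi Log o) y := by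
  filter_upwards [(hc.smooth_psi_at o).continuous.continuousAt.eventually_lt_const
    (show psi Log o x < M + 1 by linarith)] with y hy
  rw [field, Real.smoothTransition.one_of_one_le (by linarith), one_smul]

variable (hs : SecBound g 0)

include hg hc hs in
theorem compact_field (hn : 2 ≤ n) (l ε κ : ℝ) (o : Space n) (M : ℝ) (a e : Space n) :
    HasCompactSupport (field p g Log l ε κ o M a e) := by
  refine HasCompactSupport.intro ((FV.pot_psi hn hg hc hs o).compact (M + 2)) fun x hx => ?_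
  have hx' : ¬ psi Log o x ≤ M + 2 := hx
  rw [field, Real.smoothTransition.zero_of_nonpos (by linarith [not_le.1 hx']), zero_smul]

include hg hc hs in
/-- The logarithm does not expand. -/
theorem dLog_le (x y w : Space n) : ‖fderiv ℝ (Log x) y w‖ ^ 2 ≤ g y w w := by
  set u := Log x y
  set v := fderiv ℝ (Log x) y w
  have h := hc.chart x
  set f : ℝ → ℝ := fun t => g (Exp x (t • u)) (Geo.Y (Exp x) u v t) (Geo.Y (Exp x) u v t)
  have hd : ∀ t, HasDerivAt f
      (2 * g (Exp x (t • u)) (Geo.DY g (Exp x) u v t) (Geo.Y (Exp x) u v t)) t := fun t => by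
    refine (Geo.hasDerivAt_g hg (h.deriv_ray u t) (h.deriv_Y u v t) (h.deriv_Y u v t)).congr_deriv ?_
    rw [hg.symm _ (Geo.Y (Exp x) u v t) (Geo.Y' (Exp x) u v t + _)]
    simp only [Geo.DY]
    ring
  have hmono : MonotoneOn f (Icc 0 1) := by
    refine monotoneOn_of_deriv_nonneg (convex_Icc 0 1)
      (fun t _ => (hd t).continuousAt.continuousWithinAt)
      (fun t _ => (hd t).differentiableAt.differentiableWithinAt) fun t ht => ?_
    rw [(hd t).deriv]
    rw [interior_Icc] at ht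
    have h1 := Geo.expand_one hg h le_rfl hs (t • u) v
    have e : Geo.DY g (Exp x) (t • u) v 1 = t • Geo.DY g (Exp x) u v t := by
      simp [Geo.DY, Geo.Y, Geo.Y', Geo.gam_smul₁, smul_add]
    rw [e, show Geo.Y (Exp x) (t • u) v 1 = Geo.Y (Exp x) u v t by simp [Geo.Y], map_smul,
      smul_apply, smul_eq_mul] at h1
    have := nonneg_of_mul_nonneg_right h1 ht.1
    linarith
  have h1 := hmono (left_mem_Icc.2 zero_le_one) (right_mem_Icc.2 zero_le_one) zero_le_one
  simp only [f, Geo.Y, zero_smul, one_smul, hc.zero, hc.iso] at h1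
  rw [real_inner_self_eq_norm_sq] at h1
  simp only [u, v, hc.right, hc.dExp_dLog] at h1
  exact h1

end

/-- The mixed term, by Cauchy-Schwarz in one dimension more. -/
theorem mixed_term {ε S m u : ℝ} {L W e : Space n} (hε : 0 ≤ ε) (hS : S = ‖L‖ ^ 2 + ε) (hS0 : S ≠ 0)
    (hm : ⟪L, W⟫ = m) (hu : ⟪L, e⟫ = u) (hW : ‖W‖ ^ 2 ≤ 1) (he : ‖e‖ ^ 2 ≤ 1) :
    |⟪W, e⟫ - m * u / S| ≤ (2 - m ^ 2 / S - u ^ 2 / S) / 2 := by
  set X := W - (m / S) • L with hX
  set Y := e - (u / S) • L with hY
  have hL : ‖L‖ ^ 2 = S - ε := by rw [hS]; ring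
  have hXY : ⟪X, Y⟫ + ε * (m / S) * (u / S) = ⟪W, e⟫ - m * u / S := by
    simp only [hX, hY, inner_sub_left, inner_sub_right, real_inner_smul_left, real_inner_smul_right,
      real_inner_comm L W, hm, hu, real_inner_self_eq_norm_sq, hL]
    field_simp
    ring
  have hXX : ‖X‖ ^ 2 + ε * (m / S) ^ 2 = ‖W‖ ^ 2 - m ^ 2 / S := by
    rw [hX, ← real_inner_self_eq_norm_sq]
    simp only [inner_sub_left, inner_sub_right, real_inner_smul_left, real_inner_smul_right,
      real_inner_comm L W, hm, real_inner_self_eq_norm_sq, norm_smul, mul_pow, Real.norm_eq_abs, sq_abs, hL]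
    field_simp
    ring
  have hYY : ‖Y‖ ^ 2 + ε * (u / S) ^ 2 = ‖e‖ ^ 2 - u ^ 2 / S := by
    rw [hY, ← real_inner_self_eq_norm_sq]
    simp only [inner_sub_left, inner_sub_right, real_inner_smul_left, real_inner_smul_right,
      real_inner_comm L e, hu, real_inner_self_eq_norm_sq, norm_smul, mul_pow, Real.norm_eq_abs, sq_abs, hL]
    field_simp
    ring
  rw [← hXY]
  obtain ⟨h1, h2⟩ := abs_le.1 (abs_real_inner_le_norm X Y)
  rw [abs_le]
  constructor
  · nlinarith [sq_nonneg (‖X‖ - ‖Y‖), mul_nonneg hε (sq_nonneg (m / S + u / S))]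
  · nlinarith [sq_nonneg (‖X‖ - ‖Y‖), mul_nonneg hε (sq_nonneg (m / S - u / S))]

/-- The algebra of the first variation of area. -/
theorem area_alg (p : Prof k) {l ε δ s ρ m u du q D : ℝ} (hl : 0 < l) (hε : 0 ≤ ε) (hδ : 0 ≤ δ)
    (hs : 0 < s) (hρ : s ^ 2 = ρ + ε) (hu : u ^ 2 ≤ ρ)
    (hD : q ≤ D) (hdu : |du - m * u / s ^ 2| ≤ (2 - m ^ 2 / s ^ 2 - u ^ 2 / s ^ 2) / 2) :
    l * ((p.A' (l * s) + p.B' (l * s) * (u / s)) * (1 - (m / s) ^ 2) +
        (q - 1 + (m / s) ^ 2) * (p.A (l * s) + p.B (l * s) * (u / s)) / (l * s) +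
        p.B (l * s) * Real.sqrt ((m / s) ^ 2 + δ) * (2 - (m / s) ^ 2 - (u / s) ^ 2) / (2 * (l * s))) ≤
      (p.A (l * s) / s + p.B (l * s) / s ^ 2 * u) * D +
        (((p.A' (l * s) * l * s - p.A (l * s)) / s ^ 2 +
            (p.B' (l * s) * l * s - 2 * p.B (l * s)) / s ^ 3 * u) / s) * (ρ - m ^ 2) +
        p.B (l * s) / s ^ 2 * (u - m * du) := by
  have hls : 0 < l * s := mul_pos hl hs
  have hv : u / s ∈ Icc (-1 : ℝ) 1 := by
    have h : |u / s| ≤ 1 := by
      rw [abs_div, abs_of_pos hs, div_le_one hs]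
      exact abs_le_of_sq_le_sq (by linarith) hs.le
    exact abs_le.1 h
  have hP := p.pos _ hls _ hv
  have hdec := p.dec _ hls _ hv
  have hB := p.B_nonpos _ hls
  set a := p.A (l * s)
  set b := p.B (l * s)
  set a' := p.A' (l * s)
  set b' := p.B' (l * s)
  set w := m / s with hw
  set v := u / s with hv'
  have e1 : a / s + b / s ^ 2 * u = (a + b * v) / s := by rw [hv']; field_simp
  have e2 : ((a' * l * s - a) / s ^ 2 + (b' * l * s - 2 * b) / s ^ 3 * u) / s =
      (l * s * (a' + b' * v) - a - 2 * b * v) / s ^ 3 := by rw [hv']; field_simp; ring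
  have e3 : u - m * du = s * (v * (1 - w ^ 2)) - m * (du - m * u / s ^ 2) := by
    rw [hv', hw]; field_simp; ring
  rw [e1, e2, e3]
  have h1 := mul_le_mul_of_nonneg_left hD (div_nonneg hP hs.le)
  have h2 : ρ - m ^ 2 ≤ s ^ 2 * (1 - w ^ 2) := by
    rw [hw, mul_sub, div_pow, mul_one, mul_div_cancel₀ _ (by positivity)]
    linarith
  have h3 := mul_le_mul_of_nonpos_left h2
    (div_nonpos_of_nonpos_of_nonneg hdec (pow_nonneg hs.le 3))
  have hS : (2 - m ^ 2 / s ^ 2 - u ^ 2 / s ^ 2) / 2 = (2 - w ^ 2 - v ^ 2) / 2 := by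
    rw [hw, hv', div_pow, div_pow]
  rw [hS] at hdu
  have h4 : -(m * (du - m * u / s ^ 2)) ≤
      s * Real.sqrt (w ^ 2 + δ) * ((2 - w ^ 2 - v ^ 2) / 2) := by
    refine (neg_le_abs _).trans ?_
    rw [abs_mul]
    refine mul_le_mul ?_ hdu (abs_nonneg _) (by positivity)
    rw [show |m| = s * |w| by rw [hw, abs_div, abs_of_pos hs]; field_simp]
    exact mul_le_mul_of_nonneg_left (Real.abs_le_sqrt (by linarith)) hs.le
  have h5 := mul_le_mul_of_nonpos_left (add_le_add_left h4 (s * (v * (1 - w ^ 2))))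
    (div_nonpos_of_nonpos_of_nonneg hB (pow_nonneg hs.le 2))
  refine le_trans (le_of_eq ?_) (add_le_add (add_le_add h1 h3) (le_of_le_of_eq h5 (by ring)))
  field_simp
  ring

variable (p : Prof k) (hg : IsMetric g) (hc : JointCharts g Exp Log) (hs : SecBound g 0)

include hg hc hs in
/-- The first variation integrand of the field is at least `areaFn`. -/
theorem theta_lower (hn : n = k + 1) (hk : 1 ≤ k) {l ε δ κ : ℝ} (hl : 0 < l) (hε : 0 < ε)
    (hδ : 0 ≤ δ) (hκ : 0 ≤ κ) {o : Space n} {M : ℝ} {a e x : Space n} (he : ‖e‖ ≤ 1)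
    (hx : psi Log o x ≤ M) {N : Space n} (hN : g x N N = 1) :
    areaFn p l ε δ (2 * psi Log a x) (fderiv ℝ (psi Log a) x N) (uFn Log a e x) ≤
      gDiv g (field p g Log l ε κ o M a e) x -
        g x (cov g (field p g Log l ε κ o M a e) x N) N := by
  have hn2 : 2 ≤ n := by omega
  have hpa := FV.pot_psi hn2 hg hc hs a
  have hpo := FV.pot_psi hn2 hg hc hs o
  have hr : DifferentiableAt ℝ (radial p g Log l ε a e) x :=
    (contDiff_radial p hg hc hl hε a e).differentiable (by simp) x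
  have hG : DifferentiableAt ℝ (gGrad g (psi Log o)) x :=
    (contDiff_gGrad hg hpo.smooth).differentiable (by simp) x
  have hGa : DifferentiableAt ℝ (gGrad g (psi Log a)) x :=
    (contDiff_gGrad hg hpa.smooth).differentiable (by simp) x
  have hF : DifferentiableAt ℝ (field p g Log l ε κ o M a e) x :=
    (contDiff_field p hg hc hl hε κ o M a e).differentiable (by simp) x
  have hev := field_eventually (g := g) p hc (l := l) (ε := ε) (κ := κ) (a := a) (e := e) hx
  rw [FV.cov_congr hev, FV.gDiv_congr hg hF hev, FV.cov_add hr (hG.fun_const_smul κ),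
    FV.gDiv_add hg hr (hG.fun_const_smul κ), gDiv_smul hg (differentiableAt_const κ) hG,
    cov_smul hg (differentiableAt_const κ) hG, map_add, _root_.add_apply]
  have h2 := (radial_div hg hpo (η := fun _ => 1) contDiff_const x zero_le_one (by simp)).1 N
  have h1 := (radial_div hg hpa (η := fun _ => 1) contDiff_const x zero_le_one (by simp)).1 N
  simp only [one_smul, deriv_const', hN, mul_one, zero_mul, mul_zero, add_zero, sub_zero] at h1 h2
  simp only [fderiv_fun_const, Pi.zero_apply, zero_apply, zero_smul, add_zero, map_smul, smul_apply,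
    smul_eq_mul]
  -- the derivative of the coefficient
  set ψ := psi Log a x
  set u := uFn Log a e x with hudef
  set s := sq ε ψ with hsdef
  have hψ0 : 0 ≤ ψ := hpa.nonneg x
  have hs0 : 0 < s := sq_pos hε ψ
  have hssq : s ^ 2 = 2 * ψ + ε := by
    rw [hsdef, sq_eq hε (by linarith), Real.sq_sqrt (by linarith)]
  have hls : 0 < l * s := mul_pos hl hs0
  have hψd : HasFDerivAt (psi Log a) (fderiv ℝ (psi Log a) x) x :=
    (hpa.smooth.differentiable (by simp) x).hasFDerivAt
  have hud : HasFDerivAt (uFn Log a e) (fderiv ℝ (uFn Log a e) x) x :=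
    ((contDiff_uFn hc a e).differentiable (by simp) x).hasFDerivAt
  have hdu : ∀ v, fderiv ℝ (uFn Log a e) x v = ⟪fderiv ℝ (Log a) x v, e⟫ := fun v => by
    have h := (hc.hasFDerivAt_log a x).inner ℝ (hasFDerivAt_const e x)
    rw [show uFn Log a e = fun y => inner ℝ (Log a y) e from rfl, h.fderiv]
    simp
  have hsq : HasDerivAt (sq ε) (1 / s) ψ := hasDerivAt_sq hε hψ0
  have hA : HasDerivAt (fun t => p.A (l * sq ε t) / sq ε t)
      ((p.A' (l * s) * l * s - p.A (l * s)) / s ^ 2 / s) ψ := by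
    refine (((p.derivA _ hls).comp ψ (hsq.const_mul l)).div hsq hs0.ne').congr_deriv ?_
    simp only [Function.comp_apply, ← hsdef]
    field_simp
  have hB : HasDerivAt (fun t => p.B (l * sq ε t) / sq ε t ^ 2)
      ((p.B' (l * s) * l * s - 2 * p.B (l * s)) / s ^ 3 / s) ψ := by
    refine (((p.derivB _ hls).comp ψ (hsq.const_mul l)).div (hsq.fun_pow 2)
      (pow_ne_zero 2 hs0.ne')).congr_deriv ?_
    simp only [Function.comp_apply, ← hsdef]
    field_simp
    ring
  set c := fun y => coef p l ε (psi Log a y) (uFn Log a e y) with hc_def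
  have hcd : HasFDerivAt c
      ((((p.A' (l * s) * l * s - p.A (l * s)) / s ^ 2 / s) • fderiv ℝ (psi Log a) x) +
        ((p.B (l * s) / s ^ 2) • fderiv ℝ (uFn Log a e) x +
          u • (((p.B' (l * s) * l * s - 2 * p.B (l * s)) / s ^ 3 / s) •
            fderiv ℝ (psi Log a) x))) x :=
    (hA.comp_hasFDerivAt (f := psi Log a) x hψd).add
      ((hB.comp_hasFDerivAt (f := psi Log a) x hψd).mul hud)
  have hcd' : DifferentiableAt ℝ c x := hcd.differentiableAt
  rw [show radial p g Log l ε a e = fun y => c y • gGrad g (psi Log a) y from rfl,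
    gDiv_smul hg hcd' hGa, cov_smul hg hcd' hGa, hcd.fderiv]
  simp only [_root_.add_apply, smul_eq_mul, map_add, map_smul,
    smul_apply, gGrad_dual hg]
  -- the values on the gradient and on the normal
  have hgg : fderiv ℝ (psi Log a) x (gGrad g (psi Log a) x) = 2 * ψ := by
    rw [← gGrad_dual hg, grad_psi_sq hg hc]
  have hug : fderiv ℝ (uFn Log a e) x (gGrad g (psi Log a) x) = u := by
    have h := hc.dLog_dExp a (Log a x) (Log a x)
    rw [hc.right] at h
    rw [hdu, hc.grad_psi hg, h]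
    rfl
  set m := fderiv ℝ (psi Log a) x N with hmdef
  set W := fderiv ℝ (Log a) x N
  have hm : ⟪Log a x, W⟫ = m := by
    have h := ((hc.hasFDerivAt_log a x).norm_sq).mul_const (1 / 2 : ℝ)
    rw [hmdef, show psi Log a = fun z => ‖Log a z‖ ^ 2 * (1 / 2 : ℝ) from
      funext fun z => by simp [psi]; ring, h.fderiv]
    simp
    rfl
  have hW : ‖W‖ ^ 2 ≤ 1 := (dLog_le hg hc hs a x N).trans_eq hN
  have hρ : ‖Log a x‖ ^ 2 = 2 * ψ := by simp only [ψ, psi]; ring
  have hu2 : u ^ 2 ≤ 2 * ψ := by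
    rw [← hρ]
    have h := abs_real_inner_le_norm (Log a x) e
    calc u ^ 2 = |⟪Log a x, e⟫| ^ 2 := by rw [sq_abs]; rfl
      _ ≤ (‖Log a x‖ * ‖e‖) ^ 2 := pow_le_pow_left₀ (abs_nonneg _) h 2
      _ ≤ (‖Log a x‖ * 1) ^ 2 := by gcongr
      _ = _ := by rw [mul_one]
  have he2 : ‖e‖ ^ 2 ≤ 1 := pow_le_one₀ (norm_nonneg _) he
  have hmix := mixed_term hε.le (S := s ^ 2) (L := Log a x) (W := W) (e := e)
    (by rw [hρ]; exact hssq) (pow_ne_zero 2 hs0.ne') hm (show ⟪Log a x, e⟫ = u from rfl) hW he2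
  rw [show ⟪W, e⟫ = fderiv ℝ (uFn Log a e) x N from (hdu N).symm] at hmix
  have hk' : ((n : ℝ) - 1) = (k : ℝ) := by rw [hn]; push_cast; ring
  have h1a : (k : ℝ) ≤ gDiv g (gGrad g (psi Log a)) x -
      g x (cov g (gGrad g (psi Log a)) x N) N := hk' ▸ h1
  have halg := area_alg p (q := (k : ℝ)) hl hε.le hδ hs0 hssq hu2 h1a hmix
  have hfn : areaFn p l ε δ (2 * ψ) m u = l * ((p.A' (l * s) + p.B' (l * s) * (u / s)) *
      (1 - (m / s) ^ 2) + ((k : ℝ) - 1 + (m / s) ^ 2) * (p.A (l * s) + p.B (l * s) * (u / s)) / (l * s) +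
      p.B (l * s) * Real.sqrt ((m / s) ^ 2 + δ) * (2 - (m / s) ^ 2 - (u / s) ^ 2) / (2 * (l * s))) := by
    rw [areaFn, show Real.sqrt (2 * ψ + ε) = s from (sq_eq hε (by linarith)).symm]
  rw [hfn]
  have h3 : 0 ≤ gDiv g (gGrad g (psi Log o)) x - g x (cov g (gGrad g (psi Log o)) x N) N := by
    have : (2 : ℝ) ≤ n := by exact_mod_cast hn2
    linarith
  have h4 := mul_nonneg hκ h3
  have hcx : c x = p.A (l * s) / s + p.B (l * s) / s ^ 2 * u := rfl
  rw [hgg, hug, hcx]
  ring_nf at halg h4 ⊢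
  linarith

end

end Vale.Agent.P219.SharpK
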