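import Mathlib
import Vale.Agent.P219.Six.FirstVar
import Vale.Agent.P219.SharpK.Field

/-!
# The first variation under the fields of a profile, uniformly in the pole, the direction and the scale
-/

open MeasureTheory Filter Topology Set
open scoped ENNReal ContDiff RealInnerProductSpace

set_option maxSynthPendingDepth 3

namespace Vale.Agent.P219.SharpK

open Vale.Agent.P219 Vale.Agent.P219.Univ Vale.Agent.P219.Univ.FirstVar Vale.Agent.P219.Six
open Vale.Agent.P219.Six.Surf
open Vale.Agent.P219.Six.FV (normal_bound ratio_bounds image_domain coercive area_affine stays_inside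
  mem_closure_sub)

noncomputable section

variable {k n : ℕ} {g : MetricField n} {Exp Log : Space n → Space n → Space n} (p : Prof k)
  {φ : Space n → ℝ} {η : ℝ}

/-- The first variation integrand of area at the pole, direction and scale `q`. -/
def areaKer (Log : Space n → Space n → Space n) (g : MetricField n) (φ : Space n → ℝ) (ε δ : ℝ)
    (q : Space n × Space n × ℝ) (z : Space n) : ℝ :=
  areaFn p q.2.2 ε δ (2 * psi Log q.1 z) (fderiv ℝ (psi Log q.1) z (unitN g φ z))
    (uFn Log q.1 q.2.1 z)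

/-- The first variation integrand of volume. -/
def volKer (Log : Space n → Space n → Space n) (g : MetricField n) (φ : Space n → ℝ) (ε : ℝ)
    (q : Space n × Space n × ℝ) (z : Space n) : ℝ :=
  volFn p q.2.2 ε (2 * psi Log q.1 z) (fderiv ℝ (psi Log q.1) z (unitN g φ z))
    (uFn Log q.1 q.2.1 z)

theorem coef_mul {l ε : ℝ} (hε : 0 < ε) (a e z : Space n) {m : ℝ} :
    coef p l ε (psi Log a z) (uFn Log a e z) * m =
      volFn p l ε (2 * psi Log a z) m (uFn Log a e z) := by
  have h : sq ε (psi Log a z) = Real.sqrt (2 * psi Log a z + ε) :=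
    sq_eq hε (by linarith [FV.psi_nonneg Log a z])
  simp only [coef, volFn, h]
  ring

theorem coef_nonneg {l ε : ℝ} (hl : 0 < l) (hε : 0 < ε) {a e : Space n} (he : ‖e‖ ≤ 1)
    (x : Space n) : 0 ≤ coef p l ε (psi Log a x) (uFn Log a e x) := by
  set ψ := psi Log a x
  set u := uFn Log a e x
  have hψ : 0 ≤ ψ := FV.psi_nonneg Log a x
  have hs : 0 < sq ε ψ := sq_pos hε ψ
  have hu : |u| ≤ sq ε ψ := by
    rw [sq_eq hε (by linarith)]
    refine (abs_real_inner_le_norm _ _).trans ((mul_le_of_le_one_right (norm_nonneg _) he).trans ?_)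
    refine Real.le_sqrt_of_sq_le ?_
    simp only [ψ, psi]
    linarith
  have h := p.pos _ (mul_pos hl hs) (u / sq ε ψ) (abs_le.1 (by
    rw [abs_div, abs_of_pos hs, div_le_one hs]; exact hu))
  rw [show coef p l ε ψ u = (p.A (l * sq ε ψ) + p.B (l * sq ε ψ) * (u / sq ε ψ)) / sq ε ψ by
    simp only [coef]; field_simp]
  positivity

theorem contDiffOn_kers (hg : IsMetric g) (hc : JointCharts g Exp Log) (hd : Defining φ) {ε δ : ℝ}
    (hε : 0 < ε) (hδ : 0 < δ) {q : Space n × Space n × ℝ} (hl : 0 < q.2.2) :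
    ContDiffOn ℝ 1 (areaKer p Log g φ ε δ q) (regSet φ) ∧
      ContDiffOn ℝ 1 (volKer p Log g φ ε q) (regSet φ) := by
  obtain ⟨a, e, l⟩ := q
  have hψ : ContDiffOn ℝ 1 (psi Log a) (regSet φ) := ((hc.smooth_psi_at a).of_le (by simp)).contDiffOn
  have hρ : ContDiffOn ℝ 1 (fun z => 2 * psi Log a z + ε) (regSet φ) :=
    (contDiffOn_const.mul hψ).add contDiffOn_const
  have hpos : ∀ z, 0 < 2 * psi Log a z + ε := fun z => by
    have := FV.psi_nonneg Log a z
    positivity
  have hs : ContDiffOn ℝ 1 (fun z => Real.sqrt (2 * psi Log a z + ε)) (regSet φ) :=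
    hρ.sqrt fun z _ => (hpos z).ne'
  have hls : ContDiffOn ℝ 1 (fun z => l * Real.sqrt (2 * psi Log a z + ε)) (regSet φ) :=
    contDiffOn_const.mul hs
  have hne : ∀ z ∈ regSet φ, Real.sqrt (2 * psi Log a z + ε) ≠ 0 := fun z _ =>
    (Real.sqrt_pos.2 (hpos z)).ne'
  have hmem : MapsTo (fun z => l * Real.sqrt (2 * psi Log a z + ε)) (regSet φ) (Ioi 0) :=
    fun z _ => mul_pos hl (Real.sqrt_pos.2 (hpos z))
  have cA := (p.smoothA.of_le (by simp)).comp hls hmem
  have cA' := (p.smoothA'.of_le (by simp)).comp hls hmem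
  have cB := (p.smoothB.of_le (by simp)).comp hls hmem
  have cB' := (p.smoothB'.of_le (by simp)).comp hls hmem
  have hw : ContDiffOn ℝ 1 (fun z => fderiv ℝ (psi Log a) z (unitN g φ z) /
      Real.sqrt (2 * psi Log a z + ε)) (regSet φ) :=
    ((((hc.smooth_psi_at a).fderiv_right (m := 1) (WithTop.coe_le_coe.2 le_top)).contDiffOn).clm_apply
      (contDiffOn_unitN hg hd)).div hs hne
  have hv : ContDiffOn ℝ 1 (fun z => uFn Log a e z / Real.sqrt (2 * psi Log a z + ε)) (regSet φ) :=
    ((contDiff_uFn hc a e).of_le (by simp)).contDiffOn.div hs hne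
  have hF := cA.add (cB.mul hv)
  have hls0 : ∀ z ∈ regSet φ, l * Real.sqrt (2 * psi Log a z + ε) ≠ 0 := fun z hz => (hmem hz).ne'
  refine ⟨contDiffOn_const.mul ((((cA'.add (cB'.mul hv)).mul (contDiffOn_const.sub (hw.pow 2))).add
    (((contDiffOn_const.add (hw.pow 2)).mul hF).div hls hls0)).add
    (((cB.mul (((hw.pow 2).add contDiffOn_const).sqrt fun z _ => ?_)).mul
      ((contDiffOn_const.sub (hw.pow 2)).sub (hv.pow 2))).div (contDiffOn_const.mul hls) fun z hz =>
        mul_ne_zero two_ne_zero (hls0 z hz))), hF.mul hw⟩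
  exact ne_of_gt (add_pos_of_nonneg_of_pos (sq_nonneg _) hδ)

/-- The variation at one pole. -/
theorem variation_one (hn : n = k + 1) (hk : 1 ≤ k) (hg : IsMetric g) (hc : JointCharts g Exp Log)
    (hs : SecBound g 0) (o : Space n) {M : ℝ} (hM : 0 < M) {ε δ e : ℝ} (hε : 0 < ε)
    (hδ : 0 < δ) (he : 0 < e) (q : Space n × Space n × ℝ) (ha : psi Log o q.1 ≤ M)
    (hq : ‖q.2.1‖ ≤ 1) (hl : 0 < q.2.2) :
    ∀ᶠ t in 𝓝[>] (0 : ℝ), ∀ φ : Space n → ℝ, ∀ η : ℝ, Defining φ → RegWindow φ η →
      sub φ 0 ⊆ {x | psi Log o x ≤ M} →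
      ∃ φ', Defining φ' ∧ sub φ' 0 ⊆ {x | psi Log o x ≤ M} ∧
        (Univ.gPer g (sub φ' 0)).toReal ≤ (1 + t * e) * area g φ η 0 (fun _ => 1) -
          t * area g φ η 0 (areaKer p Log g φ ε δ q) ∧
        (1 - t * e) * Univ.gVol g (sub φ 0) - t * area g φ η 0 (volKer p Log g φ ε q) -
          t * e * area g φ η 0 (fun _ => 1) ≤ Univ.gVol g (sub φ' 0) := by
  have hn2 : 2 ≤ n := by omega
  obtain ⟨a, v, l⟩ := q
  set κ := e / (Real.sqrt (2 * M) + 1)
  have hκ : 0 < κ := by positivity
  set X := field p g Log l ε κ o M a v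
  have hXs : ContDiff ℝ ∞ X := contDiff_field p hg hc hl hε κ o M a v
  have hX : ContDiff ℝ 2 X := hXs.of_le (WithTop.coe_le_coe.2 le_top)
  have hX1 : ContDiff ℝ 1 X := hX.of_le (by norm_num)
  have hXc : HasCompactSupport X := compact_field p hg hc hs hn2 l ε κ o M a v
  have hpo := FV.pot_psi hn2 hg hc hs o
  have hK : IsCompact {x | psi Log o x ≤ M} := hpo.compact M
  -- the field points outwards on the boundary of the ball
  have hout : ∀ x, psi Log o x = M → 0 < fderiv ℝ (psi Log o) x (X x) := by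
    intro x hx
    rw [show X x = radial p g Log l ε a v x + κ • gGrad g (psi Log o) x from
      (field_eventually (g := g) p hc (l := l) (ε := ε) (κ := κ) (a := a) (e := v) hx.le).eq_of_nhds,
      map_add, radial, map_smul, map_smul, smul_eq_mul, smul_eq_mul,
      ← gGrad_dual hg (psi Log o) x (gGrad g (psi Log o) x), grad_psi_sq hg hc]
    have h1 := psi_convex hg hc hs o a x
    have h2 : 0 ≤ coef p l ε (psi Log a x) (uFn Log a v x) := coef_nonneg p hl hε hq x
    have h3 := mul_nonneg h2 (show 0 ≤ fderiv ℝ (psi Log o) x (gGrad g (psi Log a) x) by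
      linarith [FV.psi_nonneg Log a x])
    rw [hx]
    have := mul_pos hκ (show 0 < 2 * M by linarith)
    linarith
  filter_upwards [(eventually_good hX hXc).filter_mono nhdsWithin_le_nhds,
    normal_bound hg hX hK he, ratio_bounds hg hX hK he, stays_inside hpo.smooth hX hK hout,
    eventually_mem_nhdsWithin] with t hgood hnb hrb hin htpos φ η hd hw hsub
  have ht : 0 < t := htpos
  obtain ⟨φ', hd', hsub'⟩ := image_domain hX hXc hgood hd
  have hE : MeasurableSet (sub φ 0) := Surf.measurableSet_sub hd.smooth.continuous 0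
  have hlev : ∀ z, φ z = 0 → psi Log o z ≤ M ∧ g z (unitN g φ z) (unitN g φ z) = 1 := by
    intro z hz
    refine ⟨(closure_minimal hsub hK.isClosed)
      (mem_closure_sub (hd.smooth.differentiable (by norm_num) z) hz (hd.reg z hz)), ?_⟩
    rw [← gNorm_sq hg, Surf.gNorm_unitN hg (hd.reg z hz), one_pow]
  have hτ : |(0 : ℝ)| < η / 2 := by rw [abs_zero]; linarith [hw.1]
  obtain ⟨hka, hkv⟩ := contDiffOn_kers p hg hc hd hε hδ (q := (a, v, l)) hl
  have hc1 : ContDiffOn ℝ 1 (fun _ : Space n => (1 : ℝ)) (regSet φ) := contDiffOn_const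
  refine ⟨φ', hd', ?_, ?_, ?_⟩
  · rw [hsub']
    rintro _ ⟨x, hx, rfl⟩
    exact hin x (hsub hx)
  · set B := (1 + t * e) * area g φ η 0 (fun _ => 1) - t * area g φ η 0 (areaKer p Log g φ ε δ (a, v, l))
    have key : ∀ Y : Space n → Space n, ContDiff ℝ 1 Y → HasCompactSupport Y →
        (∀ x, gNorm g x (Y x) ≤ 1) →
        ∫ x in sub φ' 0, divg (fun y => dens g y • Y y) x ≤ B := by
      intro Y hY1 hYc hYn
      obtain ⟨W, hW⟩ : ∃ W : Space n → Space n, W = fun y => dens g y • Y y := ⟨_, rfl⟩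
      have hW1 : ContDiff ℝ 1 W := hW ▸ contDiff_weighted hg hY1
      have hWc : HasCompactSupport W := hW ▸ hasCompactSupport_weighted (g := g) hYc
      obtain ⟨hV, hVc, hpi⟩ := hgood.piola_spec hX hW1 hWc
      obtain ⟨Z, hZ⟩ : ∃ Z : Space n → Space n, Z = fun x => (dens g x)⁻¹ • piola X t W x :=
        ⟨_, rfl⟩
      have hZd : (fun y => dens g y • Z y) = piola X t W := by
        funext y
        rw [hZ, smul_smul, mul_inv_cancel₀ (dens_pos hg y).ne', one_smul]
      have hZ1 : ContDiff ℝ 1 Z := by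
        rw [hZ]
        exact (((contDiff_dens hg).of_le (by simp)).inv fun x => (dens_pos hg x).ne').smul hV
      have hBeq : B = area g φ η 0 fun z => (1 + t * e) + -t * areaKer p Log g φ ε δ (a, v, l) z := by
        rw [area_affine hg hd hw hka]; ring
      rw [hsub', hgood.integral_image hX hE, ← hW, hBeq]
      simp only [← hpi]
      rw [← hZd, ← gInt_gDiv hg, flux hg hd hw hτ hZ1]
      refine area_mono hg hd hw hτ (contDiffOn_normalPart hg hd hZ1)
        (contDiffOn_const.add (contDiffOn_const.mul hka)) fun z hz => ?_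
      obtain ⟨hzK, hN⟩ := hlev z hz
      obtain ⟨w, hw'⟩ : ∃ w, w = (dDisp X t z).inverse (Y (disp X t z)) := ⟨_, rfl⟩
      have hwY : dDisp X t z w = Y (disp X t z) := by
        rw [hw', (hgood.dDisp_inverse hX z).self_apply_inverse]
      have hZx : Z z = ratio g X t z • w := by
        rw [hZ, hw']
        simp only [piola, hW, map_smul, smul_smul, ratio]
        congr 1
        rw [inv_mul_eq_div]
      have hY2 : sqPush g X t (z, w) ≤ 1 := by
        simp only [sqPush, hwY]
        exact Real.sqrt_le_one.1 (hYn _)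
      have h := hnb z hzK _ hN w hY2
      have hth : areaKer p Log g φ ε δ (a, v, l) z ≤
          gDiv g X z - g z (cov g X z (unitN g φ z)) (unitN g φ z) :=
        theta_lower p hg hc hs hn hk hl hε hδ.le hκ.le hq hzK hN
      have h2 := mul_le_mul_of_nonneg_left hth ht.le
      rw [hZx, map_smul, smul_apply, smul_eq_mul]
      linarith
    have hB : 0 ≤ B := by
      have := key (fun _ => 0) contDiff_const HasCompactSupport.zero fun x => by simp [gNorm_zero]
      simpa [divg, pd] using this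
    have hle : Univ.gPer g (sub φ' 0) ≤ ENNReal.ofReal B := iSup₂_le fun Y hY =>
      ENNReal.ofReal_le_ofReal (key Y hY.1 hY.2.1 hY.2.2)
    exact (ENNReal.toReal_mono ENNReal.ofReal_ne_top hle).trans_eq (ENNReal.toReal_ofReal hB)
  · have hdc : Continuous fun x => gDiv g X x * dens g x := by
      simp only [gDiv_mul_dens hg]
      exact continuous_divg (contDiff_weighted hg hX1)
    have hi1 : IntegrableOn (dens g) (sub φ 0) :=
      Surf.integrableOn_sub hd zero_le_one (contDiff_dens hg).continuous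
    have hi2 : IntegrableOn (fun x => gDiv g X x * dens g x) (sub φ 0) :=
      Surf.integrableOn_sub hd zero_le_one hdc
    have hir : IntegrableOn (fun x => ratio g X t x * dens g x) (sub φ 0) :=
      Surf.integrableOn_sub hd zero_le_one
        (((contDiff_ratio hg hX).continuous.comp (continuous_const.prodMk continuous_id)).mul
          (contDiff_dens hg).continuous)
    have hV' : Univ.gVol g (sub φ' 0) = ∫ x in sub φ 0, ratio g X t x * dens g x := by
      rw [Univ.gVol, hsub', hgood.integral_image hX hE]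
      refine setIntegral_congr_fun hE fun x _ => ?_
      simp only [ratio]
      field_simp [(dens_pos hg x).ne']
    have hlow : (1 - t * e) * Univ.gVol g (sub φ 0) - t * gInt g (sub φ 0) (gDiv g X) ≤
        Univ.gVol g (sub φ' 0) := by
      rw [hV']
      simp only [Univ.gVol, gInt]
      rw [← integral_const_mul, ← integral_const_mul t, ← integral_sub (hi1.const_mul _) (hi2.const_mul _)]
      refine setIntegral_mono_on ((hi1.const_mul _).sub (hi2.const_mul _)) hir hE fun x hx => ?_
      have h := mul_le_mul_of_nonneg_right (hrb x (hsub hx)).1 (dens_pos hg x).le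
      linarith
    have hflux : gInt g (sub φ 0) (gDiv g X) ≤
        area g φ η 0 (volKer p Log g φ ε (a, v, l)) + e * area g φ η 0 (fun _ => 1) := by
      have e1 := area_affine hg hd hw hkv e 1
      rw [flux hg hd hw hτ hX1]
      refine le_trans (area_mono hg hd hw hτ (contDiffOn_normalPart hg hd hX1)
        (contDiffOn_const.add (contDiffOn_const.mul hkv)) fun z hz => ?_) (by linarith)
      obtain ⟨hzK, hN⟩ := hlev z hz
      rw [show X z = radial p g Log l ε a v z + κ • gGrad g (psi Log o) z from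
        (field_eventually (g := g) p hc (l := l) (ε := ε) (κ := κ) (a := a) (e := v) hzK).eq_of_nhds,
        map_add, _root_.add_apply, radial, map_smul, map_smul, smul_apply, smul_apply, smul_eq_mul,
        smul_eq_mul, gGrad_dual hg, gGrad_dual hg]
      have hb : |fderiv ℝ (psi Log o) z (unitN g φ z)| ≤ Real.sqrt (2 * M) := by
        rw [← gGrad_dual hg (psi Log o) z]
        refine (abs_g_le hg z _ _).trans ?_
        simp only [gNorm, hN, Real.sqrt_one, mul_one]
        refine Real.sqrt_le_sqrt ?_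
        rw [grad_psi_sq hg hc]; linarith
      have hb2 : κ * fderiv ℝ (psi Log o) z (unitN g φ z) ≤ e := by
        refine (mul_le_mul_of_nonneg_left ((le_abs_self _).trans hb) hκ.le).trans ?_
        simp only [κ]
        rw [div_mul_eq_mul_div, div_le_iff₀ (by positivity)]
        exact mul_le_mul_of_nonneg_left (by linarith) he.le
      rw [coef_mul p hε a v z]
      simp only [volKer]
      linarith
    have h2 := mul_le_mul_of_nonneg_left hflux ht.le
    linarith

/-- The two kernels as functions of the parameter, the point and the normal. -/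
def ker (Log : Space n → Space n → Space n) (ε δ : ℝ)
    (x : (Space n × Space n × ℝ) × Space n × Space n) : ℝ × ℝ :=
  (areaFn p x.1.2.2 ε δ (2 * psi Log x.1.1 x.2.1) (fderiv ℝ (psi Log x.1.1) x.2.1 x.2.2)
      (uFn Log x.1.1 x.1.2.1 x.2.1),
    volFn p x.1.2.2 ε (2 * psi Log x.1.1 x.2.1) (fderiv ℝ (psi Log x.1.1) x.2.1 x.2.2)
      (uFn Log x.1.1 x.1.2.1 x.2.1))

theorem cont_fns {X : Type*} [TopologicalSpace X] {l S w v : X → ℝ} {x : X}
    (hl : ContinuousAt l x) (hS : ContinuousAt S x) (hw : ContinuousAt w x) (hv : ContinuousAt v x)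
    (hl0 : 0 < l x) (hS0 : 0 < S x) (δ : ℝ) :
    ContinuousAt (fun y => l y * ((p.A' (l y * S y) + p.B' (l y * S y) * v y) * (1 - w y ^ 2) +
      ((k : ℝ) - 1 + w y ^ 2) * (p.A (l y * S y) + p.B (l y * S y) * v y) / (l y * S y) +
      p.B (l y * S y) * Real.sqrt (w y ^ 2 + δ) * (2 - w y ^ 2 - v y ^ 2) / (2 * (l y * S y)))) x ∧
    ContinuousAt (fun y => (p.A (l y * S y) + p.B (l y * S y) * v y) * w y) x := by
  have hL : ContinuousAt (fun y => l y * S y) x := hl.mul hS
  have hL0 : 0 < l x * S x := mul_pos hl0 hS0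
  have hmem : Ioi (0 : ℝ) ∈ 𝓝 (l x * S x) := isOpen_Ioi.mem_nhds hL0
  have cA := (p.smoothA.continuousOn.continuousAt hmem).comp (f := fun y => l y * S y) hL
  have cA' := (p.smoothA'.continuousOn.continuousAt hmem).comp (f := fun y => l y * S y) hL
  have cB := (p.smoothB.continuousOn.continuousAt hmem).comp (f := fun y => l y * S y) hL
  have cB' := (p.smoothB'.continuousOn.continuousAt hmem).comp (f := fun y => l y * S y) hL
  have cF := cA.add (cB.mul hv)
  exact ⟨hl.mul ((((cA'.add (cB'.mul hv)).mul (continuousAt_const.sub (hw.pow 2))).add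
    (((continuousAt_const.add (hw.pow 2)).mul cF).div hL hL0.ne')).add
    (((cB.mul ((hw.pow 2).add continuousAt_const).sqrt).mul
      ((continuousAt_const.sub (hw.pow 2)).sub (hv.pow 2))).div
      (continuousAt_const.mul hL) (mul_ne_zero two_ne_zero hL0.ne'))), cF.mul hw⟩

theorem continuousAt_ker (hc : JointCharts g Exp Log) {ε δ : ℝ} (hε : 0 < ε)
    {x : (Space n × Space n × ℝ) × Space n × Space n} (hl : 0 < x.1.2.2) :
    ContinuousAt (ker p Log ε δ) x := by
  have hs := hc.smooth_psi
  have hd : ∀ a z W, fderiv ℝ (psi Log a) z W =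
      fderiv ℝ (fun p : Space n × Space n => psi Log p.1 p.2) (a, z) (0, W) := by
    intro a z W
    have h1 : HasFDerivAt (fun y : Space n => (a, y))
        (ContinuousLinearMap.inr ℝ (Space n) (Space n)) z :=
      (hasFDerivAt_const a z).prodMk (hasFDerivAt_id (𝕜 := ℝ) z)
    have h2 := ((hs.differentiable (by simp)) (a, z)).hasFDerivAt.comp z h1
    rw [show psi Log a = (fun p : Space n × Space n => psi Log p.1 p.2) ∘ fun y => (a, y) from rfl,
      h2.fderiv]
    rfl
  have cp : Continuous fun y : (Space n × Space n × ℝ) × Space n × Space n => (y.1.1, y.2.1) := by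
    fun_prop
  have hm : Continuous fun y : (Space n × Space n × ℝ) × Space n × Space n =>
      fderiv ℝ (psi Log y.1.1) y.2.1 y.2.2 := by
    simp only [hd]
    exact ((hs.continuous_fderiv (by simp)).comp cp).clm_apply
      (continuous_const.prodMk (continuous_snd.comp continuous_snd))
  have hρ : Continuous fun y : (Space n × Space n × ℝ) × Space n × Space n =>
      2 * psi Log y.1.1 y.2.1 := by
    have h0 := (hs.continuous.comp cp).const_mul 2
    exact h0
  have hu : Continuous fun y : (Space n × Space n × ℝ) × Space n × Space n =>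
      uFn Log y.1.1 y.1.2.1 y.2.1 := by
    have h0 := hc.continuous_log.comp cp
    have h1 : Continuous fun y : (Space n × Space n × ℝ) × Space n × Space n => y.1.2.1 := by fun_prop
    exact h0.inner (𝕜 := ℝ) h1
  have hS : Continuous fun y : (Space n × Space n × ℝ) × Space n × Space n =>
      Real.sqrt (2 * psi Log y.1.1 y.2.1 + ε) := (hρ.add continuous_const).sqrt
  have hne : ∀ y : (Space n × Space n × ℝ) × Space n × Space n,
      0 < Real.sqrt (2 * psi Log y.1.1 y.2.1 + ε) := fun y => Real.sqrt_pos.2 (by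
    have := FV.psi_nonneg Log y.1.1 y.2.1
    positivity)
  have hl' : Continuous fun y : (Space n × Space n × ℝ) × Space n × Space n => y.1.2.2 := by
    fun_prop
  have hw : Continuous fun y : (Space n × Space n × ℝ) × Space n × Space n =>
      fderiv ℝ (psi Log y.1.1) y.2.1 y.2.2 / Real.sqrt (2 * psi Log y.1.1 y.2.1 + ε) :=
    hm.div hS fun y => (hne y).ne'
  have hv : Continuous fun y : (Space n × Space n × ℝ) × Space n × Space n =>
      uFn Log y.1.1 y.1.2.1 y.2.1 / Real.sqrt (2 * psi Log y.1.1 y.2.1 + ε) :=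
    hu.div hS fun y => (hne y).ne'
  have key := cont_fns p hl'.continuousAt hS.continuousAt hw.continuousAt hv.continuousAt hl (hne x) δ
  unfold ker areaFn volFn
  exact key.1.prodMk key.2

/-- The parameters: poles in the ball, directions in the unit ball, scales in an interval. -/
def params (Log : Space n → Space n → Space n) (o : Space n) (M l₀ l₁ : ℝ) :
    Set (Space n × Space n × ℝ) :=
  {q | psi Log o q.1 ≤ M ∧ ‖q.2.1‖ ≤ 1 ∧ q.2.2 ∈ Icc l₀ l₁}

/-- The unit tangent vectors over the ball. -/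
def units (g : MetricField n) (Log : Space n → Space n → Space n) (o : Space n) (M : ℝ) :
    Set (Space n × Space n) :=
  {x | psi Log o x.1 ≤ M ∧ g x.1 x.2 x.2 = 1}

theorem compact_params (hn2 : 2 ≤ n) (hg : IsMetric g) (hc : JointCharts g Exp Log)
    (hs : SecBound g 0) (o : Space n) (M l₀ l₁ : ℝ) :
    IsCompact (params Log o M l₀ l₁) ∧ IsCompact (units g Log o M) := by
  have hK := (FV.pot_psi hn2 hg hc hs o).compact M
  constructor
  · refine (hK.prod ((isCompact_closedBall (0 : Space n) 1).prod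
      (isCompact_Icc (a := l₀) (b := l₁)))).of_isClosed_subset ?_ fun q hq =>
        ⟨hq.1, mem_closedBall_zero_iff.2 hq.2.1, hq.2.2⟩
    exact (hK.isClosed.preimage continuous_fst).inter
      ((isClosed_le (continuous_fst.comp continuous_snd).norm continuous_const).inter
        (isClosed_Icc.preimage (continuous_snd.comp continuous_snd)))
  · obtain ⟨m, hm, hmK⟩ := coercive hg hK
    refine (hK.prod (isCompact_closedBall (0 : Space n) (Real.sqrt (1 / m)))).of_isClosed_subset
      ((hK.isClosed.preimage continuous_fst).inter (isClosed_eq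
        (contDiff_quad hg (F := Space n × Space n) contDiff_fst contDiff_snd).continuous
        continuous_const)) fun p hp => ⟨hp.1, mem_closedBall_zero_iff.2 ?_⟩
    refine Real.le_sqrt_of_sq_le ?_
    rw [le_div_iff₀ hm]
    linarith [hmK p.1 hp.1 p.2, hp.2]

theorem vol_bound (hn2 : 2 ≤ n) (hg : IsMetric g) (hc : JointCharts g Exp Log) (hs : SecBound g 0)
    (o : Space n) (M : ℝ) {l₀ l₁ ε δ : ℝ} (hl₀ : 0 < l₀) (hε : 0 < ε) :
    ∃ Cv, 0 ≤ Cv ∧ ∀ q ∈ params Log o M l₀ l₁, ∀ x ∈ units g Log o M,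
      |(ker p Log ε δ (q, x)).2| ≤ Cv := by
  obtain ⟨h1, h2⟩ := compact_params (l₀ := l₀) (l₁ := l₁) hn2 hg hc hs o M
  obtain ⟨C, hC⟩ := (h1.prod h2).exists_bound_of_continuousOn fun x hx =>
    (continuousAt_ker p hc hε (δ := δ) (x := x) (lt_of_lt_of_le hl₀ hx.1.2.2.1)).snd.continuousWithinAt
  exact ⟨max C 0, le_max_right _ _, fun q hq x hx =>
    (hC (q, x) ⟨hq, hx⟩).trans (le_max_left _ _)⟩

/-- The variation, uniformly in the parameters. -/
theorem variation (hn : n = k + 1) (hk : 1 ≤ k) (hg : IsMetric g) (hc : JointCharts g Exp Log)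
    (hs : SecBound g 0) (o : Space n) {M : ℝ} (hM : 0 < M) {l₀ l₁ ε δ e : ℝ} (hl₀ : 0 < l₀)
    (hε : 0 < ε) (hδ : 0 < δ) (he : 0 < e) :
    ∀ᶠ t in 𝓝[>] (0 : ℝ), ∀ q ∈ params Log o M l₀ l₁, ∀ φ : Space n → ℝ, ∀ η : ℝ, Defining φ →
      RegWindow φ η → sub φ 0 ⊆ {x | psi Log o x ≤ M} →
      ∃ φ', Defining φ' ∧ sub φ' 0 ⊆ {x | psi Log o x ≤ M} ∧
        (Univ.gPer g (sub φ' 0)).toReal ≤ (1 + t * e) * area g φ η 0 (fun _ => 1) -
          t * area g φ η 0 (areaKer p Log g φ ε δ q) ∧
        (1 - t * e) * Univ.gVol g (sub φ 0) - t * area g φ η 0 (volKer p Log g φ ε q) -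
          t * e * area g φ η 0 (fun _ => 1) ≤ Univ.gVol g (sub φ' 0) := by
  have hn2 : 2 ≤ n := by omega
  have hKc := ((FV.pot_psi hn2 hg hc hs o).compact M).isClosed
  obtain ⟨hQ, hU⟩ := compact_params (l₀ := l₀) (l₁ := l₁) hn2 hg hc hs o M
  have hnear : ∀ q₀ ∈ params Log o M l₀ l₁, ∀ᶠ q in 𝓝 q₀, ∀ x ∈ units g Log o M,
      dist (ker p Log ε δ (q, x)) (ker p Log ε δ (q₀, x)) < e / 2 := fun q₀ hq₀ => by
    have hl : 0 < q₀.2.2 := lt_of_lt_of_le hl₀ hq₀.2.2.1
    refine hU.eventually_forall_of_forall_eventually (x₀ := q₀) fun x _ =>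
      Tendsto.eventually_lt_const (f := fun y : (Space n × Space n × ℝ) × (Space n × Space n) =>
        dist (ker p Log ε δ y) (ker p Log ε δ (q₀, y.2))) (v := 0) (by linarith) ?_
    have c1 := continuousAt_ker p hc hε (δ := δ) (x := (q₀, x)) hl
    have c2 : ContinuousAt (fun y : (Space n × Space n × ℝ) × (Space n × Space n) =>
        ker p Log ε δ (q₀, y.2)) (q₀, x) :=
      ContinuousAt.comp (x := (q₀, x)) (f := fun y : (Space n × Space n × ℝ) ×
        (Space n × Space n) => (q₀, y.2)) c1 (continuousAt_const.prodMk continuousAt_snd)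
    have h : Tendsto _ (𝓝 (q₀, x)) (𝓝 _) := c1.dist c2
    simpa using h
  obtain ⟨S, hcov⟩ := hQ.elim_nhds_subcover' _ hnear
  filter_upwards [(S.eventually_all).2 fun q₀ _ =>
    variation_one p hn hk hg hc hs o hM hε hδ (half_pos he) q₀.1 q₀.2.1 q₀.2.2.1
      (lt_of_lt_of_le hl₀ q₀.2.2.2.1), eventually_mem_nhdsWithin]
    with t hall htpos q hqQ φ η hd hw hsub
  have ht : 0 < t := htpos
  obtain ⟨q₀, hq₀S, hq₀'⟩ : ∃ q₀ ∈ S, ∀ x ∈ units g Log o M,
      dist (ker p Log ε δ (q, x)) (ker p Log ε δ (q₀.1, x)) < e / 2 := by simpa using hcov hqQ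
  obtain ⟨φ', hd', hsub', hP, hV⟩ := hall q₀ hq₀S φ η hd hw hsub
  have hτ : |(0 : ℝ)| < η / 2 := by rw [abs_zero]; linarith [hw.1]
  obtain ⟨hka, hkv⟩ := contDiffOn_kers p hg hc hd hε hδ (q := q) (lt_of_lt_of_le hl₀ hqQ.2.2.1)
  obtain ⟨hka₀, hkv₀⟩ := contDiffOn_kers p hg hc hd hε hδ (q := q₀.1)
    (lt_of_lt_of_le hl₀ q₀.2.2.2.1)
  have hclose : ∀ z, φ z = 0 →
      |areaKer p Log g φ ε δ q z - areaKer p Log g φ ε δ q₀.1 z| < e / 2 ∧
      |volKer p Log g φ ε q z - volKer p Log g φ ε q₀.1 z| < e / 2 := by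
    intro z hz
    have h := hq₀' (z, unitN g φ z) ⟨(closure_minimal hsub hKc)
      (mem_closure_sub (hd.smooth.differentiable (by norm_num) z) hz (hd.reg z hz)), by
      rw [← gNorm_sq hg, Surf.gNorm_unitN hg (hd.reg z hz), one_pow]⟩
    rw [Prod.dist_eq, max_lt_iff, Real.dist_eq, Real.dist_eq] at h
    exact h
  have e1 := area_affine hg hd hw hka₀ (e / 2) 1
  have h1 := area_mono hg hd hw hτ hka (contDiffOn_const.add (contDiffOn_const.mul hka₀))
    (h' := fun z => e / 2 + 1 * areaKer p Log g φ ε δ q₀.1 z) fun z hz => by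
      linarith [(abs_lt.1 (hclose z hz).1).2]
  have e2 := area_affine hg hd hw hkv (e / 2) 1
  have h2 := area_mono hg hd hw hτ hkv₀ (contDiffOn_const.add (contDiffOn_const.mul hkv))
    (h' := fun z => e / 2 + 1 * volKer p Log g φ ε q z) fun z hz => by
      linarith [(abs_lt.1 (hclose z hz).2).1]
  rw [e1] at h1
  rw [e2] at h2
  have h1' := mul_le_mul_of_nonneg_left h1 ht.le
  have h2' := mul_le_mul_of_nonneg_left h2 ht.le
  have hA : 0 ≤ area g φ η 0 (fun _ => 1) :=
    area_nonneg hg hd hw hτ contDiffOn_const fun _ _ => zero_le_one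
  have hV0 : 0 ≤ Univ.gVol g (sub φ 0) :=
    integral_nonneg fun x => (dens_pos hg x).le
  have h3 := mul_nonneg (mul_nonneg ht.le he.le) hV0
  exact ⟨φ', hd', hsub', by linarith, by linarith⟩

end

end Vale.Agent.P219.SharpK
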