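import Mathlib
import Vale.Agent.P219.Six.Const

/-!
# Integrals over spheres of functions of one coordinate
-/

open MeasureTheory Set Real Filter
open scoped ENNReal RealInnerProductSpace Pointwise

namespace Vale.Agent.P219.SharpK

open Vale.Agent.P219 Vale.Agent.P219.Univ Vale.Agent.P219.Six

noncomputable section

variable {k : ℕ}

theorem integrable_poly {f : Space (k + 1) → ℝ} (hf : Continuous f) {C : ℝ} (hC0 : 0 ≤ C) {j : ℕ}
    (hC : ∀ z, |f z| ≤ C * ‖z‖ ^ j) : Integrable fun z => f z * stdDens z := by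
  have hi := (GaussianFourier.integrable_cexp_neg_mul_sq_norm_add
    (V := Space (k + 1)) (show 0 < ((1 / 4 : ℝ) : ℂ).re by simp) 0 0).re
  set D := C * (1 + 4 ^ j * (j.factorial : ℝ))
  have hi' : Integrable fun z : Space (k + 1) => D * Real.exp (-(1 / 4) * ‖z‖ ^ 2) := by
    refine (hi.congr (ae_of_all _ fun z => ?_)).const_mul D
    simp [Complex.exp_re, ← Complex.ofReal_pow]
  refine hi'.mono' (hf.mul contDiff_stdDens.continuous).aestronglyMeasurable
    (ae_of_all _ fun z => ?_)
  rw [Real.norm_eq_abs, abs_mul, abs_of_pos (stdDens_pos z)]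
  have h1 : ‖z‖ ^ j ≤ (1 + 4 ^ j * (j.factorial : ℝ)) * Real.exp (1 / 4 * ‖z‖ ^ 2) := by
    have h2 := Real.pow_div_factorial_le_exp (1 / 4 * ‖z‖ ^ 2) (by positivity) j
    rw [div_le_iff₀ (by positivity)] at h2
    have h3 : (1 / 4 * ‖z‖ ^ 2) ^ j * 4 ^ j = (‖z‖ ^ j) ^ 2 := by
      rw [← mul_pow, ← pow_mul, mul_comm j 2, pow_mul]; ring_nf
    have h4 := mul_le_mul_of_nonneg_right h2 (show (0 : ℝ) ≤ 4 ^ j by positivity)
    rw [h3] at h4
    have h5 : 1 ≤ Real.exp (1 / 4 * ‖z‖ ^ 2) := Real.one_le_exp (by positivity)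
    nlinarith [sq_nonneg (‖z‖ ^ j - 1)]
  have e : stdDens z = Real.exp (-(1 / 4) * ‖z‖ ^ 2) / Real.exp (1 / 4 * ‖z‖ ^ 2) := by
    rw [← Real.exp_sub]; unfold stdDens; ring_nf
  rw [e, mul_div_assoc', div_le_iff₀ (Real.exp_pos _)]
  refine (mul_le_mul_of_nonneg_right (hC z) (Real.exp_pos _).le).trans ?_
  have h6 := mul_le_mul_of_nonneg_left h1 hC0
  have h7 := mul_le_mul_of_nonneg_right h6 (Real.exp_pos (-(1 / 4) * ‖z‖ ^ 2)).le
  refine h7.trans (le_of_eq ?_)
  simp only [D]
  ring

theorem integrable_inner_pow {e : Space (k + 1)} (he : ‖e‖ = 1) (j : ℕ) :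
    Integrable fun z : Space (k + 1) => ⟪z, e⟫ ^ j * stdDens z :=
  integrable_poly (by fun_prop) (C := 1) zero_le_one (j := j) fun z => by
    rw [abs_pow, one_mul]
    refine pow_le_pow_left₀ (abs_nonneg _) ?_ j
    have := abs_real_inner_le_norm z e
    rwa [he, mul_one] at this

theorem gauss_split {P : Space (k + 1) → ℝ} {j : ℕ}
    (hh : ∀ r : ℝ, 0 < r → ∀ v, P (r • v) = r ^ j * P v) :
    ∫ z, P z * stdDens z =
      (∫ v, P v ∂dirs (k + 1)) * ∫ r in Ioi (0 : ℝ), r ^ (k + j) * Real.exp (-(1 / 2) * r ^ 2) := by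
  set μ := (volume : Measure (Space (k + 1)))
  set F := fun z : Space (k + 1) => P z * stdDens z with hF
  calc ∫ z, F z = ∫ x : ({(0 : Space (k + 1))}ᶜ : Set (Space (k + 1))), F x.1 ∂(μ.comap (↑)) := by
        rw [integral_subtype_comap (measurableSet_singleton _).compl F, restrict_compl_singleton]
    _ = ∫ x, P x.1 * ((x.2 : ℝ) ^ j * Real.exp (-(1 / 2) * (x.2 : ℝ) ^ 2))
          ∂μ.toSphere.prod (.volumeIoiPow k) := by
        have := μ.measurePreserving_homeomorphUnitSphereProd.integral_comp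
          (Homeomorph.measurableEmbedding _)
          (fun x => P x.1 * ((x.2 : ℝ) ^ j * Real.exp (-(1 / 2) * (x.2 : ℝ) ^ 2)))
        simp only [finrank_euclideanSpace_fin, Nat.add_sub_cancel] at this
        rw [← this]
        refine integral_congr_ae (ae_of_all _ fun x => ?_)
        have hx : 0 < ‖(x : Space (k + 1))‖ := norm_pos_iff.2 x.2
        simp only [homeomorphUnitSphereProd_apply_snd_coe, homeomorphUnitSphereProd_apply_fst_coe,
          hF, stdDens]
        rw [hh _ (inv_pos.2 hx), inv_pow]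
        field_simp
    _ = (∫ v, P v ∂dirs (k + 1)) * ∫ r : Ioi (0 : ℝ),
          (r : ℝ) ^ j * Real.exp (-(1 / 2) * (r : ℝ) ^ 2) ∂.volumeIoiPow k :=
        integral_prod_mul (μ := dirs (k + 1))
          (fun v : Metric.sphere (0 : Space (k + 1)) 1 => P v)
          (fun r : Ioi (0 : ℝ) => (r : ℝ) ^ j * Real.exp (-(1 / 2) * (r : ℝ) ^ 2))
    _ = _ := by
        congr 1
        simp only [Measure.volumeIoiPow, ENNReal.ofReal]
        rw [integral_withDensity_eq_integral_smul, integral_subtype_comap measurableSet_Ioi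
          fun a : ℝ => Real.toNNReal (a ^ k) • (a ^ j * Real.exp (-(1 / 2) * a ^ 2))]
        · refine setIntegral_congr_fun measurableSet_Ioi fun x hx => ?_
          rw [NNReal.smul_def, Real.coe_toNNReal _ (pow_nonneg (mem_Ioi.1 hx).le _), smul_eq_mul,
            pow_add]
          ring
        · exact (measurable_subtype_coe.pow_const _).real_toNNReal

theorem radial_step (m : ℕ) :
    0 < ∫ r in Ioi (0 : ℝ), r ^ m * Real.exp (-(1 / 2) * r ^ 2) ∧
    ∫ r in Ioi (0 : ℝ), r ^ (m + 2) * Real.exp (-(1 / 2) * r ^ 2) =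
      ((m : ℝ) + 1) * ∫ r in Ioi (0 : ℝ), r ^ m * Real.exp (-(1 / 2) * r ^ 2) := by
  have key : ∀ j : ℕ, ∫ r in Ioi (0 : ℝ), r ^ j * Real.exp (-(1 / 2) * r ^ 2) =
      (1 / 2 : ℝ) ^ (-((j : ℝ) + 1) / 2) * (1 / 2) * Real.Gamma (((j : ℝ) + 1) / 2) := fun j => by
    have h := integral_rpow_mul_exp_neg_mul_rpow (p := 2) (q := (j : ℝ)) (b := 1 / 2) two_pos
      (by have : (0 : ℝ) ≤ j := Nat.cast_nonneg j; linarith) (by norm_num)
    simpa only [Real.rpow_natCast, Real.rpow_two] using h
  refine ⟨?_, ?_⟩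
  · rw [key]
    have := Real.Gamma_pos_of_pos (show 0 < ((m : ℝ) + 1) / 2 by positivity)
    positivity
  · rw [key, key]
    rw [show ((m + 2 : ℕ) : ℝ) + 1 = (m : ℝ) + 1 + 2 by push_cast; ring,
      show -((m : ℝ) + 1 + 2) / 2 = -((m : ℝ) + 1) / 2 - 1 by ring,
      show ((m : ℝ) + 1 + 2) / 2 = ((m : ℝ) + 1) / 2 + 1 by ring,
      Real.Gamma_add_one (by positivity), Real.rpow_sub_one (by norm_num)]
    ring

/-- The moments of one coordinate on the sphere. -/
theorem moment_step {e : Space (k + 1)} (he : ‖e‖ = 1) (j : ℕ) :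
    ((k : ℝ) + j + 1) * ∫ v, ⟪(v : Space (k + 1)), e⟫ ^ (j + 2) ∂dirs (k + 1) =
      ((j : ℝ) + 1) * ∫ v, ⟪(v : Space (k + 1)), e⟫ ^ j ∂dirs (k + 1) := by
  have hs : ∀ i : ℕ, ∫ z, ⟪z, e⟫ ^ i * stdDens z = (∫ v, ⟪(v : Space (k + 1)), e⟫ ^ i ∂dirs (k + 1)) *
      ∫ r in Ioi (0 : ℝ), r ^ (k + i) * Real.exp (-(1 / 2) * r ^ 2) := fun i =>
    gauss_split (P := fun z : Space (k + 1) => ⟪z, e⟫ ^ i) fun r _ v => by
      rw [real_inner_smul_left, mul_pow]
  have hc : ContDiff ℝ 1 fun z : Space (k + 1) => ⟪z, e⟫ ^ (j + 1) :=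
    (contDiff_id.inner ℝ contDiff_const).pow _
  have hd : ∀ z : Space (k + 1), fderiv ℝ (fun z : Space (k + 1) => ⟪z, e⟫ ^ (j + 1)) z e =
      ((j : ℝ) + 1) * ⟪z, e⟫ ^ j := by
    intro z
    have h : HasFDerivAt (fun z : Space (k + 1) => ⟪z, e⟫) (innerSL ℝ e) z := by
      rw [show (fun z : Space (k + 1) => ⟪z, e⟫) = innerSL ℝ e from
        funext fun z => real_inner_comm e z]
      exact (innerSL ℝ e).hasFDerivAt
    rw [fderiv_fun_pow (j + 1) h.differentiableAt, h.fderiv]
    simp [real_inner_self_eq_norm_sq, he]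
  have h := stein hc e (integrable_inner_pow he _)
    ((integrable_inner_pow he (j + 2)).congr (ae_of_all _ fun z => by ring))
    (by simp_rw [hd, mul_assoc]; exact (integrable_inner_pow he j).const_mul _)
  simp_rw [hd, mul_assoc, integral_const_mul] at h
  have h2 : ∫ z, ⟪z, e⟫ ^ (j + 2) * stdDens z =
      ((j : ℝ) + 1) * ∫ z, ⟪z, e⟫ ^ j * stdDens z := by
    rw [← h]
    exact integral_congr_ae (ae_of_all _ fun z => by ring)
  obtain ⟨hpos, hstep⟩ := radial_step (k + j)
  rw [hs, hs, show k + (j + 2) = k + j + 2 by ring, hstep] at h2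
  push_cast at h2
  exact mul_right_cancel₀ hpos.ne' (by linear_combination h2)

theorem integrable_dirs {F : Space (k + 1) → ℝ}
    (hF : Continuous fun v : Metric.sphere (0 : Space (k + 1)) 1 => F v) :
    Integrable (fun v : Metric.sphere (0 : Space (k + 1)) 1 => F v) (dirs (k + 1)) :=
  hF.integrable_of_hasCompactSupport (HasCompactSupport.of_compactSpace _)

theorem moment_one {e : Space (k + 1)} :
    ∫ v, ⟪(v : Space (k + 1)), e⟫ ∂dirs (k + 1) = 0 := by
  have h := dirs_neg.integral_comp (Homeomorph.neg _).measurableEmbedding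
    (fun v : Metric.sphere (0 : Space (k + 1)) 1 => ⟪(v : Space (k + 1)), e⟫)
  simp only [coe_neg_sphere, inner_neg_left, integral_neg] at h
  linarith

/-- A weight on `[-1, 1]` with the moments of one coordinate on the sphere. -/
structure Weight (k : ℕ) (w : ℝ → ℝ) : Prop where
  cont : Continuous w
  nonneg : ∀ t ∈ Icc (-1 : ℝ) 1, 0 ≤ w t
  one : ∫ t in (-1)..1, t * w t = 0
  step : ∀ j : ℕ, ((k : ℝ) + j + 1) * ∫ t in (-1)..1, t ^ (j + 2) * w t =
    ((j : ℝ) + 1) * ∫ t in (-1)..1, t ^ j * w t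

/-- Integrals over the sphere of functions of one coordinate. -/
theorem sphere_integral {w : ℝ → ℝ} (hw : Weight k w) {e : Space (k + 1)} (he : ‖e‖ = 1)
    {F : ℝ → ℝ} (hF : Continuous F) :
    (∫ t in (-1)..1, w t) * ∫ v, F ⟪(v : Space (k + 1)), e⟫ ∂dirs (k + 1) =
      (dirs (k + 1)).real univ * ∫ t in (-1)..1, F t * w t := by
  set W0 := ∫ t in (-1)..1, w t
  set Om := (dirs (k + 1)).real univ
  have hmono : ∀ j : ℕ, W0 * ∫ v, ⟪(v : Space (k + 1)), e⟫ ^ j ∂dirs (k + 1) =
      Om * ∫ t in (-1)..1, t ^ j * w t := by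
    intro j
    induction j using Nat.twoStepInduction with
    | zero => simp [W0, Om, mul_comm]
    | one => simp [moment_one, hw.one]
    | more j h1 h2 =>
      have hk : (0 : ℝ) < (k : ℝ) + j + 1 := by positivity
      have a := moment_step he j
      have b := hw.step j
      have : ((k : ℝ) + j + 1) * (W0 * ∫ v, ⟪(v : Space (k + 1)), e⟫ ^ (j + 2) ∂dirs (k + 1)) =
          ((k : ℝ) + j + 1) * (Om * ∫ t in (-1)..1, t ^ (j + 2) * w t) := by
        linear_combination W0 * a - Om * b + ((j : ℝ) + 1) * h1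
      exact mul_left_cancel₀ hk.ne' this
  set L : (ℝ → ℝ) → ℝ := fun G => W0 * (∫ v, G ⟪(v : Space (k + 1)), e⟫ ∂dirs (k + 1)) -
    Om * ∫ t in (-1)..1, G t * w t
  have hcont : ∀ G : ℝ → ℝ, Continuous G →
      Continuous fun v : Metric.sphere (0 : Space (k + 1)) 1 => G ⟪(v : Space (k + 1)), e⟫ :=
    fun G hG => hG.comp (by fun_prop)
  have hadd : ∀ G H : ℝ → ℝ, Continuous G → Continuous H → L (fun t => G t + H t) = L G + L H := by
    intro G H hG hH
    simp only [L, add_mul]
    rw [integral_add (integrable_dirs (F := fun z => G ⟪z, e⟫) (hcont G hG))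
      (integrable_dirs (F := fun z => H ⟪z, e⟫) (hcont H hH)),
      intervalIntegral.integral_add (f := fun t => G t * w t) (g := fun t => H t * w t)
        ((hG.mul hw.cont).intervalIntegrable _ _) ((hH.mul hw.cont).intervalIntegrable _ _)]
    ring
  have hpoly : ∀ q : Polynomial ℝ, L (fun t => q.eval t) = 0 := by
    intro q
    induction q using Polynomial.induction_on' with
    | add a b ha hb =>
      simp only [Polynomial.eval_add]
      rw [hadd _ _ a.continuous b.continuous, ha, hb, add_zero]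
    | monomial j a =>
      simp only [L, Polynomial.eval_monomial, integral_const_mul, mul_assoc,
        intervalIntegral.integral_const_mul]
      linear_combination a * hmono j
  have hW0 : 0 ≤ W0 := intervalIntegral.integral_nonneg (by norm_num) hw.nonneg
  have hOm : 0 ≤ Om := measureReal_nonneg
  suffices h : L F = 0 by simp only [L] at h; linarith
  by_contra hne
  have hpos : 0 < |L F| := abs_pos.2 hne
  obtain ⟨q, hq⟩ := exists_polynomial_near_of_continuousOn (-1 : ℝ) 1 F hF.continuousOn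
    (|L F| / (2 * (W0 * Om) + 1)) (by positivity)
  set η := |L F| / (2 * (W0 * Om) + 1)
  have hD : Continuous fun t => F t - q.eval t := hF.sub q.continuous
  have e1 : L F = L (fun t => F t - q.eval t) := by
    have := hadd _ _ hD q.continuous
    simp only [sub_add_cancel] at this
    rw [hpoly, add_zero] at this
    exact this
  have b1 : |∫ v, (F ⟪(v : Space (k + 1)), e⟫ - q.eval ⟪(v : Space (k + 1)), e⟫) ∂dirs (k + 1)| ≤
      η * Om := by
    rw [← Real.norm_eq_abs]
    refine norm_integral_le_of_norm_le_const (ae_of_all _ fun v => ?_)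
    have h := abs_real_inner_le_norm (v : Space (k + 1)) e
    rw [he, mul_one, mem_sphere_zero_iff_norm.1 v.2] at h
    rw [Real.norm_eq_abs, abs_sub_comm]
    exact (hq _ (abs_le.1 h)).le
  have b2 : |∫ t in (-1)..1, (F t - q.eval t) * w t| ≤ η * W0 := by
    simp only [W0]
    rw [← intervalIntegral.integral_const_mul]
    refine (intervalIntegral.abs_integral_le_integral_abs (by norm_num)).trans
      (intervalIntegral.integral_mono_on (by norm_num) ((hD.mul hw.cont).abs.intervalIntegrable _ _)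
        ((continuous_const.mul hw.cont).intervalIntegrable _ _) fun t ht => ?_)
    rw [abs_mul, abs_of_nonneg (hw.nonneg t ht)]
    refine mul_le_mul_of_nonneg_right ?_ (hw.nonneg t ht)
    rw [abs_sub_comm]
    exact (hq t ht).le
  have hb : |L F| ≤ η * (2 * (W0 * Om)) := by
    rw [e1]
    refine (abs_sub _ _).trans ?_
    rw [abs_mul, abs_mul, abs_of_nonneg hW0, abs_of_nonneg hOm]
    have c1 := mul_le_mul_of_nonneg_left b1 hW0
    have c2 := mul_le_mul_of_nonneg_left b2 hOm
    linarith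
  have : η * (2 * (W0 * Om) + 1) = |L F| := div_mul_cancel₀ _ (by positivity)
  have : 0 < η := by positivity
  linarith

end

end Vale.Agent.P219.SharpK
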