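import Vale.Agent.P219.Six.Exit
import Vale.Agent.P219.SharpK.FirstVar
import Vale.Agent.P219.SharpK.Moments

/-!
# Chords and their shares, for a profile
-/

open MeasureTheory Set Filter Topology
open scoped ENNReal ContDiff RealInnerProductSpace

namespace Vale.Agent.P219.SharpK

open Vale.Agent.P219 Vale.Agent.P219.Univ Vale.Agent.P219.Six Vale.Agent.P219.Six.Surf

noncomputable section

variable {k : ℕ} (p : Prof k) {g : MetricField (k + 1)}
  {Ex Lo : Space (k + 1) → Space (k + 1) → Space (k + 1)} {φ : Space (k + 1) → ℝ} {η : ℝ}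

/-- The total measure of directions. -/
def Om (k : ℕ) : ℝ := (dirs (k + 1)).real univ

/-- The kernel between two points of a hypersurface. -/
def kernel (g : MetricField (k + 1)) (Lo : Space (k + 1) → Space (k + 1) → Space (k + 1))
    (φ : Space (k + 1) → ℝ) (l ε δ : ℝ) (a z : Space (k + 1)) : ℝ :=
  1 + p.bd * Real.sqrt δ / (l * Real.sqrt ε) +
    1 / l * (areaKer p Lo g φ ε δ (a, -fderiv ℝ (Lo a) a (unitN g φ a), l) z -
      (k : ℝ) * l * volKer p Lo g φ ε (a, -fderiv ℝ (Lo a) a (unitN g φ a), l) z)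

theorem kerFn_ge {l ε δ ρ m u : ℝ} (hl : 0 < l) (hε : 0 < ε) (hδ : 0 ≤ δ)
    (hm : m ^ 2 ≤ ρ) (hu : u ^ 2 ≤ ρ) :
    p.R (l * Real.sqrt (ρ + ε)) (m / Real.sqrt (ρ + ε)) (u / Real.sqrt (ρ + ε)) ≤
      1 + p.bd * Real.sqrt δ / (l * Real.sqrt ε) +
        1 / l * (areaFn p l ε δ ρ m u - (k : ℝ) * l * volFn p l ε ρ m u) := by
  have hρ : 0 ≤ ρ := (sq_nonneg m).trans hm
  set s := Real.sqrt (ρ + ε) with hs_def
  have hs : 0 < s := Real.sqrt_pos.2 (by positivity)
  have hse : Real.sqrt ε ≤ s := Real.sqrt_le_sqrt (by linarith)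
  have hss : s ^ 2 = ρ + ε := Real.sq_sqrt (by positivity)
  have hls : 0 < l * s := mul_pos hl hs
  have hB := p.B_nonpos _ hls
  have hBd := p.B_bd _ hls
  set w := m / s with hw
  set v := u / s with hv
  have hw2 : w ^ 2 ≤ 1 := by rw [hw, div_pow, div_le_one (by positivity)]; linarith
  have hv2 : v ^ 2 ≤ 1 := by rw [hv, div_pow, div_le_one (by positivity)]; linarith
  have hd : Real.sqrt (w ^ 2 + δ) ≤ |w| + Real.sqrt δ := by
    rw [Real.sqrt_le_left (by positivity), ← sq_abs w]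
    nlinarith [Real.sq_sqrt hδ, mul_nonneg (abs_nonneg w) (Real.sqrt_nonneg δ)]
  have hT : 0 ≤ 2 - w ^ 2 - v ^ 2 := by linarith
  have h1 : p.B (l * s) * |w| * (2 - w ^ 2 - v ^ 2) / (2 * (l * s)) -
      p.bd * Real.sqrt δ / (l * Real.sqrt ε) ≤
      p.B (l * s) * Real.sqrt (w ^ 2 + δ) * (2 - w ^ 2 - v ^ 2) / (2 * (l * s)) := by
    have a1 := mul_le_mul_of_nonpos_left hd hB
    have a2 : -p.bd * Real.sqrt δ ≤ p.B (l * s) * Real.sqrt δ :=
      mul_le_mul_of_nonneg_right hBd (Real.sqrt_nonneg δ)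
    have hbd := p.bd_nonneg
    have a3 : p.B (l * s) * |w| * (2 - w ^ 2 - v ^ 2) - 2 * (p.bd * Real.sqrt δ) ≤
        p.B (l * s) * Real.sqrt (w ^ 2 + δ) * (2 - w ^ 2 - v ^ 2) := by
      have a5 := mul_le_mul_of_nonneg_right a1 hT
      have a4 : 0 ≤ p.bd * Real.sqrt δ := mul_nonneg hbd (Real.sqrt_nonneg δ)
      have a6 := mul_le_mul_of_nonneg_right a2 hT
      nlinarith [mul_nonneg a4 (add_nonneg (sq_nonneg w) (sq_nonneg v))]
    have a7 := div_le_div_of_nonneg_right a3 (by positivity : (0 : ℝ) ≤ 2 * (l * s))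
    rw [sub_div] at a7
    have a8 : 2 * (p.bd * Real.sqrt δ) / (2 * (l * s)) ≤ p.bd * Real.sqrt δ / (l * Real.sqrt ε) := by
      rw [mul_div_mul_left _ _ two_ne_zero]
      exact div_le_div_of_nonneg_left (mul_nonneg hbd (Real.sqrt_nonneg δ))
        (mul_pos hl (Real.sqrt_pos.2 hε)) (mul_le_mul_of_nonneg_left hse hl.le)
    linarith
  have hA : areaFn p l ε δ ρ m u = l * ((p.A' (l * s) + p.B' (l * s) * v) * (1 - w ^ 2) +
      ((k : ℝ) - 1 + w ^ 2) * (p.A (l * s) + p.B (l * s) * v) / (l * s) +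
      p.B (l * s) * Real.sqrt (w ^ 2 + δ) * (2 - w ^ 2 - v ^ 2) / (2 * (l * s))) := rfl
  have hV : volFn p l ε ρ m u = (p.A (l * s) + p.B (l * s) * v) * w := rfl
  rw [hA, hV, ← mul_assoc ((k : ℝ) * l), show ∀ X Y : ℝ, 1 / l * (l * X - (k : ℝ) * l *
    (p.A (l * s) + p.B (l * s) * v) * Y) = X - (k : ℝ) * (p.A (l * s) + p.B (l * s) * v) * Y from
      fun X Y => by field_simp]
  simp only [Prof.R, kerVal, areaVal]
  linarith

/-- The share, per unit length, of the chord through `x` in direction `v` at its end at time `t`,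
for the level `s`. -/
def half (p : Prof k) (g : MetricField (k + 1)) (Ex : Space (k + 1) → Space (k + 1) → Space (k + 1)) (φ : Space (k + 1) → ℝ) (l ε s t : ℝ)
    (x v : Space (k + 1)) : ℝ≥0∞ :=
  if 0 < cosN g φ (Ex x (t • v)) (vel Ex x v t) ∧
      0 < cosN g φ (Ex x (exitT Ex φ s x (-v) • -v)) (vel Ex x (-v) (exitT Ex φ s x (-v))) then
    ENNReal.ofReal (p.share l ε (t + exitT Ex φ s x (-v)) (cosN g φ (Ex x (t • v)) (vel Ex x v t))
      (cosN g φ (Ex x (exitT Ex φ s x (-v) • -v)) (vel Ex x (-v) (exitT Ex φ s x (-v)))) /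
      (t + exitT Ex φ s x (-v)))
  else 0

/-- The weighted share, as a function of the ray and the time of exit. -/
def ray (p : Prof k) (g : MetricField (k + 1)) (Ex : Space (k + 1) → Space (k + 1) → Space (k + 1)) (φ : Space (k + 1) → ℝ) (κ : ℝ → ℝ)
    (l ε : ℝ) (x v : Space (k + 1)) (t : ℝ) : ℝ≥0∞ :=
  if 0 < t ∧ φ x < φ (Ex x (t • v)) ∧ φ (Ex x (t • v)) < 1 ∧
      exitT Ex φ (φ (Ex x (t • v))) x v = t then
    ENNReal.ofReal |fderiv ℝ φ (Ex x (t • v)) (vel Ex x v t)| *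
      (ENNReal.ofReal (κ (φ (Ex x (t • v)))) * half p g Ex φ l ε (φ (Ex x (t • v))) t x v)
  else 0

/-- `ray` as a density in the second point. -/
def pairFn (p : Prof k) (g : MetricField (k + 1)) (Ex Lo : Space (k + 1) → Space (k + 1) → Space (k + 1)) (φ : Space (k + 1) → ℝ)
    (κ : ℝ → ℝ) (l ε : ℝ) (x y : Space (k + 1)) : ℝ≥0∞ :=
  ray p g Ex φ κ l ε x (‖Lo x y‖⁻¹ • Lo x y) ‖Lo x y‖ /
    ENNReal.ofReal (‖Lo x y‖ ^ k * jac g Ex x (Lo x y))

theorem chord_share {l ε r c d : ℝ} (hl : 0 < l) (hε : 0 < ε) (hr : 0 < r) (hc : 0 < c) (hd : 0 < d)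
    (hc1 : c ≤ 1) (hd1 : d ≤ 1) :
    ENNReal.ofReal l ≤
      ENNReal.ofReal (p.share l ε r c d / r) + ENNReal.ofReal (p.share l ε r d c / r) := by
  rw [← ENNReal.ofReal_add (div_nonneg (p.share_nonneg hl hε hr.le hc hc1 hd hd1) hr.le)
    (div_nonneg (p.share_nonneg hl hε hr.le hd hd1 hc hc1) hr.le), ← add_div]
  exact ENNReal.ofReal_le_ofReal ((le_div_iff₀ hr).2 (p.chord_share hl hε hr.le hc hd hc1 hd1))

theorem cosN_eq (hg : IsMetric g) {z : Space (k + 1)} (hz : fderiv ℝ φ z ≠ 0) (V : Space (k + 1)) :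
    g z V (unitN g φ z) = cosN g φ z V := by
  rw [cosN, eq_div_iff (gradLen_pos hg hz).ne', g_unitN hg]

theorem cosN_le_one (hg : IsMetric g) (hc : JointCharts g Ex Lo) {x v : Space (k + 1)} (hv : ‖v‖ = 1)
    {t : ℝ} (hz : fderiv ℝ φ (Ex x (t • v)) ≠ 0) :
    cosN g φ (Ex x (t • v)) (vel Ex x v t) ≤ 1 := by
  have hV : gNorm g (Ex x (t • v)) (vel Ex x v t) = 1 := by
    rw [gNorm, speed_vel hg hc, hv, one_pow, Real.sqrt_one]
  rw [← cosN_eq hg hz]
  refine (le_abs_self _).trans ((abs_g_le hg _ _ _).trans ?_)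
  rw [hV, gNorm_unitN hg hz, one_mul]

theorem cosN_pos_iff (hg : IsMetric g) {z : Space (k + 1)} (hz : fderiv ℝ φ z ≠ 0) (V : Space (k + 1)) :
    0 < cosN g φ z V ↔ 0 < fderiv ℝ φ z V :=
  div_pos_iff_of_pos_right (gradLen_pos hg hz)

theorem window_reg (hw : RegWindow φ η) {z : Space (k + 1)} {τ : ℝ} (hτ : |τ| < η / 2) (hz : φ z = τ) :
    fderiv ℝ φ z ≠ 0 :=
  hw.2.2 z (by rw [hz]; linarith [hw.1])

/-- Along almost every chord, the two shares cover `l`. -/
theorem chord_ae (hg : IsMetric g) (hc : JointCharts g Ex Lo) (hd : Defining φ)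
    (hw : RegWindow φ η) {κ : ℝ → ℝ} (hk : ∀ s, κ s ≠ 0 → |s| < η / 2) {l ε : ℝ} (hl : 0 < l)
    (hε : 0 < ε) (x v : Space (k + 1)) (hv : ‖v‖ = 1) :
    ∀ᵐ s : ℝ, s ∈ Ioo (φ x) 1 → ENNReal.ofReal (κ s) * ENNReal.ofReal l ≤
      ENNReal.ofReal (κ s) * half p g Ex φ l ε s (exitT Ex φ s x v) x v +
        ENNReal.ofReal (κ s) * half p g Ex φ l ε s (exitT Ex φ s x (-v)) x (-v) := by
  have hv0 : v ≠ 0 := fun h => by rw [h, norm_zero] at hv; exact zero_ne_one hv
  have hv' : ‖-v‖ = 1 := by rw [norm_neg, hv]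
  filter_upwards [exit_transversal hc hd x v hv0,
    exit_transversal hc hd x (-v) (neg_ne_zero.2 hv0)] with s h1 h2 hs
  rcases eq_or_ne (κ s) 0 with h0 | h0
  · simp [h0]
  have hsw := hk s h0
  obtain ⟨ha, hae, -⟩ := exit_spec hc hd x v hv0 hs.2 hs.1
  obtain ⟨hb, hbe, -⟩ := exit_spec hc hd x (-v) (neg_ne_zero.2 hv0) hs.2 hs.1
  have hza := window_reg hw hsw hae
  have hzb := window_reg hw hsw hbe
  have hc1 := (cosN_pos_iff hg hza _).2 (h1 hs.1 hs.2)
  have hd1 := (cosN_pos_iff hg hzb _).2 (h2 hs.1 hs.2)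
  rw [half, half, neg_neg, if_pos ⟨hc1, hd1⟩, if_pos ⟨hd1, hc1⟩, ← mul_add,
    add_comm (exitT Ex φ s x (-v))]
  exact mul_le_mul' le_rfl (chord_share p hl hε (add_pos ha hb) hc1 hd1
    (cosN_le_one hg hc hv hza) (cosN_le_one hg hc hv' hzb))

theorem continuous_dExp (hc : JointCharts g Ex Lo) :
    Continuous fun z : Space (k + 1) × Space (k + 1) => fderiv ℝ (Ex z.1) z.2 :=
  (ContDiff.fderiv (f := fun (z : Space (k + 1) × Space (k + 1)) (u : Space (k + 1)) => Ex z.1 u) (m := ∞) (n := ∞)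
    (hc.smooth_exp.comp ((contDiff_fst.comp contDiff_fst).prodMk contDiff_snd))
    contDiff_snd (by simp)).continuous

section Measurable

variable {α : Type*} [MeasurableSpace α] (hg : IsMetric g) (hc : JointCharts g Ex Lo)
  (hd : Defining φ) {xf vf : α → Space (k + 1)} {sf tf : α → ℝ} (hx : Measurable xf) (hv : Measurable vf)
  (hs : Measurable sf) (ht : Measurable tf)
include hg hc hd hx hv

omit hg hd in
theorem measurable_point (ht : Measurable tf) : Measurable fun a => Ex (xf a) (tf a • vf a) := by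
  have := hc.continuous_exp.measurable.comp (hx.prodMk (ht.smul hv))
  exact this

include ht

omit hg in
theorem measurable_dphi_vel : Measurable fun a =>
    fderiv ℝ φ (Ex (xf a) (tf a • vf a)) (vel Ex (xf a) (vf a) (tf a)) := by
  have h1 : Continuous fun q : Space (k + 1) × Space (k + 1) × ℝ =>
      fderiv ℝ φ (Ex q.1 (q.2.2 • q.2.1)) (vel Ex q.1 q.2.1 q.2.2) := by
    have hp : Continuous fun q : Space (k + 1) × Space (k + 1) × ℝ => (q.1, q.2.2 • q.2.1) :=
      continuous_fst.prodMk ((continuous_snd.comp continuous_snd).smul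
        (continuous_fst.comp continuous_snd))
    exact ((hd.smooth.continuous_fderiv (by norm_num)).comp (hc.continuous_exp.comp hp)).clm_apply
      (((continuous_dExp hc).comp hp).clm_apply (continuous_fst.comp continuous_snd))
  exact h1.measurable.comp (hx.prodMk (hv.prodMk ht))

theorem measurable_cos : Measurable fun a =>
    cosN g φ (Ex (xf a) (tf a • vf a)) (vel Ex (xf a) (vf a) (tf a)) :=
  (measurable_dphi_vel hc hd hx hv ht).div
    ((gradLen_continuous hg hd.smooth).measurable.comp (measurable_point hc hx hv ht))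

include hs

omit ht in
theorem measurable_exit_comp : Measurable fun a => exitT Ex φ (sf a) (xf a) (vf a) :=
  (measurable_exitT hc hd).comp (hs.prodMk (hx.prodMk hv))

theorem measurable_half {l ε : ℝ} (hl : 0 < l) (hε : 0 < ε) :
    Measurable fun a => half p g Ex φ l ε (sf a) (tf a) (xf a) (vf a) := by
  have hb := measurable_exit_comp hg hc hd hx hv.neg hs
  have hc1 := measurable_cos hg hc hd hx hv ht
  have hd1 := measurable_cos hg hc hd hx hv.neg hb
  have hr := ht.add hb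
  unfold half
  refine Measurable.ite ((measurableSet_lt measurable_const hc1).inter
    (measurableSet_lt measurable_const hd1)) (ENNReal.measurable_ofReal.comp ?_) measurable_const
  have hσ : Continuous fun r : ℝ => l * Real.sqrt (r ^ 2 + ε) := by fun_prop
  have hmem : ∀ r : ℝ, l * Real.sqrt (r ^ 2 + ε) ∈ Ioi (0 : ℝ) := fun r =>
    mul_pos hl (Real.sqrt_pos.2 (by positivity))
  have mA := (p.smoothA.continuousOn.comp_continuous hσ hmem).measurable.comp hr
  have mA' := (p.contOn_A'.comp_continuous hσ hmem).measurable.comp hr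
  have mB := (p.smoothB.continuousOn.comp_continuous hσ hmem).measurable.comp hr
  have mB' := (p.contOn_B'.comp_continuous hσ hmem).measurable.comp hr
  have mg := p.continuous_gc.measurable.comp hc1
  simp only [Function.comp_def, Pi.add_apply] at mA mA' mB mB' mg
  unfold Prof.share Prof.R kerVal areaVal
  fun_prop

omit hs in
theorem measurable_ray {κ : ℝ → ℝ} (hk : Continuous κ) {l ε : ℝ} (hl : 0 < l) (hε : 0 < ε) :
    Measurable fun a => ray p g Ex φ κ l ε (xf a) (vf a) (tf a) := by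
  have hp := hd.smooth.continuous.measurable.comp (measurable_point hc hx hv ht)
  unfold ray
  refine Measurable.ite ((measurableSet_lt measurable_const ht).inter
    ((measurableSet_lt (hd.smooth.continuous.measurable.comp hx) hp).inter
      ((measurableSet_lt hp measurable_const).inter
        (measurableSet_eq_fun (measurable_exit_comp hg hc hd hx hv hp) ht))))
    ((ENNReal.measurable_ofReal.comp (measurable_dphi_vel hc hd hx hv ht).abs).mul
      ((ENNReal.measurable_ofReal.comp (hk.measurable.comp hp)).mul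
        (measurable_half p hg hc hd hx hv hp ht hl hε))) measurable_const

end Measurable

theorem measurable_ray_pair (hg : IsMetric g) (hc : JointCharts g Ex Lo) (hd : Defining φ)
    {κ : ℝ → ℝ} (hk : Continuous κ) {l ε : ℝ} (hl : 0 < l) (hε : 0 < ε) {v : Space (k + 1) × Space (k + 1) → Space (k + 1)}
    {t : Space (k + 1) × Space (k + 1) → ℝ} (hv : Measurable v) (ht : Measurable t) :
    Measurable fun z : Space (k + 1) × Space (k + 1) => ray p g Ex φ κ l ε z.1 (v z) (t z) :=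
  measurable_ray p hg hc hd measurable_fst hv ht hk hl hε

theorem measurable_pairFn (hg : IsMetric g) (hc : JointCharts g Ex Lo) (hd : Defining φ)
    {κ : ℝ → ℝ} (hk : Continuous κ) {l ε : ℝ} (hl : 0 < l) (hε : 0 < ε) :
    Measurable fun z : Space (k + 1) × Space (k + 1) => pairFn p g Ex Lo φ κ l ε z.1 z.2 := by
  have hu : Measurable fun z : Space (k + 1) × Space (k + 1) => Lo z.1 z.2 := hc.continuous_log.measurable
  have hj : Measurable fun z : Space (k + 1) × Space (k + 1) => jac g Ex z.1 (Lo z.1 z.2) :=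
    Measurable.comp (g := fun q : Space (k + 1) × Space (k + 1) => jac g Ex q.1 q.2)
      (f := fun z : Space (k + 1) × Space (k + 1) => (z.1, Lo z.1 z.2))
      (continuous_jac hg hc).measurable (measurable_fst.prodMk hu)
  have h1 := measurable_ray_pair p hg hc hd hk hl hε (hu.norm.inv.smul hu) hu.norm
  have h2 : Measurable fun z : Space (k + 1) × Space (k + 1) =>
      ENNReal.ofReal (‖Lo z.1 z.2‖ ^ k * jac g Ex z.1 (Lo z.1 z.2)) :=
    ENNReal.measurable_ofReal.comp ((hu.norm.pow_const k).mul hj)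
  simp only [pairFn]
  exact h1.div h2

/-- The other end of the chord leaving `y` in direction `w`. -/
def farEnd (Ex : Space (k + 1) → Space (k + 1) → Space (k + 1)) (φ : Space (k + 1) → ℝ) (y w : Space (k + 1)) : Space (k + 1) :=
  Ex y (exitT Ex φ (φ y) y w • w)

/-- The cosine at `y`. -/
def cosIn (g : MetricField (k + 1)) (Ex : Space (k + 1) → Space (k + 1) → Space (k + 1)) (φ : Space (k + 1) → ℝ)
    (y w : Space (k + 1)) : ℝ :=
  -cosN g φ y (vel Ex y w 0)

/-- The cosine at the other end. -/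
def cosFar (g : MetricField (k + 1)) (Ex : Space (k + 1) → Space (k + 1) → Space (k + 1)) (φ : Space (k + 1) → ℝ)
    (y w : Space (k + 1)) : ℝ :=
  cosN g φ (farEnd Ex φ y w) (vel Ex y w (exitT Ex φ (φ y) y w))

/-- The value of the share per unit length along the chord leaving `y` in direction `w`. -/
def chordVal (p : Prof k) (g : MetricField (k + 1)) (Ex : Space (k + 1) → Space (k + 1) → Space (k + 1)) (φ : Space (k + 1) → ℝ) (κ : ℝ → ℝ)
    (l ε : ℝ) (y w : Space (k + 1)) : ℝ≥0∞ :=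
  if 0 < cosIn g Ex φ y w ∧ 0 < cosFar g Ex φ y w then
    ENNReal.ofReal (κ (φ y) * gradLen g φ y * (cosIn g Ex φ y w *
      p.share l ε (exitT Ex φ (φ y) y w) (cosIn g Ex φ y w) (cosFar g Ex φ y w)) /
        exitT Ex φ (φ y) y w)
  else 0

theorem reg_of_cos {z V : Space (k + 1)} (h : 0 < cosN g φ z V) : fderiv ℝ φ z ≠ 0 :=
  fun h0 => by simp [cosN, h0] at h

theorem ray_le (hg : IsMetric g) (hc : JointCharts g Ex Lo) (hs : SecBound g 0) (hd : Defining φ)
    {κ : ℝ → ℝ} (hk0 : ∀ s, 0 ≤ κ s) {l ε : ℝ} (y w : Space (k + 1)) (hw : ‖w‖ = 1) {s : ℝ}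
    (hs0 : 0 < s) :
    pairFn p g Ex Lo φ κ l ε (Ex y (s • w)) y * ENNReal.ofReal (s ^ k * jac g Ex y (s • w)) ≤
      (Ioo 0 (exitT Ex φ (φ y) y w)).indicator (fun _ => chordVal p g Ex φ κ l ε y w) s := by
  obtain ⟨v, hv, hvdef, hpos, hvel⟩ := reverse hg hc y w hw hs0
  set x := Ex y (s • w) with hxdef
  have hw0 : w ≠ 0 := fun h => by rw [h, norm_zero] at hw; exact zero_ne_one hw
  have hv0 : v ≠ 0 := fun h => by rw [h, norm_zero] at hv; exact zero_ne_one hv
  have hn : ‖Lo x y‖ = s := by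
    rw [dist_symm hg hc, hxdef, hc.left, norm_smul, hw, mul_one, Real.norm_of_nonneg hs0.le]
  have hj : jac g Ex x (Lo x y) = jac g Ex y (s • w) := by
    rw [← jac_symm hg hc y x, hxdef, hc.left]
  have hJ : 0 < s ^ k * jac g Ex y (s • w) :=
    mul_pos (pow_pos hs0 k) (jac_pos hg hc hs y _)
  rw [pairFn, hn, ← hvdef, hj,
    ENNReal.div_mul_cancel (ENNReal.ofReal_pos.2 hJ).ne' ENNReal.ofReal_ne_top, ray]
  have hy : Ex x (s • v) = y := by rw [hpos, sub_self, zero_smul, hc.zero]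
  have hvy : vel Ex x v s = -vel Ex y w 0 := by rw [hvel, sub_self]
  rw [hy, hvy]
  split_ifs with h
  swap
  · exact zero_le
  obtain ⟨-, hxy, hy1, hst⟩ := h
  obtain ⟨-, -, hlt⟩ := exit_spec hc hd x v hv0 hy1 hxy
  rw [hst] at hlt
  obtain ⟨hb, hbe, hblt⟩ := exit_spec hc hd x (-v) (neg_ne_zero.2 hv0) hy1 hxy
  set b := exitT Ex φ (φ y) x (-v) with hbdef
  have hback : ∀ t : ℝ, Ex x (t • -v) = Ex y ((s + t) • w) := fun t => by
    rw [smul_neg, ← neg_smul, hpos, sub_neg_eq_add]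
  have hL : exitT Ex φ (φ y) y w = s + b := by
    refine IsLeast.csInf_eq ⟨⟨add_pos hs0 hb, ?_⟩, fun t ht => ?_⟩
    · rw [← hback, hbe]
    · rcases le_or_gt t s with h1 | h1
      · have h2 := hlt (s - t) (sub_nonneg.2 h1) (by linarith [ht.1])
        rw [hpos, sub_sub_cancel] at h2
        exact absurd ht.2 (not_le.2 h2)
      · by_contra hcon
        have h2 := hblt (t - s) (by linarith) (by linarith [not_le.1 hcon])
        rw [hback, add_sub_cancel] at h2
        exact absurd ht.2 (not_le.2 h2)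
  rw [indicator_of_mem (show s ∈ Ioo 0 (exitT Ex φ (φ y) y w) from ⟨hs0, by rw [hL]; linarith⟩)]
  have hvb : vel Ex x (-v) b = vel Ex y w (s + b) := by
    have h1 := hvel (-b)
    rw [sub_neg_eq_add] at h1
    rw [vel, smul_neg, ← neg_smul, map_neg, ← neg_eq_iff_eq_neg.2 h1]
    rfl
  have hcin : cosN g φ y (-vel Ex y w 0) = cosIn g Ex φ y w := by
    rw [cosIn, cosN, cosN, map_neg, neg_div]
  have hdfar : cosN g φ (Ex x (b • -v)) (vel Ex x (-v) b) = cosFar g Ex φ y w := by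
    rw [cosFar, farEnd, hL, hback, hvb]
  rw [half, hy, hvy, hcin, ← hbdef, hdfar, chordVal]
  split_ifs with h1
  swap
  · simp
  have hgl := gradLen_pos hg (φ := φ) (x := y) (reg_of_cos (hcin.symm ▸ h1.1))
  have e : |fderiv ℝ φ y (-vel Ex y w 0)| = cosIn g Ex φ y w * gradLen g φ y := by
    rw [← hcin, cosN, div_mul_cancel₀ _ hgl.ne', abs_of_pos]
    rw [← hcin] at h1
    exact (div_pos_iff_of_pos_right hgl).1 h1.1
  rw [e, hL, ← ENNReal.ofReal_mul (hk0 _),
    ← ENNReal.ofReal_mul (mul_nonneg h1.1.le hgl.le)]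
  exact le_of_eq (congrArg ENNReal.ofReal (by ring))

/-- Integrating over the chord cancels its length. -/
theorem line_le (hg : IsMetric g) (hc : JointCharts g Ex Lo) (hs : SecBound g 0) (hd : Defining φ)
    {κ : ℝ → ℝ} (hk0 : ∀ s, 0 ≤ κ s) {l ε : ℝ} (y w : Space (k + 1)) (hw : ‖w‖ = 1) :
    ∫⁻ s in Ioi (0 : ℝ), pairFn p g Ex Lo φ κ l ε (Ex y (s • w)) y *
        ENNReal.ofReal (s ^ k * jac g Ex y (s • w)) ≤
      chordVal p g Ex φ κ l ε y w * ENNReal.ofReal (exitT Ex φ (φ y) y w) := by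
  refine (setLIntegral_mono' measurableSet_Ioi fun s hs0 => ray_le p hg hc hs hd hk0 y w hw hs0).trans ?_
  refine (setLIntegral_le_lintegral _ _).trans (le_of_eq ?_)
  rw [lintegral_indicator_const measurableSet_Ioo, Real.volume_Ioo, sub_zero]

theorem kernel_contDiffOn (hg : IsMetric g) (hc : JointCharts g Ex Lo) (hd : Defining φ) {l ε δ : ℝ}
    (hl : 0 < l) (hε : 0 < ε) (hδ : 0 < δ) (y : Space (k + 1)) :
    ContDiffOn ℝ 1 (kernel p g Lo φ l ε δ y) (regSet φ) := by
  obtain ⟨h1, h2⟩ := contDiffOn_kers p hg hc hd hε hδ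
    (q := (y, -fderiv ℝ (Lo y) y (unitN g φ y), l)) hl
  exact contDiffOn_const.add (contDiffOn_const.mul (h1.sub (contDiffOn_const.mul h2)))

theorem norm_inward (hg : IsMetric g) (hc : JointCharts g Ex Lo) (y : Space (k + 1)) :
    ‖-fderiv ℝ (Lo y) y (unitN g φ y)‖ ≤ 1 := by
  have h1 := hc.metric_eq y (unitN g φ y) (unitN g φ y)
  rw [real_inner_self_eq_norm_sq, ← gNorm_sq hg] at h1
  rw [norm_neg, ← (pow_left_inj₀ (gNorm_nonneg g y _) (norm_nonneg _) two_ne_zero).1 h1]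
  exact gNorm_unitN_le hg y

theorem kernel_ge (hg : IsMetric g) (hc : JointCharts g Ex Lo) {l ε δ : ℝ} (hl : 0 < l)
    (hε : 0 < ε) (hδ : 0 ≤ δ) (y z : Space (k + 1)) :
    p.R (l * Real.sqrt (2 * psi Lo y z + ε))
      (fderiv ℝ (psi Lo y) z (unitN g φ z) / Real.sqrt (2 * psi Lo y z + ε))
      (uFn Lo y (-fderiv ℝ (Lo y) y (unitN g φ y)) z / Real.sqrt (2 * psi Lo y z + ε)) ≤
      kernel p g Lo φ l ε δ y z := by
  refine kerFn_ge p hl hε hδ ?_ ?_
  · rw [← grad_psi_sq hg hc, ← gNorm_sq hg, ← gGrad_dual hg (psi Lo y) z (unitN g φ z)]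
    refine sq_le_sq.2 ((abs_g_le hg _ _ _).trans ?_)
    rw [abs_of_nonneg (gNorm_nonneg g _ _)]
    exact mul_le_of_le_one_right (gNorm_nonneg g _ _) (gNorm_unitN_le hg z)
  · rw [show 2 * psi Lo y z = ‖Lo y z‖ ^ 2 by simp only [psi]; ring]
    refine sq_le_sq.2 ((abs_real_inner_le_norm _ _).trans ?_)
    rw [abs_norm]
    exact mul_le_of_le_one_right (norm_nonneg _) (norm_inward hg hc y)

theorem kernel_nonneg (hg : IsMetric g) (hc : JointCharts g Ex Lo) {l ε δ : ℝ} (hl : 0 < l)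
    (hε : 0 < ε) (hδ : 0 ≤ δ) (y z : Space (k + 1)) : 0 ≤ kernel p g Lo φ l ε δ y z := by
  refine le_trans ?_ (kernel_ge p hg hc hl hε hδ y z)
  have hψ := JointCharts.psi_nonneg (Log := Lo) y z
  have hs : 0 < Real.sqrt (2 * psi Lo y z + ε) := Real.sqrt_pos.2 (by positivity)
  refine p.R_nonneg (mul_pos hl hs) ?_ ?_ <;> rw [abs_div, abs_of_pos hs, div_le_one hs]
  · rw [← gGrad_dual hg (psi Lo y) z (unitN g φ z)]
    refine (abs_g_le hg _ _ _).trans ((mul_le_of_le_one_right (gNorm_nonneg g _ _)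
      (gNorm_unitN_le hg z)).trans ?_)
    rw [gNorm, grad_psi_sq hg hc]
    exact Real.sqrt_le_sqrt (by linarith)
  · refine (abs_real_inner_le_norm _ _).trans ((mul_le_of_le_one_right (norm_nonneg _)
      (norm_inward hg hc y)).trans (Real.le_sqrt_of_sq_le ?_))
    simp only [psi]
    linarith

/-- The chord value split into the kernel, the weight and a remainder. -/
theorem chordVal_le (hg : IsMetric g) (hc : JointCharts g Ex Lo) (hs : SecBound g 0) {κ : ℝ → ℝ}
    (hk0 : ∀ s, 0 ≤ κ s) {l ε δ : ℝ} (hl : 0 < l) (hε : 0 < ε) (hδ : 0 ≤ δ) (y w : Space (k + 1)) (hw : ‖w‖ = 1) :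
    chordVal p g Ex φ κ l ε y w * ENNReal.ofReal (exitT Ex φ (φ y) y w) ≤
      ENNReal.ofReal (κ (φ y) * gradLen g φ y) *
        (ENNReal.ofReal (if 0 < cosIn g Ex φ y w then
            p.gc (cosIn g Ex φ y w) * cosIn g Ex φ y w else 0) +
          (ENNReal.ofReal (((k : ℝ) + 1) * (l * Real.sqrt ε) / 2) + ENNReal.ofReal (p.α * l ^ k / 2) *
            if fderiv ℝ φ y (vel Ex y w 0) < 0 ∧ 0 < fderiv ℝ φ (farEnd Ex φ y w)
                (vel Ex y w (exitT Ex φ (φ y) y w)) then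
              ENNReal.ofReal (exitT Ex φ (φ y) y w ^ k *
                jac g Ex y (exitT Ex φ (φ y) y w • w) * kernel p g Lo φ l ε δ y (farEnd Ex φ y w) /
                cosFar g Ex φ y w)
            else 0)) := by
  by_cases h : 0 < cosIn g Ex φ y w ∧ 0 < cosFar g Ex φ y w
  swap
  · rw [chordVal, if_neg h, zero_mul]; exact zero_le
  obtain ⟨hc0, hd0⟩ := h
  have hreg2 := reg_of_cos hd0
  have hreg1 : fderiv ℝ φ y ≠ 0 := fun h0 => by simp [cosIn, cosN, h0] at hc0
  have hvis : fderiv ℝ φ y (vel Ex y w 0) < 0 ∧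
      0 < fderiv ℝ φ (farEnd Ex φ y w) (vel Ex y w (exitT Ex φ (φ y) y w)) := by
    refine ⟨?_, (div_pos_iff_of_pos_right (gradLen_pos hg hreg2)).1 hd0⟩
    have h2 := hc0
    rwa [cosIn, cosN, ← neg_div, div_pos_iff_of_pos_right (gradLen_pos hg hreg1), neg_pos] at h2
  rw [chordVal, if_pos ⟨hc0, hd0⟩, if_pos hc0, if_pos hvis]
  rcases le_or_gt (exitT Ex φ (φ y) y w) 0 with hL | hL
  · simp [ENNReal.ofReal_eq_zero.2 hL]
  set L := exitT Ex φ (φ y) y w with hLdef
  have hd1 : cosFar g Ex φ y w ≤ 1 := cosN_le_one hg hc hw hreg2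
  have hc1 : cosIn g Ex φ y w ≤ 1 := by
    have h3 := cosN_le_one hg hc (x := y) (v := -w) (φ := φ) (t := 0) (by rw [norm_neg, hw])
      (by rw [zero_smul, hc.zero]; exact hreg1)
    rw [zero_smul, hc.zero] at h3
    refine le_trans (le_of_eq ?_) h3
    simp only [cosIn, cosN, vel, zero_smul, map_neg, neg_div]
  set S := Real.sqrt (L ^ 2 + ε) with hSdef
  have hin : cosIn g Ex φ y w = ⟪w, -fderiv ℝ (Lo y) y (unitN g φ y)⟫ := by
    rw [cosIn, ← cosN_eq hg hreg1, vel, zero_smul, hc.metric_eq, inner_neg_right]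
    have h2 := hc.dLog_dExp y 0 w
    rw [hc.zero] at h2
    rw [h2]
  have hk' : p.R (l * S) (L * cosFar g Ex φ y w / S) (L * cosIn g Ex φ y w / S) ≤
      kernel p g Lo φ l ε δ y (farEnd Ex φ y w) := by
    refine le_trans (le_of_eq ?_) (kernel_ge p hg hc hl hε hδ y _)
    rw [cosFar, ← cosN_eq hg hreg2, farEnd, dpsi_ray hg hc, psi, uFn, hc.left, hin, norm_smul, hw,
      Real.norm_of_nonneg hL.le, real_inner_smul_left, hSdef, ← hLdef,
      show 2 * ((L * 1) ^ 2 / 2) = L ^ 2 by ring]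
  have hR : 0 ≤ p.R (l * S) (L * cosFar g Ex φ y w / S) (L * cosIn g Ex φ y w / S) :=
    p.R_nonneg (mul_pos hl (Real.sqrt_pos.2 (by positivity)))
      (Prof.cos_le hε hL.le (abs_le.2 ⟨by linarith, hd1⟩))
      (Prof.cos_le hε hL.le (abs_le.2 ⟨by linarith, hc1⟩))
  have hJ := jac_ge_one hg hc hs y (L • w)
  have hgl := gradLen_nonneg g φ y
  have hα := p.α_pos
  have hK := hR.trans hk'
  set K := kernel p g Lo φ l ε δ y (farEnd Ex φ y w) with hKdef
  rw [← ENNReal.ofReal_mul' hL.le, div_mul_cancel₀ _ hL.ne']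
  have hg0 : 0 ≤ p.gc (cosIn g Ex φ y w) * cosIn g Ex φ y w :=
    mul_nonneg (p.gc_nonneg _) hc0.le
  rw [← ENNReal.ofReal_mul (by positivity),
    ← ENNReal.ofReal_add (by positivity) (by positivity),
    ← ENNReal.ofReal_add hg0 (by positivity),
    ← ENNReal.ofReal_mul (mul_nonneg (hk0 _) hgl)]
  refine ENNReal.ofReal_le_ofReal (mul_le_mul_of_nonneg_left ?_ (mul_nonneg (hk0 _) hgl))
  set c := cosIn g Ex φ y w
  set d := cosFar g Ex φ y w
  set R := p.R (l * S) (L * d / S) (L * c / S) with hRdef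
  have e : c * p.share l ε L c d = p.α * l ^ k / 2 * (L ^ k * R / d) + p.gc c * c +
      c * (((k : ℝ) + 1) * (l * Real.sqrt ε) / 2) := by
    simp only [Prof.share, ← hSdef, ← hRdef, mul_pow]
    field_simp
  have h4 : L ^ k * R / d ≤ L ^ k * jac g Ex y (L • w) * K / d := by
    refine div_le_div_of_nonneg_right (mul_le_mul ?_ hk' hR (by positivity)) hd0.le
    exact le_mul_of_one_le_right (by positivity) hJ
  have h5 : c * (((k : ℝ) + 1) * (l * Real.sqrt ε) / 2) ≤ ((k : ℝ) + 1) * (l * Real.sqrt ε) / 2 :=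
    mul_le_of_le_one_left (by positivity) hc1
  have h6 := mul_le_mul_of_nonneg_left h4 (show 0 ≤ p.α * l ^ k / 2 by positivity)
  rw [e]
  linarith

end

end Vale.Agent.P219.SharpK
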