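import Mathlib
import Vale.Agent.P219.Six.Near
import Vale.Agent.P219.SharpK.FirstVar

/-!
# Near minimisers with almost stationary nearby levels, for the fields of a profile
-/

open MeasureTheory Filter Topology Set
open scoped ENNReal ContDiff RealInnerProductSpace

namespace Vale.Agent.P219.SharpK

open Vale.Agent.P219 Vale.Agent.P219.Univ Vale.Agent.P219.Six Vale.Agent.P219.Six.Surf
open Vale.Agent.P219.Six.FV (rpow_tangent near_alg gVol_mono gVol_nonneg mem_closure_sub area_affine exists_window)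

noncomputable section

variable {k n : ℕ} {g : MetricField n} {Exp Log : Space n → Space n → Space n} (p : Prof k)

/-- The inward normal at `a` in the linearised chart at `a`. -/
def poleDir (g : MetricField n) (Log : Space n → Space n → Space n) (φ : Space n → ℝ)
    (a : Space n) : Space n :=
  -fderiv ℝ (Log a) a (unitN g φ a)

theorem norm_poleDir (hg : IsMetric g) (hc : JointCharts g Exp Log) (φ : Space n → ℝ) (a : Space n) :
    ‖poleDir g Log φ a‖ ≤ 1 := by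
  have h1 := hc.metric_eq a (unitN g φ a) (unitN g φ a)
  rw [real_inner_self_eq_norm_sq, ← gNorm_sq hg] at h1
  rw [poleDir, norm_neg, ← (pow_left_inj₀ (gNorm_nonneg g a _) (norm_nonneg _) two_ne_zero).1 h1]
  exact Surf.gNorm_unitN_le hg a

/-- The scale at which the mean curvature of a minimiser is `k`. -/
def scale (n : ℕ) (c V : ℝ) : ℝ := c * V ^ (-(n : ℝ)⁻¹) / n

theorem scale_anti {c V W : ℝ} (hc : 0 ≤ c) (hV : 0 < V) (h : V ≤ W) :
    scale n c W ≤ scale n c V := by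
  unfold scale
  gcongr ?_ / _
  exact mul_le_mul_of_nonneg_left (Real.rpow_le_rpow_of_nonpos hV h (by simp)) hc

/-- The variation at a nearby level, seen in the window of the zero level. -/
theorem level_vary (hg : IsMetric g) (hc : JointCharts g Exp Log) {φ : Space n → ℝ} {η τ : ℝ}
    (hd : Defining φ) (hw : RegWindow φ η) (hτ0 : τ < 0) (habs : |τ| < η / 2) {K : Set (Space n)}
    (hK : IsClosed K) (hsub : sub φ τ ⊆ K) {ε δ t e₁ Cv : ℝ} (hε : 0 < ε) (hδ : 0 < δ)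
    {q : Space n × Space n × ℝ} (hl : 0 < q.2.2)
    (hCv : ∀ x W, x ∈ K → g x W W = 1 → |(ker p Log ε δ (q, x, W)).2| ≤ Cv)
    (hvar : ∀ ψ : Space n → ℝ, ∀ η : ℝ, Defining ψ → RegWindow ψ η → sub ψ 0 ⊆ K →
      ∃ φ', Defining φ' ∧ sub φ' 0 ⊆ K ∧
        (Univ.gPer g (sub φ' 0)).toReal ≤ (1 + t * e₁) * area g ψ η 0 (fun _ => 1) -
          t * area g ψ η 0 (areaKer p Log g ψ ε δ q) ∧
        (1 - t * e₁) * Univ.gVol g (sub ψ 0) - t * area g ψ η 0 (volKer p Log g ψ ε q) -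
          t * e₁ * area g ψ η 0 (fun _ => 1) ≤ Univ.gVol g (sub φ' 0)) :
    ∃ φ', Defining φ' ∧ sub φ' 0 ⊆ K ∧
      (Univ.gPer g (sub φ' 0)).toReal ≤ (1 + t * e₁) * area g φ η τ (fun _ => 1) -
          t * area g φ η τ (areaKer p Log g φ ε δ q) ∧
      (1 - t * e₁) * Univ.gVol g (sub φ τ) - t * area g φ η τ (volKer p Log g φ ε q) -
          t * e₁ * area g φ η τ (fun _ => 1) ≤ Univ.gVol g (sub φ' 0) ∧
      |area g φ η τ (volKer p Log g φ ε q)| ≤ Cv * area g φ η τ (fun _ => 1) := by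
  have hc1 : ContDiffOn ℝ 1 (fun _ : Space n => (1 : ℝ)) (regSet φ) := contDiffOn_const
  obtain ⟨hP10, -⟩ := gPer_sub hg hd hw habs
  set ψ : Space n → ℝ := fun x => φ x - τ
  have hd' : Defining ψ := by
    obtain ⟨R', hR'⟩ := hd.far
    refine ⟨hd.smooth.sub contDiff_const, ⟨R', fun x hx => ?_⟩, fun x hx => ?_⟩
    · show 1 ≤ φ x - τ
      linarith [hR' x hx]
    · simp only [ψ, fderiv_sub_const]
      have hxτ : φ x = τ := by simp only [ψ] at hx; linarith
      exact hw.2.2 x (by rw [hxτ]; linarith [hw.1])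
  set η' := (η / 2 - |τ|) / 2
  have hη' : 0 < η' := by simp only [η']; linarith
  have hτη : |τ| + η' < η / 2 := by simp only [η']; linarith
  have hw' : RegWindow ψ η' := by
    refine ⟨hη', by linarith [hw.2.1, abs_nonneg τ, hw.1], fun x hx => ?_⟩
    simp only [ψ, fderiv_sub_const]
    refine hw.2.2 x ?_
    have h1 := abs_sub_abs_le_abs_sub (φ x) τ
    have hx' : |φ x - τ| ≤ η' := hx
    linarith [hw.1]
  have hsub0 : sub ψ 0 = sub φ τ := by ext x; simp [sub, ψ]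
  have hN : ∀ z, unitN g ψ z = unitN g φ z := fun z => by
    simp only [unitN, gradLen, gGrad, ψ, fderiv_sub_const]
  have hka : areaKer p Log g ψ ε δ q = areaKer p Log g φ ε δ q := by
    funext z; simp only [areaKer, hN]
  have hkv : volKer p Log g ψ ε q = volKer p Log g φ ε q := by
    funext z; simp only [volKer, hN]
  obtain ⟨hcka, hckv⟩ := contDiffOn_kers p hg hc hd hε hδ (q := q) hl
  obtain ⟨φ', hd'', hφ'K, hP', hV'⟩ := hvar ψ η' hd' hw' (by rw [hsub0]; exact hsub)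
  rw [hka, area_shift hg hd hw hη' hτη hc1, area_shift hg hd hw hη' hτη hcka] at hP'
  rw [hkv, hsub0, area_shift hg hd hw hη' hτη hc1, area_shift hg hd hw hη' hτη hckv] at hV'
  set Aq := area g φ η τ (volKer p Log g φ ε q)
  set P1 := area g φ η τ fun _ => 1
  have hq : ∀ z, φ z = τ → |volKer p Log g φ ε q z| ≤ Cv := by
    intro z hz
    have hz0 : ψ z = 0 := by simp [ψ, hz]
    have hzK : z ∈ K := (closure_minimal (by rw [hsub0]; exact hsub) hK)
      (mem_closure_sub (hd'.smooth.differentiable (by norm_num) z) hz0 (hd'.reg z hz0))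
    refine hCv z (unitN g φ z) hzK ?_
    rw [← gNorm_sq hg, Surf.gNorm_unitN hg (hw.2.2 z (by rw [hz]; linarith [hw.1])), one_pow]
  have hτ1' := (lt_one_of_window hw habs).le
  have hAq : |Aq| ≤ Cv * P1 := by
    have hu := area_mono hg hd hw habs hckv
      (h' := fun x => Cv * (fun _ : Space n => (1 : ℝ)) x) (contDiffOn_const.mul hc1)
      fun z hz => by simpa using (abs_le.1 (hq z hz)).2
    have hl := area_mono hg hd hw habs
      (h := fun x => -Cv * (fun _ : Space n => (1 : ℝ)) x) (contDiffOn_const.mul hc1) hckv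
      fun z hz => by simpa using (abs_le.1 (hq z hz)).1
    rw [area_smul hg hd hw hc1] at hu hl
    rw [abs_le]
    constructor <;> linarith
  exact ⟨φ', hd'', hφ'K, hP', hV', hAq⟩


/-- Near minimisers with almost stationary nearby levels. -/
theorem near (hn : n = k + 1) (hk : 1 ≤ k) (hg : IsMetric g) (hc : JointCharts g Exp Log) (hs : SecBound g 0)
    {c : ℝ} (hc0 : 0 < c) {φ₀ : Space n → ℝ} (h₀ : Defining φ₀)
    (hneg : deficitN g c (sub φ₀ 0) < 0) :
    ∃ m Vmax : ℝ, 0 < m ∧ ∀ ε δ e : ℝ, 0 < ε → 0 < δ → 0 < e → ∃ φ η, Defining φ ∧ RegWindow φ η ∧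
      deficitN g c (sub φ 0) ≤ -m ∧ Univ.gVol g (sub φ 0) ≤ Vmax ∧
      ∀ τ ∈ Ioo (-(η / 2)) 0, ∀ a, φ a = τ →
        area g φ η τ (fun z =>
          areaKer p Log g φ ε δ (a, poleDir g Log φ a, scale n c (Univ.gVol g (sub φ 0))) z -
            (k : ℝ) * scale n c (Univ.gVol g (sub φ 0)) *
              volKer p Log g φ ε (a, poleDir g Log φ a, scale n c (Univ.gVol g (sub φ 0))) z) ≤ e := by
  obtain ⟨o, ho⟩ : ∃ o : Space n, o = 0 := ⟨0, rfl⟩
  have hn2' : 2 ≤ n := by omega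
  have hpo := FV.pot_psi hn2' hg hc hs o
  obtain ⟨R, hR⟩ := Surf.sub_subset_ball h₀ (τ := 0) zero_le_one
  obtain ⟨Mb, hMb⟩ := (isCompact_closedBall (0 : Space n) R).exists_bound_of_continuousOn
    hpo.smooth.continuous.continuousOn
  set M := max Mb 0 + 1
  have hM : 0 < M := by positivity
  set K := {x | psi Log o x ≤ M}
  have hKb : Bornology.IsBounded K := (hpo.compact M).isBounded
  have h₀K : sub φ₀ 0 ⊆ K := fun x hx => by
    have := (le_abs_self _).trans ((hMb x (hR hx)).trans (le_max_left Mb 0))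
    show psi Log o x ≤ max Mb 0 + 1
    linarith
  set Vmax := Univ.gVol g K
  refine ⟨-deficitN g c (sub φ₀ 0), Vmax, by linarith, fun ε δ e hε hδ he => ?_⟩
  set p' : ℝ := 1 - (n : ℝ)⁻¹
  have hn2 : (2 : ℝ) ≤ n := by exact_mod_cast hn2'
  have hp1 : p' ≤ 1 := by simp [p']
  have hp0 : 0 < p' := by
    have : (n : ℝ)⁻¹ ≤ 2⁻¹ := inv_anti₀ two_pos hn2
    simp only [p']; linarith
  set m := -deficitN g c (sub φ₀ 0)
  have hm : 0 < m := by simp only [m]; linarith
  set v0 := (m / c) ^ p'⁻¹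
  have hv0 : 0 < v0 := Real.rpow_pos_of_pos (by positivity) _
  set Pm := c * Vmax ^ p' + 1
  have hVmax : 0 ≤ Vmax := gVol_nonneg hg K
  have hPm : 0 < Pm := by positivity
  set b : ℝ → ℝ := fun s => c * p' * s ^ (p' - 1)
  set H := b (v0 / 4)
  set l₀ := scale n c (Vmax + v0)
  set l₁ := scale n c v0
  have hl₀ : 0 < l₀ := by
    simp only [l₀, scale]
    positivity
  obtain ⟨Cv, hCv0, hCv⟩ := vol_bound p (δ := δ) (l₁ := l₁) hn2' hg hc hs o M hl₀ hε
  set K0 := Pm + 1 + H * (Vmax + Pm) + Cv * Pm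
  have hK0 : 0 < K0 := by positivity
  set e₁ := e / K0
  have he₁ : 0 < e₁ := by positivity
  -- the mean curvature is uniformly continuous in the volume
  have hbc : ContinuousOn b (Icc (v0 / 4) (Vmax + v0)) := by
    refine continuousOn_const.mul (continuousOn_id.rpow_const fun s hs => Or.inl ?_)
    have : v0 / 4 ≤ s := hs.1
    exact (lt_of_lt_of_le (by linarith) this).ne'
  obtain ⟨ρ, hρ, hbu⟩ := Metric.uniformContinuousOn_iff.1
    (isCompact_Icc.uniformContinuousOn_of_continuous hbc) e₁ he₁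
  set Dm := e₁ * Vmax + (Cv + e₁) * Pm
  have hDm : 0 < Dm := by positivity
  obtain ⟨t, hvar, ht⟩ := ((variation p (l₁ := l₁) hn hk hg hc hs o hM hl₀ hε hδ he₁).and
    (Ioo_mem_nhdsGT (show 0 < min (v0 / 4) (ρ / 2) / Dm by positivity))).exists
  have ht0 : 0 < t := ht.1
  have htD : t * Dm < min (v0 / 4) (ρ / 2) := (lt_div_iff₀ hDm).1 ht.2
  -- a near minimiser
  set D := {φ : Space n → ℝ | Defining φ ∧ sub φ 0 ⊆ K}
  have hbdd : BddBelow ((fun φ => deficitN g c (sub φ 0)) '' D) := by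
    refine ⟨-(c * Vmax ^ p'), ?_⟩
    rintro _ ⟨φ, hφ, rfl⟩
    have h1 : Univ.gVol g (sub φ 0) ^ p' ≤ Vmax ^ p' :=
      Real.rpow_le_rpow (gVol_nonneg hg _) (gVol_mono hg hKb hφ.2) hp0.le
    simp only [deficitN]
    have h2 := (Univ.gPer g (sub φ 0)).toReal_nonneg
    nlinarith
  set d := sInf ((fun φ => deficitN g c (sub φ 0)) '' D)
  have hdle : ∀ φ ∈ D, d ≤ deficitN g c (sub φ 0) := fun φ hφ => csInf_le hbdd ⟨φ, hφ, rfl⟩
  obtain ⟨φ, hφD, hφ1, hφ2⟩ : ∃ φ ∈ D, deficitN g c (sub φ 0) < d + t * e₁ / 2 ∧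
      deficitN g c (sub φ 0) ≤ -m := by
    obtain ⟨_, ⟨φ₁, hφ₁, rfl⟩, h1⟩ := exists_lt_of_csInf_lt
      (s := (fun φ => deficitN g c (sub φ 0)) '' D) ⟨_, φ₀, ⟨h₀, h₀K⟩, rfl⟩
      (show d < d + t * e₁ / 2 by linarith [mul_pos ht0 he₁])
    rcases le_total (deficitN g c (sub φ₁ 0)) (deficitN g c (sub φ₀ 0)) with h | h
    · exact ⟨φ₁, hφ₁, h1, by simpa [m] using h⟩
    · exact ⟨φ₀, ⟨h₀, h₀K⟩, h.trans_lt h1, by simp [m]⟩
  obtain ⟨hd, hφK⟩ := hφD
  obtain ⟨η₀, hw₀⟩ := exists_window hd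
  set V0 := Univ.gVol g (sub φ 0)
  have hV0m : V0 ≤ Vmax := gVol_mono hg hKb hφK
  have hV00 : 0 ≤ V0 := gVol_nonneg hg _
  have hdef : (Univ.gPer g (sub φ 0)).toReal - c * V0 ^ p' ≤ -m := hφ2
  have hV0 : v0 ≤ V0 := by
    have h1 : m / c ≤ V0 ^ p' := by
      rw [div_le_iff₀ hc0]
      linarith [(Univ.gPer g (sub φ 0)).toReal_nonneg]
    calc v0 ≤ (V0 ^ p') ^ p'⁻¹ := Real.rpow_le_rpow (by positivity) h1 (by positivity)
      _ = V0 := by rw [← Real.rpow_mul hV00, mul_inv_cancel₀ hp0.ne', Real.rpow_one]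
  have hP0 : (Univ.gPer g (sub φ 0)).toReal < Pm := by
    have h1 : V0 ^ p' ≤ Vmax ^ p' := Real.rpow_le_rpow hV00 hV0m hp0.le
    have := mul_le_mul_of_nonneg_left h1 hc0.le
    simp only [Pm]; linarith
  -- nearby levels
  have hz : (0 : ℝ) ∈ Ioo (-(η₀ / 2)) (η₀ / 2) := by
    constructor <;> linarith [hw₀.1]
  have hc1 : ContDiffOn ℝ 1 (fun _ : Space n => (1 : ℝ)) (regSet φ) := contDiffOn_const
  have hcA := (area_continuous hg hd hw₀ hc1).continuousAt (isOpen_Ioo.mem_nhds hz)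
  have hcV := (gVol_continuous hg hd hw₀).continuousAt (isOpen_Ioo.mem_nhds hz)
  have hP0eq : (Univ.gPer g (sub φ 0)).toReal = area g φ η₀ 0 fun _ => 1 := by
    obtain ⟨h1, h2⟩ := gPer_sub hg hd hw₀ (τ := 0) (by rw [abs_zero]; linarith [hw₀.1])
    rw [h2, ENNReal.toReal_ofReal h1]
  have hev : ∀ᶠ τ in 𝓝 (0 : ℝ), |τ| < η₀ / 2 ∧ dist (Univ.gVol g (sub φ τ)) V0 < min (v0 / 2) (ρ / 2) ∧
      area g φ η₀ τ (fun _ => 1) < Pm ∧
      area g φ η₀ τ (fun _ => 1) - c * Univ.gVol g (sub φ τ) ^ p' < d + t * e₁ := by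
    refine ((continuous_abs.tendsto' (0 : ℝ) 0 abs_zero).eventually_lt_const
      (by linarith [hw₀.1])).and ((Metric.tendsto_nhds.1 hcV _ (by positivity)).and
      ((hcA.eventually_lt_const (show area g φ η₀ 0 (fun _ => 1) < Pm by rw [← hP0eq]; exact hP0)).and ?_))
    refine (hcA.sub ((hcV.rpow_const (Or.inr hp0.le)).const_mul c)).eventually_lt_const ?_
    show area g φ η₀ 0 (fun _ => 1) - c * V0 ^ p' < d + t * e₁
    rw [← hP0eq]
    have : (Univ.gPer g (sub φ 0)).toReal - c * V0 ^ p' < d + t * e₁ / 2 := hφ1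
    linarith [mul_pos ht0 he₁]
  obtain ⟨r, hr, hball⟩ := Metric.eventually_nhds_iff.1 hev
  set η := min r (η₀ / 2)
  have hη0 : 0 < η := lt_min hr (by linarith [hw₀.1])
  have hηle : η ≤ η₀ := (min_le_right _ _).trans (by linarith [hw₀.1])
  have hw : RegWindow φ η := ⟨hη0, hηle.trans_lt hw₀.2.1, fun x hx => hw₀.2.2 x (hx.trans hηle)⟩
  refine ⟨φ, η, hd, hw, hφ2, hV0m, fun τ hτ a ha => ?_⟩
  have hτ0 : τ < 0 := hτ.2
  have habs : |τ| < η / 2 := by rw [abs_of_neg hτ0]; linarith [hτ.1]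
  obtain ⟨hτ1, hVd, hP1', hF1⟩ := hball (y := τ) (by
    rw [Real.dist_eq, sub_zero]; linarith [min_le_left r (η₀ / 2)])
  obtain ⟨hVd1, hVd2⟩ := lt_min_iff.1 hVd
  rw [Real.dist_eq, abs_lt] at hVd1
  rw [Real.dist_eq, abs_lt] at hVd2
  set V1 := Univ.gVol g (sub φ τ)
  set P1 := area g φ η τ fun _ => 1
  obtain ⟨hP10, hPer1⟩ := gPer_sub hg hd hw habs
  have hPeq : area g φ η₀ τ (fun _ => 1) = P1 := by
    obtain ⟨h1, h2⟩ := gPer_sub hg hd hw₀ hτ1
    rw [hPer1, ENNReal.ofReal_eq_ofReal_iff hP10 h1] at h2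
    exact h2.symm
  rw [hPeq] at hP1' hF1
  have hsub : sub φ τ ⊆ K := fun x hx => hφK (lt_trans (show φ x < τ from hx) hτ0)
  have haK : psi Log o a ≤ M := hφK (show φ a < 0 by rw [ha]; exact hτ0)
  have hV10 : 0 ≤ V1 := gVol_nonneg hg _
  have hV1m : V1 ≤ Vmax := gVol_mono hg hKb hsub
  set L := scale n c V0 with hL
  have hLQ : L ∈ Icc l₀ l₁ := ⟨scale_anti hc0.le (hv0.trans_le hV0) (by linarith),
    scale_anti hc0.le hv0 hV0⟩
  have hLpos : 0 < L := hl₀.trans_le hLQ.1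
  set q : Space n × Space n × ℝ := (a, poleDir g Log φ a, L)
  have hqQ : q ∈ params Log o M l₀ l₁ := ⟨haK, norm_poleDir hg hc φ a, hLQ⟩
  obtain ⟨φ', hd'', hφ'K, hP', hV', hAq⟩ := level_vary p hg hc hd hw hτ0 habs
    (hpo.compact M).isClosed hsub hε hδ (q := q) hLpos (Cv := Cv)
    (fun x W hx hW => hCv q hqQ (x, W) ⟨hx, hW⟩) (hvar q hqQ)
  set A0 := area g φ η τ (areaKer p Log g φ ε δ q)
  set Aq := area g φ η τ (volKer p Log g φ ε q)
  obtain ⟨hcka, hckv⟩ := contDiffOn_kers p hg hc hd hε hδ (q := q) hLpos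
  have hτ1' := (lt_one_of_window hw habs).le
  have hd1 : d ≤ (Univ.gPer g (sub φ' 0)).toReal - c * Univ.gVol g (sub φ' 0) ^ p' :=
    hdle φ' ⟨hd'', hφ'K⟩
  obtain ⟨hAq1, hAq2⟩ := abs_le.1 hAq
  set W := V1 - t * (e₁ * V1 + Aq + e₁ * P1)
  have hΔ : |t * (e₁ * V1 + Aq + e₁ * P1)| ≤ t * Dm := by
    rw [abs_mul, abs_of_pos ht0]
    refine mul_le_mul_of_nonneg_left ?_ ht0.le
    have a1 := mul_le_mul_of_nonneg_left hV1m he₁.le
    have a2 := mul_le_mul_of_nonneg_left hP1'.le he₁.le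
    have a3 := mul_nonneg he₁.le hV10
    have a4 := mul_nonneg he₁.le hP10
    have a5 : Cv * P1 ≤ Cv * Pm := mul_le_mul_of_nonneg_left hP1'.le (by positivity)
    have a6 := mul_nonneg he₁.le hVmax
    have a7 := mul_nonneg he₁.le hPm.le
    simp only [Dm]
    rw [abs_le]
    constructor <;> linarith
  obtain ⟨hΔ1, hΔ2⟩ := abs_le.1 hΔ
  obtain ⟨htD1, htD2⟩ := lt_min_iff.1 htD
  have hW4 : v0 / 4 ≤ W := by simp only [W]; linarith
  have hWm : W ≤ Vmax + v0 := by simp only [W]; linarith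
  have hH : c * p' * W ^ (p' - 1) ≤ H := by
    simp only [H, b]
    refine mul_le_mul_of_nonneg_left ?_ (by positivity)
    exact Real.rpow_le_rpow_of_nonpos (by positivity) hW4 (by linarith)
  have hbb : |b W - b V0| ≤ e₁ := by
    have := hbu W ⟨hW4, hWm⟩ V0 ⟨by linarith, by linarith⟩ (by
      rw [Real.dist_eq, abs_lt]
      constructor <;> simp only [W] <;> linarith)
    rw [Real.dist_eq] at this
    exact this.le
  have main := near_alg hc0.le hp0.le hp1 ht0 he₁ (lt_of_lt_of_le (by positivity) hW4) hP' hV' hd1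
    hF1.le hP1'.le hP10 hV1m hV10 hAq hH hbb (by positivity)
  have hH' : (k : ℝ) * L = b V0 := by
    simp only [hL, scale, b, p', show p' - 1 = -(n : ℝ)⁻¹ by simp [p']]
    rw [hn]
    push_cast
    field_simp
    ring
  have hlin : area g φ η τ (fun z => areaKer p Log g φ ε δ q z -
      (k : ℝ) * L * volKer p Log g φ ε q z) = A0 + -(b V0) * Aq := by
    rw [hH', ← area_smul hg hd hw hckv, ← area_add hg hd hw hτ1' hcka (contDiffOn_const.mul hckv)]
    congr 1
    funext z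
    ring
  rw [hlin]
  have e2 : e₁ * K0 = e := by simp only [e₁]; field_simp
  simp only [K0] at e2
  linarith

end

end Vale.Agent.P219.SharpK
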