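import Vale.Agent.P219.SharpK.Switch
import Vale.Agent.P219.SharpK.Near
import Vale.Agent.P219.Six.Bridge.Smooth

/-!
# The sharp isoperimetric inequality from a profile
-/

open MeasureTheory Set Filter Topology
open scoped ENNReal ContDiff RealInnerProductSpace

namespace Vale.Agent.P219.SharpK

open Vale.Agent.P219 Vale.Agent.P219.Univ Vale.Agent.P219.Six Vale.Agent.P219.Six.Surf

noncomputable section

variable {k : ℕ} (p : Prof k) {g : MetricField (k + 1)}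
  {Ex Lo : Space (k + 1) → Space (k + 1) → Space (k + 1)} {φ : Space (k + 1) → ℝ}

/-- A defining function can be normalised at infinity without changing the domain. -/
theorem exists_defining (hφ : ContDiff ℝ 2 φ) (hb : Bornology.IsBounded (sub φ 0))
    (hr : ∀ x, φ x = 0 → fderiv ℝ φ x ≠ 0) :
    ∃ ψ : Space (k + 1) → ℝ, Defining ψ ∧ sub ψ 0 = sub φ 0 := by
  have hz : {x | φ x = 0} ⊆ closure (sub φ 0) := by
    intro x hx
    by_contra hcl
    have hev : ∀ᶠ y in 𝓝 x, 0 ≤ φ y := by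
      filter_upwards [isClosed_closure.isOpen_compl.mem_nhds hcl] with y hy
      exact not_lt.1 fun h => hy (subset_closure h)
    have hmin : IsLocalMin φ x := by
      filter_upwards [hev] with y hy
      rw [show φ x = 0 from hx]
      exact hy
    exact hr x hx hmin.fderiv_eq_zero
  obtain ⟨R, hR⟩ := hb.closure.subset_closedBall (0 : Space (k + 1))
  set ρ := max R 0 + 1 with hρ
  have hρ0 : 0 < ρ := by rw [hρ]; linarith [le_max_right R 0]
  let b : ContDiffBump (0 : Space (k + 1)) := ⟨ρ, ρ + 1, hρ0, by linarith⟩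
  set ψ : Space (k + 1) → ℝ := fun x => b x * φ x + (1 - b x) with hψ
  have hin : ∀ x ∈ closure (sub φ 0), ψ =ᶠ[𝓝 x] φ := fun x hx => by
    have hx' : x ∈ Metric.ball (0 : Space (k + 1)) ρ := by
      have := hR hx
      rw [Metric.mem_closedBall] at this
      rw [Metric.mem_ball, hρ]
      linarith [le_max_left R 0]
    filter_upwards [b.eventuallyEq_one_of_mem_ball hx'] with y hy
    simp [hψ, hy]
  have hout : ∀ x, x ∉ closure (sub φ 0) → 0 < ψ x := fun x hx => by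
    have h0 : 0 ≤ φ x := not_lt.1 fun h => hx (subset_closure h)
    have h1 : φ x ≠ 0 := fun h => hx (hz h)
    have h2 : 0 < φ x := lt_of_le_of_ne h0 (Ne.symm h1)
    have h3 := b.nonneg (x := x)
    have h4 := b.le_one (x := x)
    simp only [hψ]
    rcases h3.eq_or_lt with h | h
    · rw [← h]; norm_num
    · have := mul_pos h h2
      linarith
  refine ⟨ψ, ⟨?_, ⟨ρ + 1, fun x hx => ?_⟩, fun x hx => ?_⟩, ?_⟩
  · exact (b.contDiff.mul hφ).add (contDiff_const.sub b.contDiff)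
  · have : b x = 0 := b.zero_of_le_dist (by rwa [dist_zero_right])
    simp [hψ, this]
  · by_cases hcl : x ∈ closure (sub φ 0)
    · rw [(hin x hcl).fderiv_eq]
      exact hr x ((hin x hcl).self_of_nhds ▸ hx)
    · exact absurd hx (hout x hcl).ne'
  · ext x
    simp only [sub, Set.mem_ofPred_eq]
    by_cases hcl : x ∈ closure (sub φ 0)
    · rw [(hin x hcl).self_of_nhds]
    · exact iff_of_false (not_lt.2 (hout x hcl).le) fun h => hcl (subset_closure h)

theorem kernel_area (hg : IsMetric g) (hc : JointCharts g Ex Lo) {η τ : ℝ} (hd : Defining φ)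
    (hw : RegWindow φ η) (hτ : |τ| < η / 2) {l ε δ : ℝ} (hl : 0 < l) (hε : 0 < ε) (hδ : 0 < δ)
    (a : Space (k + 1)) :
    area g φ η τ (kernel p g Lo φ l ε δ a) =
      (1 + p.bd * Real.sqrt δ / (l * Real.sqrt ε)) * area g φ η τ (fun _ => 1) +
        1 / l * area g φ η τ (fun z => areaKer p Lo g φ ε δ (a, poleDir g Lo φ a, l) z -
          (k : ℝ) * l * volKer p Lo g φ ε (a, poleDir g Lo φ a, l) z) := by
  have hτ1 := (lt_one_of_window hw hτ).le
  obtain ⟨h1, h2⟩ := contDiffOn_kers p hg hc hd hε hδ (q := (a, poleDir g Lo φ a, l)) hl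
  set b := fun z => areaKer p Lo g φ ε δ (a, poleDir g Lo φ a, l) z -
    (k : ℝ) * l * volKer p Lo g φ ε (a, poleDir g Lo φ a, l) z
  have hb : ContDiffOn ℝ 1 b (regSet φ) := h1.sub (contDiffOn_const.mul h2)
  have hc1 : ContDiffOn ℝ 1 (fun _ : Space (k + 1) => (1 : ℝ)) (regSet φ) := contDiffOn_const
  rw [← area_smul hg hd hw hb, ← area_smul hg hd hw hc1,
    ← area_add hg hd hw hτ1 (contDiffOn_const.mul hc1) (contDiffOn_const.mul hb)]
  simp only [mul_one]
  rfl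

/-- The final arithmetic. -/
theorem algebra {α Ω G₀ n c u l P Q E ε e L L' : ℝ} (hn : n = (k : ℝ) + 1) (hα : 0 < α)
    (hΩ : 0 ≤ Ω) (hG : 0 ≤ G₀) (hid : Ω = n * (α * Ω + 2 * G₀)) (hu : 0 < u) (hl : l = c * u⁻¹ / n)
    (hQ : Q = (c / n) ^ (k + 1)) (hc : 0 < c) (hP0 : 0 ≤ P) (hP : P ≤ c * u ^ k) (hlL : l ≤ L)
    (hE : 0 ≤ E) (he : 0 ≤ e) (hL' : 1 / l * l ^ k ≤ L') (he1 : L ^ k * e ≤ 1)
    (hsw : Ω * (l * u ^ (k + 1)) ≤ P * (α * l ^ k * ((1 + E) * (P + e) + 1 / l * e) + 2 * G₀ +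
      Ω * (n * (l * Real.sqrt ε)))) :
    α * (Ω - n * Q) ≤ α * (E * (n * Q + 1)) + e * (α * (L ^ k + L')) + Ω * (n * (L * Real.sqrt ε)) := by
  have hn0 : 0 < n := by rw [hn]; positivity
  have hl0 : 0 < l := by rw [hl]; positivity
  have hQu : l ^ (k + 1) * u ^ (k + 1) = Q := by rw [hl, hQ, ← mul_pow]; field_simp
  have hQ0 : 0 < Q := by rw [hQ]; positivity
  have hk : l ^ k * (c * u ^ k) = n * Q := by
    rw [hl, hQ, mul_comm c (u ^ k), ← mul_assoc, ← mul_pow, pow_succ]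
    field_simp
  set P' := l ^ k * P
  have hP' : P' ≤ n * Q := hk ▸ mul_le_mul_of_nonneg_left hP (by positivity)
  have hP'0 : 0 ≤ P' := by positivity
  set err := α * (E * (n * Q + 1)) + e * (α * (L ^ k + L')) + Ω * (n * (L * Real.sqrt ε))
  have hlk : l ^ k ≤ L ^ k := pow_le_pow_left₀ hl0.le hlL k
  have h1 : α * l ^ k * ((1 + E) * (P + e) + 1 / l * e) + 2 * G₀ + Ω * (n * (l * Real.sqrt ε)) ≤
      α * (n * Q) + 2 * G₀ + err := by
    have e1 : α * l ^ k * ((1 + E) * (P + e) + 1 / l * e) =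
        α * (P' + E * (P' + l ^ k * e)) + e * (α * (l ^ k + 1 / l * l ^ k)) := by
      simp only [P']; ring
    have e2 : e * (α * (l ^ k + 1 / l * l ^ k)) ≤ e * (α * (L ^ k + L')) := by gcongr
    have e3 : Ω * (n * (l * Real.sqrt ε)) ≤ Ω * (n * (L * Real.sqrt ε)) := by gcongr
    have e5 : l ^ k * e ≤ 1 := (mul_le_mul_of_nonneg_right hlk he).trans he1
    have e4 : α * (P' + E * (P' + l ^ k * e)) ≤ α * (n * Q + E * (n * Q + 1)) := by gcongr
    rw [e1]
    simp only [err]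
    linarith
  have hLnn : 0 ≤ L := hl0.le.trans hlL
  have hL'0 : 0 ≤ L' := le_trans (by positivity) hL'
  have herr : 0 ≤ err := by
    simp only [err]
    positivity
  have h2 : Ω * Q ≤ n * Q * (α * (n * Q) + 2 * G₀ + err) := by
    have h3 := mul_le_mul_of_nonneg_left hsw (pow_nonneg hl0.le k)
    rw [show l ^ k * (Ω * (l * u ^ (k + 1))) = Ω * (l ^ (k + 1) * u ^ (k + 1)) by ring, hQu,
      ← mul_assoc (l ^ k) P] at h3
    exact h3.trans ((mul_le_mul_of_nonneg_left h1 hP'0).trans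
      (mul_le_mul_of_nonneg_right hP' (by positivity)))
  have h4 : Ω ≤ n * (α * (n * Q) + 2 * G₀ + err) := by
    rw [mul_right_comm n Q] at h2
    exact le_of_mul_le_mul_right h2 hQ0
  have h5 : n * (α * (Ω - n * Q)) ≤ n * err := by linarith
  exact le_of_mul_le_mul_left h5 hn0

/-- The choice of the small parameters. -/
theorem small {α bd Ω N Q L L' l₀ γ e ε δ : ℝ} (hα : 0 < α) (hbd : 0 ≤ bd) (hΩ : 0 ≤ Ω)
    (hN : 0 ≤ N) (hQ : 0 ≤ Q) (hL : 0 ≤ L) (hL' : 0 ≤ L') (hl₀ : 0 < l₀) (hγ : 0 < γ)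
    (he : e ≤ γ / (4 * (α * (L ^ k + L') + 1)))
    (hε : ε = (γ / (4 * (Ω * (N * L) + 1))) ^ 2)
    (hδ : δ = (γ * (l₀ * Real.sqrt ε) / (4 * (α * (bd * (N * Q + 1)) + 1))) ^ 2) :
    α * (bd * Real.sqrt δ / (l₀ * Real.sqrt ε) * (N * Q + 1)) + e * (α * (L ^ k + L')) +
      Ω * (N * (L * Real.sqrt ε)) ≤ 3 * γ / 4 := by
  have hsq : Real.sqrt ε = γ / (4 * (Ω * (N * L) + 1)) := by rw [hε, Real.sqrt_sq (by positivity)]
  have hs0 : 0 < Real.sqrt ε := by rw [hsq]; positivity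
  have h1 : e * (α * (L ^ k + L')) ≤ γ / 4 := by
    refine (mul_le_mul_of_nonneg_right he (by positivity)).trans ?_
    rw [div_mul_eq_mul_div, div_le_iff₀ (by positivity)]
    linarith
  have h2 : Ω * (N * (L * Real.sqrt ε)) ≤ γ / 4 := by
    rw [hsq, ← mul_assoc N L, ← mul_assoc, ← mul_div_assoc, div_le_iff₀ (by positivity)]
    linarith
  have h3 : α * (bd * Real.sqrt δ / (l₀ * Real.sqrt ε) * (N * Q + 1)) ≤ γ / 4 := by
    rw [hδ, Real.sqrt_sq (by positivity)]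
    rw [show α * (bd * (γ * (l₀ * Real.sqrt ε) / (4 * (α * (bd * (N * Q + 1)) + 1))) /
        (l₀ * Real.sqrt ε) * (N * Q + 1)) = α * (bd * (N * Q + 1)) * γ /
        (4 * (α * (bd * (N * Q + 1)) + 1)) by field_simp, div_le_iff₀ (by positivity)]
    linarith
  linarith

/-- One near minimiser gives the final inequality. -/
theorem step (hk : 1 ≤ k) {G₀ : ℝ} (hG₀ : HasMoment p G₀) (hG₀0 : 0 ≤ G₀)
    (hid : Om k = ((k : ℝ) + 1) * (p.α * Om k + 2 * G₀)) (hg : IsMetric g)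
    (hc : JointCharts g Ex Lo) (hs : SecBound g 0) {N pe c m v0 Vb L L' l₀ e ε δ Q : ℝ}
    (hN : N = (k : ℝ) + 1) (hpe : pe = (k : ℝ) / N) (hm : 0 < m) (hc0 : 0 < c) (hv : v0 = (m / c) ^ pe⁻¹)
    (hQ : Q = (c / N) ^ (k + 1)) (hL : L = scale (k + 1) c v0) (hl₀ : l₀ = scale (k + 1) c Vb)
    (hL' : L' = 1 / l₀ * L ^ k) (he0 : 0 < e) (he1 : L ^ k * e ≤ 1) (hε0 : 0 < ε) (hδ0 : 0 < δ)
    {ψ : Space (k + 1) → ℝ} {η : ℝ} (hψ : Defining ψ) (hw : RegWindow ψ η)
    (hdef : deficitN g c (sub ψ 0) ≤ -m) (hVle : Univ.gVol g (sub ψ 0) ≤ Vb)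
    (hbeta : ∀ τ ∈ Ioo (-(η / 2)) 0, ∀ a, ψ a = τ → area g ψ η τ (fun z =>
      areaKer p Lo g ψ ε δ (a, poleDir g Lo ψ a, scale (k + 1) c (Univ.gVol g (sub ψ 0))) z -
        (k : ℝ) * scale (k + 1) c (Univ.gVol g (sub ψ 0)) *
          volKer p Lo g ψ ε (a, poleDir g Lo ψ a, scale (k + 1) c (Univ.gVol g (sub ψ 0))) z) ≤ e) :
    p.α * (Om k - N * Q) ≤ p.α * (p.bd * Real.sqrt δ / (l₀ * Real.sqrt ε) * (N * Q + 1)) +
      e * (p.α * (L ^ k + L')) + Om k * (N * (L * Real.sqrt ε)) := by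
  have hV : ∀ E, 0 ≤ Univ.gVol g E := fun E => integral_nonneg fun x => (dens_pos hg x).le
  have hN0 : 0 < N := by rw [hN]; positivity
  have hcast : ((k + 1 : ℕ) : ℝ) = N := by rw [hN]; push_cast; rfl
  have hk0 : (0 : ℝ) < k := by exact_mod_cast hk
  have hpe0 : 0 < pe := by rw [hpe]; positivity
  have hv0 : 0 < v0 := by rw [hv]; positivity
  have hpe1 : pe = 1 - N⁻¹ := by rw [hpe, hN]; field_simp; ring
  have hQ0 : 0 < Q := by rw [hQ]; positivity
  have hα := p.α_pos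
  have hΩ := Om_pos (k := k)
  have h0 : |(0 : ℝ)| < η / 2 := by rw [abs_zero]; linarith [hw.1]
  obtain ⟨hA1, hper⟩ := gPer_sub hg hψ hw h0
  set V := Univ.gVol g (sub ψ 0)
  set P := area g ψ η 0 (fun _ => 1)
  have hcV : m + P ≤ c * V ^ pe := by
    have h1 := hdef
    rw [deficitN, hcast, ← hpe1, hper, ENNReal.toReal_ofReal hA1] at h1
    linarith
  have hVv : v0 ≤ V := by
    have h1 : m / c ≤ V ^ pe := by rw [div_le_iff₀ hc0]; linarith
    calc v0 ≤ (V ^ pe) ^ pe⁻¹ := hv ▸ Real.rpow_le_rpow (by positivity) h1 (by positivity)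
      _ = V := by rw [← Real.rpow_mul (hV _), mul_inv_cancel₀ hpe0.ne', Real.rpow_one]
  have hV0 : 0 < V := hv0.trans_le hVv
  set u := V ^ N⁻¹ with hu_def
  have hu0 : 0 < u := by positivity
  have hun : V = u ^ (k + 1) := by
    rw [hu_def, ← hcast, Real.rpow_inv_natCast_pow hV0.le (by omega)]
  have huk : V ^ pe = u ^ k := by
    rw [hu_def, ← Real.rpow_natCast, ← Real.rpow_mul hV0.le, hpe]
    congr 1
    ring
  set l := scale (k + 1) c V with hl
  have hl' : l = c * u⁻¹ / N := by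
    rw [hl, scale, hcast, Real.rpow_neg hV0.le]
  have hlpos : 0 < l := by rw [hl']; positivity
  have hlL : l ≤ L := hL ▸ scale_anti hc0.le hv0 hVv
  have hll : l₀ ≤ l := hl₀ ▸ scale_anti hc0.le hV0 hVle
  have hl₀0 : 0 < l₀ := by
    have : 0 < Vb := hV0.trans_le hVle
    rw [hl₀, scale]; positivity
  have hL0 : 0 < L := hlpos.trans_le hlL
  have hL'l : 1 / l * l ^ k ≤ L' := hL' ▸
    mul_le_mul (one_div_le_one_div_of_le hl₀0 hll) (pow_le_pow_left₀ hlpos.le hlL k) (by positivity)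
      (by positivity)
  set E := p.bd * Real.sqrt δ / (l * Real.sqrt ε) with hE
  have hE0 : 0 ≤ E := by have := p.bd_nonneg; rw [hE]; positivity
  set B := (1 + E) * (P + e) + 1 / l * e with hB
  have hB0 : 0 ≤ B := by rw [hB]; positivity
  have hone : ContDiffOn ℝ 1 (fun _ : Space (k + 1) => (1 : ℝ)) (regSet ψ) := contDiffOn_const
  have hev : ∀ᶠ τ in 𝓝[<] (0 : ℝ), ∀ a, ψ a = τ →
      area g ψ η τ (kernel p g Lo ψ l ε δ a) ≤ B := by
    have hcont : ContinuousAt (fun τ => area g ψ η τ (fun _ => 1)) 0 :=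
      (area_continuous hg hψ hw hone).continuousAt
        (isOpen_Ioo.mem_nhds ⟨by linarith [hw.1], by linarith [hw.1]⟩)
    have h1 : ∀ᶠ τ in 𝓝 (0 : ℝ), area g ψ η τ (fun _ => 1) < P + e :=
      hcont.eventually_lt_const (show area g ψ η 0 (fun _ => 1) < P + e by linarith)
    filter_upwards [nhdsWithin_le_nhds h1,
      Ioo_mem_nhdsLT (show -(η / 2) < 0 by linarith [hw.1])] with τ hτ1 hτ2 a ha
    have hb := hbeta τ hτ2 a ha
    rw [kernel_area p hg hc hψ hw (abs_lt.2 ⟨hτ2.1, by linarith [hτ2.2, hw.1]⟩) hlpos hε0 hδ0 a, hB]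
    exact add_le_add (mul_le_mul_of_nonneg_left hτ1.le (by positivity))
      (mul_le_mul_of_nonneg_left hb (by positivity))
  have hsw := switch p hg hc hs hψ hw hG₀ hG₀0 hlpos hε0 hδ0 hB0 hev
  rw [show Univ.gVol g (sub ψ 0) = u ^ (k + 1) from hun, hB, ← hN] at hsw
  have hfinal := algebra (Q := Q) (L := L) (L' := L') hN hα hΩ.le hG₀0 (hN ▸ hid) hu0 hl' hQ hc0 hA1
    (by linarith [huk ▸ hcV]) hlL hE0 he0.le hL'l he1 hsw
  have hE' : E ≤ p.bd * Real.sqrt δ / (l₀ * Real.sqrt ε) := by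
    have := p.bd_nonneg
    rw [hE]
    gcongr
  refine hfinal.trans ?_
  gcongr

/-- The sharp inequality in jointly smooth normal coordinates. -/
theorem sharp (hk : 1 ≤ k) {G₀ : ℝ} (hG₀ : HasMoment p G₀) (hG₀0 : 0 ≤ G₀)
    (hid : Om k = ((k : ℝ) + 1) * (p.α * Om k + 2 * G₀)) (hg : IsMetric g)
    (hc : JointCharts g Ex Lo) (hs : SecBound g 0) (hd : Defining φ) :
    ENNReal.ofReal (((k : ℝ) + 1) * (Om k / ((k : ℝ) + 1)) ^ (((k + 1 : ℕ) : ℝ)⁻¹) *
      Univ.gVol g (sub φ 0) ^ (1 - ((k + 1 : ℕ) : ℝ)⁻¹)) ≤ Univ.gPer g (sub φ 0) := by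
  by_contra hcon
  rw [not_le] at hcon
  have hfin : Univ.gPer g (sub φ 0) ≠ ⊤ := hcon.ne_top
  have hV : ∀ E, 0 ≤ Univ.gVol g E := fun E => integral_nonneg fun x => (dens_pos hg x).le
  set N : ℝ := (k : ℝ) + 1 with hN
  have hN0 : 0 < N := by positivity
  have hcast : ((k + 1 : ℕ) : ℝ) = N := by rw [hN]; push_cast; rfl
  rw [hcast] at hcon
  have hΩ := Om_pos (k := k)
  set S := (Om k / N) ^ N⁻¹ with hS
  have hS0 : 0 < S := by positivity
  have hSn : S ^ (k + 1) = Om k / N := by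
    rw [hS, ← hcast, Real.rpow_inv_natCast_pow (by positivity) (by omega)]
  set pe : ℝ := 1 - N⁻¹ with hpe
  have hpe' : pe = (k : ℝ) / N := by rw [hpe, hN]; field_simp; ring
  have hk0 : (0 : ℝ) < k := by exact_mod_cast hk
  have hpe0 : 0 < pe := by rw [hpe']; positivity
  set W := Univ.gVol g (sub φ 0) ^ pe
  set P₀ := (Univ.gPer g (sub φ 0)).toReal
  have hP0 : P₀ < N * S * W := (ENNReal.lt_ofReal_iff_toReal_lt hfin).1 hcon
  have hP00 : 0 ≤ P₀ := ENNReal.toReal_nonneg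
  have hWnn : 0 ≤ W := Real.rpow_nonneg (hV _) _
  have hW : 0 < W := by
    rcases hWnn.eq_or_lt with h | h
    · rw [← h, mul_zero] at hP0; linarith
    · exact h
  set c := (P₀ / W + N * S) / 2 with hc_def
  have hPW : P₀ / W < N * S := (div_lt_iff₀ hW).2 hP0
  have hcS : c < N * S := by rw [hc_def]; linarith
  have hc0 : 0 < c := by
    rw [hc_def]
    have : 0 ≤ P₀ / W := by positivity
    have : 0 < N * S := by positivity
    linarith
  have hneg : deficitN g c (sub φ 0) < 0 := by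
    have h1 : P₀ / W * W < c * W := mul_lt_mul_of_pos_right (by rw [hc_def]; linarith) hW
    rw [div_mul_cancel₀ _ hW.ne'] at h1
    rw [deficitN, hcast]
    linarith
  obtain ⟨m, Vmax, hm, hnear⟩ := near p rfl hk hg hc hs hc0 hd hneg
  set Q := (c / N) ^ (k + 1) with hQ
  have hQ0 : 0 < Q := by rw [hQ]; positivity
  have hQS : N * Q < Om k := by
    have h1 : Q < S ^ (k + 1) := by
      rw [hQ]
      exact pow_lt_pow_left₀ (by rw [div_lt_iff₀ hN0]; linarith) (by positivity) (by omega)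
    rw [hSn, lt_div_iff₀ hN0] at h1
    linarith
  set γ := p.α * (Om k - N * Q)
  have hα := p.α_pos
  have hγ0 : 0 < γ := mul_pos hα (by linarith)
  set v0 := (m / c) ^ pe⁻¹
  have hv0 : 0 < v0 := by positivity
  set L := scale (k + 1) c v0 with hL
  set Vb := |Vmax| + v0 with hVb
  set l₀ := scale (k + 1) c Vb with hl₀
  have hVb0 : 0 < Vb := by positivity
  have hl₀0 : 0 < l₀ := by rw [hl₀, scale]; positivity
  have hL0 : 0 < L := by rw [hL, scale]; positivity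
  set L' := 1 / l₀ * L ^ k
  have hL'0 : 0 ≤ L' := by positivity
  set e := min (1 / (L ^ k + 1)) (γ / (4 * (p.α * (L ^ k + L') + 1))) with he
  have he0 : 0 < e := by rw [he]; positivity
  set ε := (γ / (4 * (Om k * (N * L) + 1))) ^ 2 with hε
  have hε0 : 0 < ε := by rw [hε]; positivity
  set δ := (γ * (l₀ * Real.sqrt ε) / (4 * (p.α * (p.bd * (N * Q + 1)) + 1))) ^ 2 with hδ
  have hδ0 : 0 < δ := by
    rw [hδ]
    have := p.bd_nonneg
    have := Real.sqrt_pos.2 hε0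
    positivity
  obtain ⟨ψ, η, hψ, hw, hdef, hVle, hbeta⟩ := hnear ε δ e hε0 hδ0 he0
  have he1 : L ^ k * e ≤ 1 :=
    (mul_le_mul_of_nonneg_left (min_le_left _ _) (by positivity)).trans (by
      rw [mul_one_div, div_le_one (by positivity)]; linarith)
  have h1 := step p hk hG₀ hG₀0 hid hg hc hs hN hpe' hm hc0 rfl hQ hL hl₀ (L' := L') rfl he0 he1 hε0
    hδ0 hψ hw hdef (hVle.trans (by rw [hVb]; linarith [le_abs_self Vmax])) hbeta
  have h2 := small (k := k) (e := e) hα p.bd_nonneg hΩ.le hN0.le hQ0.le hL0.le hL'0 hl₀0 hγ0 (by rw [he]; exact min_le_right _ _) hε hδ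
  linarith

/-- The sharp inequality for smooth bounded domains in metrics of nonpositive curvature with global
normal coordinates at every point. -/
theorem cartan_hadamard (hk : 1 ≤ k) {G₀ : ℝ} (hG₀ : HasMoment p G₀) (hG₀0 : 0 ≤ G₀)
    (hid : Om k = ((k : ℝ) + 1) * (p.α * Om k + 2 * G₀)) (hg : IsMetric g) (hn : NormalCharts g)
    (hs : SecBound g 0) (hφ : ContDiff ℝ 2 φ) (hb : Bornology.IsBounded (sub φ 0))
    (hr : ∀ x, φ x = 0 → fderiv ℝ φ x ≠ 0) :
    ENNReal.ofReal (((k : ℝ) + 1) * (Om k / ((k : ℝ) + 1)) ^ (((k + 1 : ℕ) : ℝ)⁻¹) *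
      Univ.gVol g (sub φ 0) ^ (1 - ((k + 1 : ℕ) : ℝ)⁻¹)) ≤ Univ.gPer g (sub φ 0) := by
  obtain ⟨Ex, Lo, hc⟩ := Bridge.exists_jointCharts hg hn
  obtain ⟨ψ, hd, hsub⟩ := exists_defining hφ hb hr
  rw [← hsub]
  exact sharp p hk hG₀ hG₀0 hid hg hc hs hd

end

end Vale.Agent.P219.SharpK
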