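import Mathlib

/-!
# Polynomial certificates in dimension 7
-/

namespace Vale.Agent.P219.SharpK.Seven

noncomputable section

/-- The coefficient of `l ^ 0` in the quotient on the diagonal. -/
def diagQ0 (t : ℝ) : ℝ :=
  ((45728/1575)*t^7 + (174032/1575)*t^6*(1-t) + (294088/1575)*t^5*(1-t)^2 +
    (270532/1575)*t^4*(1-t)^3 + (1328/15)*t^3*(1-t)^4 + (24)*t^2*(1-t)^5 + (8/3)*t*(1-t)^6)

theorem diagQ0_nonneg {t : ℝ} (ht : 0 ≤ t) (ht1 : 0 ≤ 1 - t) : 0 ≤ diagQ0 t := by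
  unfold diagQ0
  positivity

/-- The coefficient of `l ^ 1` in the quotient on the diagonal. -/
def diagQ1 (t : ℝ) : ℝ :=
  ((17824/315)*t^7 + (342208/1575)*t^6*(1-t) + (65328/175)*t^5*(1-t)^2 +
    (564068/1575)*t^4*(1-t)^3 + (316732/1575)*t^3*(1-t)^4 + (968/15)*t^2*(1-t)^5 +
    (32/3)*t*(1-t)^6 + (2/3)*(1-t)^7)

theorem diagQ1_nonneg {t : ℝ} (ht : 0 ≤ t) (ht1 : 0 ≤ 1 - t) : 0 ≤ diagQ1 t := by
  unfold diagQ1
  positivity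

/-- The coefficient of `l ^ 2` in the quotient on the diagonal. -/
def diagQ2 (t : ℝ) : ℝ :=
  ((24728/525)*t^7 + (19172/105)*t^6*(1-t) + (165602/525)*t^5*(1-t)^2 +
    (162403/525)*t^4*(1-t)^3 + (96044/525)*t^3*(1-t)^4 + (33823/525)*t^2*(1-t)^5 +
    (62/5)*t*(1-t)^6 + (1)*(1-t)^7)

theorem diagQ2_nonneg {t : ℝ} (ht : 0 ≤ t) (ht1 : 0 ≤ 1 - t) : 0 ≤ diagQ2 t := by
  unfold diagQ2
  positivity

/-- The coefficient of `l ^ 3` in the quotient on the diagonal. -/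
def diagQ3 (t : ℝ) : ℝ :=
  ((8584/315)*t^7 + (176756/1575)*t^6*(1-t) + (12742/63)*t^5*(1-t)^2 +
    (325349/1575)*t^4*(1-t)^3 + (202666/1575)*t^3*(1-t)^4 + (153241/3150)*t^2*(1-t)^5 +
    (16196/1575)*t*(1-t)^6 + (14/15)*(1-t)^7)

theorem diagQ3_nonneg {t : ℝ} (ht : 0 ≤ t) (ht1 : 0 ≤ 1 - t) : 0 ≤ diagQ3 t := by
  unfold diagQ3
  positivity

/-- The coefficient of `l ^ 4` in the quotient on the diagonal. -/
def diagQ4 (t : ℝ) : ℝ :=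
  ((3332/225)*t^7 + (107014/1575)*t^6*(1-t) + (70027/525)*t^5*(1-t)^2 +
    (30529/210)*t^4*(1-t)^3 + (49867/525)*t^3*(1-t)^4 + (11149/300)*t^2*(1-t)^5 +
    (12679/1575)*t*(1-t)^6 + (937/1260)*(1-t)^7)

theorem diagQ4_nonneg {t : ℝ} (ht : 0 ≤ t) (ht1 : 0 ≤ 1 - t) : 0 ≤ diagQ4 t := by
  unfold diagQ4
  positivity

/-- The coefficient of `l ^ 5` in the quotient on the diagonal. -/
def diagQ5 (t : ℝ) : ℝ :=
  ((524/75)*t^7 + (18482/525)*t^6*(1-t) + (13142/175)*t^5*(1-t)^2 + (15381/175)*t^4*(1-t)^3 +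
    (6093/100)*t^3*(1-t)^4 + (7003/280)*t^2*(1-t)^5 + (5909/1050)*t*(1-t)^6 +
    (2249/4200)*(1-t)^7)

theorem diagQ5_nonneg {t : ℝ} (ht : 0 ≤ t) (ht1 : 0 ≤ 1 - t) : 0 ≤ diagQ5 t := by
  unfold diagQ5
  positivity

/-- The coefficient of `l ^ 6` in the quotient on the diagonal. -/
def diagQ6 (t : ℝ) : ℝ :=
  ((6877/3150)*t^7 + (4901/420)*t^6*(1-t) + (110513/4200)*t^5*(1-t)^2 +
    (90753/2800)*t^4*(1-t)^3 + (98839/4200)*t^3*(1-t)^4 + (3523/350)*t^2*(1-t)^5 +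
    (7397/3150)*t*(1-t)^6 + (1937/8400)*(1-t)^7)

theorem diagQ6_nonneg {t : ℝ} (ht : 0 ≤ t) (ht1 : 0 ≤ 1 - t) : 0 ≤ diagQ6 t := by
  unfold diagQ6
  positivity

/-- The coefficient of `l ^ 7` in the quotient on the diagonal. -/
def diagQ7 (t : ℝ) : ℝ :=
  ((1937/6300)*t^7 + (21307/12600)*t^6*(1-t) + (32929/8400)*t^5*(1-t)^2 +
    (83291/16800)*t^4*(1-t)^3 + (1937/525)*t^3*(1-t)^4 + (1937/1200)*t^2*(1-t)^5 +
    (1937/5040)*t*(1-t)^6 + (1937/50400)*(1-t)^7)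

theorem diagQ7_nonneg {t : ℝ} (ht : 0 ≤ t) (ht1 : 0 ≤ 1 - t) : 0 ≤ diagQ7 t := by
  unfold diagQ7
  positivity

/-- The quotient on the diagonal, in Bernstein form. -/
def diagQ (l t : ℝ) : ℝ :=
  diagQ0 t*l^0 + diagQ1 t*l^1 + diagQ2 t*l^2 + diagQ3 t*l^3 + diagQ4 t*l^4 + diagQ5 t*l^5 +
    diagQ6 t*l^6 + diagQ7 t*l^7

/-- The coefficient of `l ^ 0` in the multiplier of the square on the edge. -/
def edgeS0 (t : ℝ) : ℝ :=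
  ((45728/1575)*t^6 + (3712/35)*t^5*(1-t) + (4863/50)*t^4*(1-t)^2 + (719/20)*t^3*(1-t)^3 +
    (703/100)*t^2*(1-t)^4 + (51/50)*t*(1-t)^5)

theorem edgeS0_nonneg {t : ℝ} (ht : 0 ≤ t) (ht1 : 0 ≤ 1 - t) : 0 ≤ edgeS0 t := by
  unfold edgeS0
  positivity

/-- The coefficient of `l ^ 1` in the multiplier of the square on the edge. -/
def edgeS1 (t : ℝ) : ℝ :=
  ((17824/315)*t^6 + (327064/1575)*t^5*(1-t) + (26271/100)*t^4*(1-t)^2 +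
    (7109/50)*t^3*(1-t)^3 + (3741/100)*t^2*(1-t)^4 + (122/25)*t*(1-t)^5)

theorem edgeS1_nonneg {t : ℝ} (ht : 0 ≤ t) (ht1 : 0 ≤ 1 - t) : 0 ≤ edgeS1 t := by
  unfold edgeS1
  positivity

/-- The coefficient of `l ^ 2` in the multiplier of the square on the edge. -/
def edgeS2 (t : ℝ) : ℝ :=
  ((24728/525)*t^6 + (91204/525)*t^5*(1-t) + (11761/50)*t^4*(1-t)^2 + (6513/50)*t^3*(1-t)^3 +
    (2477/100)*t^2*(1-t)^4 + (43/20)*t*(1-t)^5)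

theorem edgeS2_nonneg {t : ℝ} (ht : 0 ≤ t) (ht1 : 0 ≤ 1 - t) : 0 ≤ edgeS2 t := by
  unfold edgeS2
  positivity

/-- The coefficient of `l ^ 3` in the multiplier of the square on the edge. -/
def edgeS3 (t : ℝ) : ℝ :=
  ((8584/315)*t^6 + (54496/525)*t^5*(1-t) + (7429/50)*t^4*(1-t)^2 + (861/10)*t^3*(1-t)^3 +
    (1071/100)*t^2*(1-t)^4)

theorem edgeS3_nonneg {t : ℝ} (ht : 0 ≤ t) (ht1 : 0 ≤ 1 - t) : 0 ≤ edgeS3 t := by
  unfold edgeS3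
  positivity

/-- The coefficient of `l ^ 4` in the multiplier of the square on the edge. -/
def edgeS4 (t : ℝ) : ℝ :=
  ((3332/225)*t^6 + (94324/1575)*t^5*(1-t) + (9303/100)*t^4*(1-t)^2 + (6149/100)*t^3*(1-t)^3 +
    (41/4)*t^2*(1-t)^4 + (9/25)*t*(1-t)^5)

theorem edgeS4_nonneg {t : ℝ} (ht : 0 ≤ t) (ht1 : 0 ≤ 1 - t) : 0 ≤ edgeS4 t := by
  unfold edgeS4
  positivity

/-- The coefficient of `l ^ 5` in the multiplier of the square on the edge. -/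
def edgeS5 (t : ℝ) : ℝ :=
  ((524/75)*t^6 + (1044/35)*t^5*(1-t) + (4967/100)*t^4*(1-t)^2 + (911/25)*t^3*(1-t)^3 +
    (747/100)*t^2*(1-t)^4 + (23/50)*t*(1-t)^5)

theorem edgeS5_nonneg {t : ℝ} (ht : 0 ≤ t) (ht1 : 0 ≤ 1 - t) : 0 ≤ edgeS5 t := by
  unfold edgeS5
  positivity

/-- The coefficient of `l ^ 6` in the multiplier of the square on the edge. -/
def edgeS6 (t : ℝ) : ℝ :=
  ((6877/3150)*t^6 + (60827/6300)*t^5*(1-t) + (419/25)*t^4*(1-t)^2 + (627/50)*t^3*(1-t)^3 +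
    (159/100)*t^2*(1-t)^4)

theorem edgeS6_nonneg {t : ℝ} (ht : 0 ≤ t) (ht1 : 0 ≤ 1 - t) : 0 ≤ edgeS6 t := by
  unfold edgeS6
  positivity

/-- The coefficient of `l ^ 7` in the multiplier of the square on the edge. -/
def edgeS7 (t : ℝ) : ℝ :=
  ((1937/6300)*t^6 + (1937/1400)*t^5*(1-t) + (5/2)*t^4*(1-t)^2 + (6/5)*t^3*(1-t)^3)

theorem edgeS7_nonneg {t : ℝ} (ht : 0 ≤ t) (ht1 : 0 ≤ 1 - t) : 0 ≤ edgeS7 t := by
  unfold edgeS7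
  positivity

/-- The multiplier of the square on the edge, in Bernstein form. -/
def edgeS (l t : ℝ) : ℝ :=
  edgeS0 t*l^0 + edgeS1 t*l^1 + edgeS2 t*l^2 + edgeS3 t*l^3 + edgeS4 t*l^4 + edgeS5 t*l^5 +
    edgeS6 t*l^6 + edgeS7 t*l^7

/-- The coefficient of `l ^ 0` in the remainder on the edge. -/
def edgeR0 (t : ℝ) : ℝ :=
  ((142538/525)*t^6*(1-t)^2 + (1009529/1575)*t^5*(1-t)^3 + (211643/350)*t^4*(1-t)^4 +
    (85411/300)*t^3*(1-t)^5 + (420887/6300)*t^2*(1-t)^6 + (19651/3150)*t*(1-t)^7)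

theorem edgeR0_nonneg {t : ℝ} (ht : 0 ≤ t) (ht1 : 0 ≤ 1 - t) : 0 ≤ edgeR0 t := by
  unfold edgeR0
  positivity

/-- The coefficient of `l ^ 1` in the remainder on the edge. -/
def edgeR1 (t : ℝ) : ℝ :=
  ((29/315)*t^6*(1-t)^2 + (89/1575)*t^5*(1-t)^3 + (57/700)*t^4*(1-t)^4 + (1/10)*t^3*(1-t)^5 +
    (53/420)*t^2*(1-t)^6 + (1/21)*t*(1-t)^7)

theorem edgeR1_nonneg {t : ℝ} (ht : 0 ≤ t) (ht1 : 0 ≤ 1 - t) : 0 ≤ edgeR1 t := by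
  unfold edgeR1
  positivity

/-- The coefficient of `l ^ 2` in the remainder on the edge. -/
def edgeR2 (t : ℝ) : ℝ :=
  ((19/450)*t^6*(1-t)^2 + (197/6300)*t^5*(1-t)^3 + (11/700)*t^4*(1-t)^4 + (1/100)*t^3*(1-t)^5 +
    (103/1050)*t^2*(1-t)^6 + (71/2100)*t*(1-t)^7)

theorem edgeR2_nonneg {t : ℝ} (ht : 0 ≤ t) (ht1 : 0 ≤ 1 - t) : 0 ≤ edgeR2 t := by
  unfold edgeR2
  positivity

/-- The coefficient of `l ^ 3` in the remainder on the edge. -/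
def edgeR3 (t : ℝ) : ℝ :=
  ((1571/1260)*t^6*(1-t)^2 + (1/175)*t^5*(1-t)^3 + (1/70)*t^4*(1-t)^4 + (2/75)*t^3*(1-t)^5 +
    (10447/1575)*t^2*(1-t)^6 + (16781/3150)*t*(1-t)^7 + (1)*(1-t)^8)

theorem edgeR3_nonneg {t : ℝ} (ht : 0 ≤ t) (ht1 : 0 ≤ 1 - t) : 0 ≤ edgeR3 t := by
  unfold edgeR3
  positivity

/-- The coefficient of `l ^ 4` in the remainder on the edge. -/
def edgeR4 (t : ℝ) : ℝ :=
  ((167/3150)*t^6*(1-t)^2 + (59/630)*t^5*(1-t)^3 + (1/10)*t^4*(1-t)^4 + (2/25)*t^3*(1-t)^5 +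
    (587/75)*t^2*(1-t)^6 + (499/100)*t*(1-t)^7 + (5/6)*(1-t)^8)

theorem edgeR4_nonneg {t : ℝ} (ht : 0 ≤ t) (ht1 : 0 ≤ 1 - t) : 0 ≤ edgeR4 t := by
  unfold edgeR4
  positivity

/-- The coefficient of `l ^ 5` in the remainder on the edge. -/
def edgeR5 (t : ℝ) : ℝ :=
  ((23/450)*t^6*(1-t)^2 + (11/315)*t^5*(1-t)^3 + (41/3150)*t^4*(1-t)^4 + (1/45)*t^3*(1-t)^5 +
    (50333/12600)*t^2*(1-t)^6 + (407/252)*t*(1-t)^7 + (2713/12600)*(1-t)^8)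

theorem edgeR5_nonneg {t : ℝ} (ht : 0 ≤ t) (ht1 : 0 ≤ 1 - t) : 0 ≤ edgeR5 t := by
  unfold edgeR5
  positivity

/-- The coefficient of `l ^ 6` in the remainder on the edge. -/
def edgeR6 (t : ℝ) : ℝ :=
  ((227/6300)*t^6*(1-t)^2 + (41/1260)*t^5*(1-t)^3 + (13/315)*t^4*(1-t)^4 +
    (7/225)*t^3*(1-t)^5 + (58801/25200)*t^2*(1-t)^6 + (389/504)*t*(1-t)^7 + (437/5040)*(1-t)^8)

theorem edgeR6_nonneg {t : ℝ} (ht : 0 ≤ t) (ht1 : 0 ≤ 1 - t) : 0 ≤ edgeR6 t := by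
  unfold edgeR6
  positivity

/-- The coefficient of `l ^ 7` in the remainder on the edge. -/
def edgeR7 (t : ℝ) : ℝ :=
  ((5/252)*t^6*(1-t)^2 + (6539/3150)*t^5*(1-t)^3 + (19/1400)*t^4*(1-t)^4 +
    (47/175)*t^3*(1-t)^5 + (1894/525)*t^2*(1-t)^6 + (7349/4200)*t*(1-t)^7 + (321/1400)*(1-t)^8)

theorem edgeR7_nonneg {t : ℝ} (ht : 0 ≤ t) (ht1 : 0 ≤ 1 - t) : 0 ≤ edgeR7 t := by
  unfold edgeR7
  positivity

/-- The coefficient of `l ^ 8` in the remainder on the edge. -/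
def edgeR8 (t : ℝ) : ℝ :=
  ((923/1800)*t^6*(1-t)^2 + (1573/25200)*t^5*(1-t)^3 + (1551/560)*t^4*(1-t)^4 +
    (11863/1400)*t^3*(1-t)^5 + (521/75)*t^2*(1-t)^6 + (15691/8400)*t*(1-t)^7 +
    (1469/8400)*(1-t)^8)

theorem edgeR8_nonneg {t : ℝ} (ht : 0 ≤ t) (ht1 : 0 ≤ 1 - t) : 0 ≤ edgeR8 t := by
  unfold edgeR8
  positivity

/-- The coefficient of `l ^ 9` in the remainder on the edge. -/
def edgeR9 (t : ℝ) : ℝ :=
  ((307/8400)*t^6*(1-t)^2 + (4349/3360)*t^5*(1-t)^3 + (4197/1120)*t^4*(1-t)^4 +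
    (34471/8400)*t^3*(1-t)^5 + (25181/12600)*t^2*(1-t)^6 + (21307/50400)*t*(1-t)^7 +
    (1937/50400)*(1-t)^8)

theorem edgeR9_nonneg {t : ℝ} (ht : 0 ≤ t) (ht1 : 0 ≤ 1 - t) : 0 ≤ edgeR9 t := by
  unfold edgeR9
  positivity

/-- The remainder on the edge, in Bernstein form. -/
def edgeR (l t : ℝ) : ℝ :=
  edgeR0 t*l^0 + edgeR1 t*l^1 + edgeR2 t*l^2 + edgeR3 t*l^3 + edgeR4 t*l^4 + edgeR5 t*l^5 +
    edgeR6 t*l^6 + edgeR7 t*l^7 + edgeR8 t*l^8 + edgeR9 t*l^9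

theorem certs_nonneg {l t : ℝ} (hl : 0 ≤ l) (ht : 0 ≤ t) (ht1 : t ≤ 1) :
    0 ≤ diagQ l t ∧ 0 ≤ edgeS l t ∧ 0 ≤ edgeR l t := by
  have h : 0 ≤ 1 - t := by linarith
  refine ⟨?_, ?_, ?_⟩
  · exact add_nonneg (add_nonneg (add_nonneg (add_nonneg (add_nonneg (add_nonneg (add_nonneg (mul_nonneg (diagQ0_nonneg ht h) (pow_nonneg hl 0))
      (mul_nonneg (diagQ1_nonneg ht h) (pow_nonneg hl 1)))
      (mul_nonneg (diagQ2_nonneg ht h) (pow_nonneg hl 2)))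
      (mul_nonneg (diagQ3_nonneg ht h) (pow_nonneg hl 3)))
      (mul_nonneg (diagQ4_nonneg ht h) (pow_nonneg hl 4)))
      (mul_nonneg (diagQ5_nonneg ht h) (pow_nonneg hl 5)))
      (mul_nonneg (diagQ6_nonneg ht h) (pow_nonneg hl 6)))
      (mul_nonneg (diagQ7_nonneg ht h) (pow_nonneg hl 7))
  · exact add_nonneg (add_nonneg (add_nonneg (add_nonneg (add_nonneg (add_nonneg (add_nonneg (mul_nonneg (edgeS0_nonneg ht h) (pow_nonneg hl 0))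
      (mul_nonneg (edgeS1_nonneg ht h) (pow_nonneg hl 1)))
      (mul_nonneg (edgeS2_nonneg ht h) (pow_nonneg hl 2)))
      (mul_nonneg (edgeS3_nonneg ht h) (pow_nonneg hl 3)))
      (mul_nonneg (edgeS4_nonneg ht h) (pow_nonneg hl 4)))
      (mul_nonneg (edgeS5_nonneg ht h) (pow_nonneg hl 5)))
      (mul_nonneg (edgeS6_nonneg ht h) (pow_nonneg hl 6)))
      (mul_nonneg (edgeS7_nonneg ht h) (pow_nonneg hl 7))
  · exact add_nonneg (add_nonneg (add_nonneg (add_nonneg (add_nonneg (add_nonneg (add_nonneg (add_nonneg (add_nonneg (mul_nonneg (edgeR0_nonneg ht h) (pow_nonneg hl 0))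
      (mul_nonneg (edgeR1_nonneg ht h) (pow_nonneg hl 1)))
      (mul_nonneg (edgeR2_nonneg ht h) (pow_nonneg hl 2)))
      (mul_nonneg (edgeR3_nonneg ht h) (pow_nonneg hl 3)))
      (mul_nonneg (edgeR4_nonneg ht h) (pow_nonneg hl 4)))
      (mul_nonneg (edgeR5_nonneg ht h) (pow_nonneg hl 5)))
      (mul_nonneg (edgeR6_nonneg ht h) (pow_nonneg hl 6)))
      (mul_nonneg (edgeR7_nonneg ht h) (pow_nonneg hl 7)))
      (mul_nonneg (edgeR8_nonneg ht h) (pow_nonneg hl 8)))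
      (mul_nonneg (edgeR9_nonneg ht h) (pow_nonneg hl 9))

end

end Vale.Agent.P219.SharpK.Seven
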