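import Mathlib
import Vale.Agent.P219.SharpK.Check
import Vale.Agent.P219.SharpK.SevenCert

/-!
# The profile in dimension seven
-/

open Set
open scoped ContDiff

namespace Vale.Agent.P219.SharpK.Seven

noncomputable section

/-- The radial part of the profile. -/
def A (s : ℝ) : ℝ := (5600 + 5600 * s + 3584 * s ^ 2 + 936 * s ^ 3) / (1937 * (s ^ 2 * (2 + s) ^ 2))

/-- The derivative of `A`. -/
def A' (s : ℝ) : ℝ :=
  -(22400 + 33600 * s + 16800 * s ^ 2 + 5296 * s ^ 3 + 936 * s ^ 4) / (1937 * (s ^ 3 * (2 + s) ^ 3))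

/-- The coefficient of the cosine at the pole. -/
def B (s : ℝ) : ℝ := -8 / (149 * (2 + s) ^ 2)

/-- The derivative of `B`. -/
def B' (s : ℝ) : ℝ := 16 / (149 * (2 + s) ^ 3)

/-- The boundary weight. -/
def g (t : ℝ) : ℝ :=
  1102 / 1575 * t + 52 / 1575 * t ^ 2 + 6 / 175 * t ^ 3 + 13 / 75 * t ^ 4 -
    52 / 1575 * (t * (1 + 3 * t) / (1 + t) ^ 2)

theorem deriv_A {s : ℝ} (hs : 0 < s) : HasDerivAt A (A' s) s := by
  have h1 : HasDerivAt (fun x : ℝ => 5600 + 5600 * x + 3584 * x ^ 2 + 936 * x ^ 3)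
      (5600 + 7168 * s + 2808 * s ^ 2) s := by
    refine (((((hasDerivAt_id s).const_mul 5600).const_add 5600).add
      ((hasDerivAt_pow 2 s).const_mul 3584)).add ((hasDerivAt_pow 3 s).const_mul 936)).congr_deriv ?_
    simp; ring
  have h2 : HasDerivAt (fun x : ℝ => 1937 * (x ^ 2 * (2 + x) ^ 2))
      (1937 * (2 * s * (2 + s) ^ 2 + s ^ 2 * (2 * (2 + s)))) s := by
    refine (((hasDerivAt_pow 2 s).mul (((hasDerivAt_id s).const_add 2).fun_pow 2)).const_mul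
      1937).congr_deriv ?_
    simp
  refine (h1.div h2 (by positivity)).congr_deriv ?_
  unfold A'
  field_simp
  ring

theorem deriv_B {s : ℝ} (hs : 0 < s) : HasDerivAt B (B' s) s := by
  have h2 : HasDerivAt (fun x : ℝ => 149 * (2 + x) ^ 2) (298 * (2 + s)) s := by
    refine ((((hasDerivAt_id s).const_add 2).fun_pow 2).const_mul 149).congr_deriv ?_
    simp; ring
  refine ((hasDerivAt_const s (-8 : ℝ)).div h2 (by positivity)).congr_deriv ?_
  unfold B'
  field_simp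
  ring

theorem g_sub {x y : ℝ} (hx : 0 ≤ x) (hy : 0 ≤ y) :
    g y - g x = (y - x) / 1575 * (1102 + 52 * (x + y) + 54 * (x ^ 2 + x * y + y ^ 2) +
      273 * ((x + y) * (x ^ 2 + y ^ 2)) - 260 / ((1 + x) * (1 + y)) +
      104 * (2 + x + y) / ((1 + x) ^ 2 * (1 + y) ^ 2)) := by
  unfold g
  have : 1 + x ≠ 0 := by positivity
  have : 1 + y ≠ 0 := by positivity
  field_simp
  ring

theorem g_mono : MonotoneOn g (Icc 0 1) := by
  intro x hx y hy hxy
  have hx0 := hx.1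
  have hy0 := hy.1
  rw [← sub_nonneg, g_sub hx0 hy0]
  refine mul_nonneg (div_nonneg (sub_nonneg.2 hxy) (by norm_num)) ?_
  have h1 : 260 / ((1 + x) * (1 + y)) ≤ 260 :=
    div_le_self (by norm_num) (by nlinarith [mul_nonneg hx0 hy0])
  have h2 : 0 ≤ 104 * (2 + x + y) / ((1 + x) ^ 2 * (1 + y) ^ 2) := by positivity
  have h3 : 0 ≤ 54 * (x ^ 2 + x * y + y ^ 2) + 273 * ((x + y) * (x ^ 2 + y ^ 2)) := by positivity
  linarith

theorem dec {s : ℝ} (hs : 0 < s) {v : ℝ} (hv : v ∈ Icc (-1 : ℝ) 1) :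
    s * (A' s + B' s * v) - A s - 2 * B s * v ≤ 0 := by
  have e : s * (A' s + B' s * v) - A s - 2 * B s * v =
      -(33600 + 50400 * s + 29568 * s ^ 2 + 10752 * s ^ 3 + 1872 * s ^ 4 -
        416 * s ^ 2 * (1 + s) * v) / (1937 * (s ^ 2 * (2 + s) ^ 3)) := by
    unfold A A' B B'
    field_simp
    ring
  rw [e, neg_div, neg_nonpos]
  refine div_nonneg ?_ (by positivity)
  nlinarith [mul_le_mul_of_nonneg_left hv.2 (show 0 ≤ 416 * s ^ 2 * (1 + s) by positivity),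
    pow_pos hs 4, pow_pos hs 3, pow_pos hs 2]

theorem c0a {s : ℝ} (hs : 0 < s) : (0 : ℝ) ≤ (67200/1937) + (33600/1937) * s + (-127772/9685) * s ^ 2 + (-139046/9685) * s ^ 3 + (-3252/1937) * s ^ 4 + (462/149) * s ^ 5 + 1 * s ^ 6 := by
  nlinarith [sq_nonneg (s - 5/3), mul_nonneg hs.le (sq_nonneg (s - 5/3)), mul_nonneg (pow_nonneg hs.le 2) (sq_nonneg (s - 5/3)), mul_nonneg (pow_nonneg hs.le 3) (sq_nonneg (s - 5/3)), mul_nonneg (pow_nonneg hs.le 4) (sq_nonneg (s - 5/3))]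
theorem c0b {s : ℝ} (hs : 0 < s) : (0 : ℝ) ≤ (67200/1937) + (33600/1937) * s + (-115292/9685) * s ^ 2 + (-145286/9685) * s ^ 3 + (-4500/1937) * s ^ 4 + (462/149) * s ^ 5 + 1 * s ^ 6 := by
  nlinarith [sq_nonneg (s - 5/3), mul_nonneg hs.le (sq_nonneg (s - 5/3)), mul_nonneg (pow_nonneg hs.le 2) (sq_nonneg (s - 5/3)), mul_nonneg (pow_nonneg hs.le 3) (sq_nonneg (s - 5/3)), mul_nonneg (pow_nonneg hs.le 4) (sq_nonneg (s - 5/3))]

theorem ker_nonneg {s : ℝ} (hs : 0 < s) {w v : ℝ} (hw : w ∈ Icc (-1 : ℝ) 1)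
    (hv : v ∈ Icc (-1 : ℝ) 1) : 0 ≤ kerVal (6 : ℕ) (A s) (A' s) (B s) (B' s) s w v := by
  have hB : B s ≤ 0 := by
    unfold B
    rw [neg_div, neg_nonpos]
    positivity
  have hm := mixed_bound (v := v) hB hs hw
  set F : ℝ → ℝ := fun v => 1 + (A' s + B' s * v) * (1 - w ^ 2) + (5 + w ^ 2) * (A s + B s * v) / s +
    B s * (11 / 10) / (2 * s) - 6 * (A s + B s * v) * w with hF
  have h : 0 ≤ F v := by
    have h1 : 0 ≤ 1 + w := by linarith [hw.1]
    have h2 : 0 ≤ 1 - w := by linarith [hw.2]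
    have key : ∀ c0 c1 c2 : ℝ, 0 ≤ c0 → 0 ≤ c1 → 0 ≤ c2 →
        0 ≤ (c0 * (1 + w) ^ 2 + c1 * ((1 + w) * (1 - w)) + c2 * (1 - w) ^ 2) /
          (4 * (s ^ 3 * (2 + s) ^ 3)) := fun c0 c1 c2 a b c => by positivity
    refine affine_nonneg hv (by simp only [hF]; ring) ?_ ?_
    · rw [show F 1 = (((67200/1937) + (33600/1937) * s + (-127772/9685) * s ^ 2 + (-139046/9685) * s ^ 3 + (-3252/1937) * s ^ 4 + (462/149) * s ^ 5 + 1 * s ^ 6) * (1 + w) ^ 2 + ((12712/745) * s ^ 2 + (20516/745) * s ^ 3 + (3864/149) * s ^ 4 + 12 * s ^ 5 + 2 * s ^ 6) * ((1 + w) * (1 - w)) +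
          ((67200/1937) + (168000/1937) * s + (880228/9685) * s ^ 2 + (614554/9685) * s ^ 3 + (60972/1937) * s ^ 4 + (1326/149) * s ^ 5 + 1 * s ^ 6) * (1 - w) ^ 2) / (4 * (s ^ 3 * (2 + s) ^ 3)) by
        simp only [hF]; unfold A A' B B'; field_simp; ring]
      exact key _ _ _ (c0a hs) (by positivity) (by positivity)
    · rw [show F (-1) = (((67200/1937) + (33600/1937) * s + (-115292/9685) * s ^ 2 + (-145286/9685) * s ^ 3 + (-4500/1937) * s ^ 4 + (462/149) * s ^ 5 + 1 * s ^ 6) * (1 + w) ^ 2 + ((13992/745) * s ^ 2 + (20516/745) * s ^ 3 + (3864/149) * s ^ 4 + 12 * s ^ 5 + 2 * s ^ 6) * ((1 + w) * (1 - w)) +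
          ((67200/1937) + (168000/1937) * s + (892708/9685) * s ^ 2 + (633274/9685) * s ^ 3 + (62220/1937) * s ^ 4 + (1326/149) * s ^ 5 + 1 * s ^ 6) * (1 - w) ^ 2) / (4 * (s ^ 3 * (2 + s) ^ 3)) by
        simp only [hF]; unfold A A' B B'; field_simp; ring]
      exact key _ _ _ (c0b hs) (by positivity) (by positivity)
  refine h.trans ?_
  simp only [hF, kerVal, areaVal]
  push_cast
  linarith

/-- The chord inequality as a function of the sum `S` and the product `p` of the cosines. -/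
def Psi (s S p : ℝ) : ℝ :=
  1937 / 50400 * s ^ 6 / 2 * (2 + A' s * (2 - S ^ 2 + 2 * p) + B' s * (S - S * p) +
    (5 * (2 * A s + B s * S) + A s * (S ^ 2 - 2 * p) + B s * (S * p)) / s +
    B s * S * (2 - S ^ 2 + 2 * p) / (2 * s) - 6 * (A s * S + 2 * B s * p)) +
  (1102 / 1575 * (p * S) + 52 / 1575 * (p * (S ^ 2 - 2 * p)) +
    6 / 175 * (p * (S ^ 3 - 3 * S * p)) + 13 / 75 * (p * (S ^ 4 - 4 * S ^ 2 * p + 2 * p ^ 2)) -
    52 / 1575 * (p * (6 - (14 + 5 * S) / (1 + S + p) + 2 * (2 + S) ^ 2 / (1 + S + p) ^ 2))) - s * p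

theorem Psi_eq {s c d : ℝ} (hs : 0 < s) (hc : 0 ≤ c) (hd : 0 ≤ d) :
    Psi s (c + d) (c * d) = 1937 / 50400 * s ^ 6 * (kerVal (6 : ℕ) (A s) (A' s) (B s) (B' s) s d c +
      kerVal (6 : ℕ) (A s) (A' s) (B s) (B' s) s c d) / 2 + c * d * (g c + g d) - s * (c * d) := by
  unfold Psi kerVal areaVal g
  rw [abs_of_nonneg hc, abs_of_nonneg hd, show 1 + (c + d) + c * d = (1 + c) * (1 + d) by ring]
  have : 1 + c ≠ 0 := by positivity
  have : 1 + d ≠ 0 := by positivity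
  push_cast
  field_simp
  ring

theorem Psi_diag {s t : ℝ} (hs : 0 < s) (ht : 0 ≤ t) : Psi s (2 * t) (t ^ 2) =
    (s - 2 * t) ^ 2 * diagQ s t / ((2 + s) ^ 3 * (1 + t) ^ 3) := by
  unfold Psi diagQ
  simp only [diagQ0, diagQ1, diagQ2, diagQ3, diagQ4, diagQ5, diagQ6, diagQ7]
  unfold A A' B B'
  rw [show 1 + 2 * t + t ^ 2 = (1 + t) ^ 2 by ring]
  field_simp
  ring

theorem Psi_edge {s t : ℝ} (hs : 0 < s) (ht : 0 ≤ t) : Psi s (1 + t) t =
    ((s - 1 - t) ^ 2 * edgeS s t + edgeR s t) / ((2 + s) ^ 3 * (1 + t) ^ 3) := by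
  unfold Psi edgeS edgeR
  simp only [edgeS0, edgeS1, edgeS2, edgeS3, edgeS4, edgeS5, edgeS6, edgeS7, edgeR0, edgeR1, edgeR2, edgeR3, edgeR4, edgeR5, edgeR6, edgeR7, edgeR8, edgeR9]
  unfold A A' B B'
  rw [show 1 + (1 + t) + t = 2 * (1 + t) by ring]
  field_simp
  ring

/-- `Psi` is concave in the product where it is needed. -/
theorem Psi_conc {s S a b p : ℝ} (hS : 0 ≤ S) (ha : 0 ≤ a) (hap : a ≤ p) (hpb : p ≤ b)
    (hb : b ≤ S ^ 2 / 4)
    (hκ : 0 ≤ (104 + 162 * S + 1365 / 2 * S ^ 2) * (1 + S + a) ^ 4 +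
      52 * ((14 + 5 * S) * (1 + S) + 2 * (2 + S) ^ 2) * (1 + S + a) -
      312 * ((1 + S) * (2 + S) ^ 2)) :
    (b - p) * Psi s S a + (p - a) * Psi s S b ≤ (b - a) * Psi s S p := by
  have hp0 : 0 ≤ p := ha.trans hap
  have hb0 : 0 ≤ b := hp0.trans hpb
  have hA : 0 < 1 + S + a := by positivity
  have hB : 0 < 1 + S + b := by positivity
  have hP : 0 < 1 + S + p := by positivity
  have e : (b - a) * Psi s S p - ((b - p) * Psi s S a + (p - a) * Psi s S b) =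
      (b - a) * (p - a) * (b - p) / 1575 * (104 + 162 * S + 1092 * S ^ 2 - 546 * (a + b + p) +
        (52 * ((14 + 5 * S) * (1 + S) + 2 * (2 + S) ^ 2) - 104 * ((1 + S) * (2 + S) ^ 2) *
          ((1 + S + a)⁻¹ + (1 + S + b)⁻¹ + (1 + S + p)⁻¹)) /
        ((1 + S + a) * (1 + S + b) * (1 + S + p))) := by
    unfold Psi
    field_simp
    ring
  set K := 52 * ((14 + 5 * S) * (1 + S) + 2 * (2 + S) ^ 2) with hK
  set M := (1 + S) * (2 + S) ^ 2 with hM
  set P0 := 104 + 162 * S + 1365 / 2 * S ^ 2 with hP0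
  set D := (1 + S + a) * (1 + S + b) * (1 + S + p) with hD
  have hD0 : 0 < D := by positivity
  set Z := K - 312 * M * (1 + S + a)⁻¹ with hZ
  have hsum : (1 + S + a)⁻¹ + (1 + S + b)⁻¹ + (1 + S + p)⁻¹ ≤ 3 * (1 + S + a)⁻¹ := by
    have h1 : (1 + S + b)⁻¹ ≤ (1 + S + a)⁻¹ := inv_anti₀ hA (by linarith)
    have h2 : (1 + S + p)⁻¹ ≤ (1 + S + a)⁻¹ := inv_anti₀ hA (by linarith)
    linarith
  have hM0 : 0 ≤ M := by positivity
  have hZle : Z ≤ K - 104 * M * ((1 + S + a)⁻¹ + (1 + S + b)⁻¹ + (1 + S + p)⁻¹) := by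
    have := mul_le_mul_of_nonneg_left hsum (show 0 ≤ 104 * M by positivity)
    linarith
  have hpoly : P0 ≤ 104 + 162 * S + 1092 * S ^ 2 - 546 * (a + b + p) := by linarith
  have hP00 : 0 ≤ P0 := by positivity
  have hmain : 0 ≤ P0 + Z / D := by
    rcases le_total 0 Z with h | h
    · positivity
    · have h1 : Z / (1 + S + a) ^ 3 ≤ Z / D := by
        have hle : (1 + S + a) ^ 3 ≤ D := by
          rw [hD, show (1 + S + a) ^ 3 = (1 + S + a) * (1 + S + a) * (1 + S + a) by ring]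
          gcongr
          linarith
        have := div_le_div_of_nonneg_left (neg_nonneg.2 h) (pow_pos hA 3) hle
        rw [neg_div, neg_div] at this
        linarith
      have h2 : 0 ≤ P0 + Z / (1 + S + a) ^ 3 := by
        rw [show P0 + Z / (1 + S + a) ^ 3 =
            (P0 * (1 + S + a) ^ 4 + K * (1 + S + a) - 312 * M) / (1 + S + a) ^ 4 by
          rw [hZ]; field_simp; ring]
        exact div_nonneg hκ (by positivity)
      linarith
  have h3 := div_le_div_of_nonneg_right hZle hD0.le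
  have h4 := mul_nonneg (div_nonneg (mul_nonneg (mul_nonneg (show 0 ≤ b - a by linarith)
    (sub_nonneg.2 hap)) (sub_nonneg.2 hpb)) (show (0 : ℝ) ≤ 1575 by norm_num))
    (show 0 ≤ 104 + 162 * S + 1092 * S ^ 2 - 546 * (a + b + p) +
      (K - 104 * M * ((1 + S + a)⁻¹ + (1 + S + b)⁻¹ + (1 + S + p)⁻¹)) / D by linarith)
  linarith

theorem conc_small {S : ℝ} (h0 : 0 ≤ S) :
    0 ≤ (104 + 162 * S + 1365 / 2 * S ^ 2) * (1 + S + 0) ^ 4 +
      52 * ((14 + 5 * S) * (1 + S) + 2 * (2 + S) ^ 2) * (1 + S + 0) -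
      312 * ((1 + S) * (2 + S) ^ 2) := by
  have e : (104 + 162 * S + 1365 / 2 * S ^ 2) * (1 + S + 0) ^ 4 +
      52 * ((14 + 5 * S) * (1 + S) + 2 * (2 + S) ^ 2) * (1 + S + 0) -
      312 * ((1 + S) * (2 + S) ^ 2) =
    (1 + S) * (630 * S + 3065 / 2 * S ^ 2 + 5275 / 2 * S ^ 3 + 4419 / 2 * S ^ 4 +
      1365 / 2 * S ^ 5) := by ring
  rw [e]; positivity

theorem conc_large {S : ℝ} (h1 : 1 ≤ S) :
    0 ≤ (104 + 162 * S + 1365 / 2 * S ^ 2) * (1 + S + (S - 1)) ^ 4 +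
      52 * ((14 + 5 * S) * (1 + S) + 2 * (2 + S) ^ 2) * (1 + S + (S - 1)) -
      312 * ((1 + S) * (2 + S) ^ 2) := by
  have h0 : 0 ≤ S - 1 := by linarith
  have hS : 0 ≤ S := by linarith
  nlinarith [pow_le_pow_left₀ zero_le_one h1 4, pow_le_pow_left₀ zero_le_one h1 3,
    pow_le_pow_left₀ zero_le_one h1 2, mul_nonneg (pow_nonneg hS 4) h0, mul_nonneg (pow_nonneg hS 3) h0,
    mul_nonneg (pow_nonneg hS 5) h0, mul_nonneg (pow_nonneg hS 2) h0, mul_nonneg hS h0]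

theorem chord {s : ℝ} (hs : 0 < s) {c d : ℝ} (hc : c ∈ Ioc (0 : ℝ) 1) (hd : d ∈ Ioc (0 : ℝ) 1) :
    s * (c * d) ≤ 1937 / 50400 * s ^ 6 * (kerVal (6 : ℕ) (A s) (A' s) (B s) (B' s) s d c +
      kerVal (6 : ℕ) (A s) (A' s) (B s) (B' s) s c d) / 2 + c * d * (g c + g d) := by
  obtain ⟨hc0, hc1⟩ := hc
  obtain ⟨hd0, hd1⟩ := hd
  have he := Psi_eq hs hc0.le hd0.le
  suffices h : 0 ≤ Psi s (c + d) (c * d) by linarith
  obtain ⟨S, hS⟩ : ∃ S, S = c + d := ⟨_, rfl⟩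
  rw [← hS]
  have hS0 : 0 ≤ S := by linarith
  have hS2 : S ≤ 2 := by linarith
  have htop : 0 ≤ Psi s S (S ^ 2 / 4) := by
    have h1 := Psi_diag hs (t := S / 2) (by linarith)
    rw [show 2 * (S / 2) = S by ring, show (S / 2) ^ 2 = S ^ 2 / 4 by ring] at h1
    rw [h1]
    have := (certs_nonneg hs.le (t := S / 2) (by linarith) (by linarith)).1
    positivity
  have hcd : c * d ≤ S ^ 2 / 4 := by rw [hS]; nlinarith [sq_nonneg (c - d)]
  rcases le_total S 1 with h | h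
  · have hlo : (0 : ℝ) ≤ c * d := by positivity
    refine conc_nonneg hlo hcd ?_ htop (Psi_conc hS0 le_rfl hlo hcd le_rfl (conc_small hS0))
    have e0 := Psi_eq (c := 0) (d := S) hs le_rfl hS0
    rw [zero_add, zero_mul] at e0
    rw [e0]
    have h1 := ker_nonneg hs (w := S) (v := 0) ⟨by linarith, h⟩ ⟨by norm_num, by norm_num⟩
    have h2 := ker_nonneg hs (w := 0) (v := S) ⟨by norm_num, by norm_num⟩ ⟨by linarith, h⟩
    simp only [zero_mul, mul_zero, sub_zero, add_zero]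
    positivity
  · have hlo : S - 1 ≤ c * d := by
      linarith [mul_nonneg (sub_nonneg.2 hc1) (sub_nonneg.2 hd1)]
    refine conc_nonneg hlo hcd ?_ htop (Psi_conc hS0 (by linarith) hlo hcd le_rfl (conc_large h))
    have h1 := Psi_edge hs (t := S - 1) (by linarith)
    rw [show 1 + (S - 1) = S by ring] at h1
    rw [h1]
    obtain ⟨-, h2, h3⟩ := certs_nonneg hs.le (t := S - 1) (by linarith) (by linarith)
    positivity

/-- The profile in dimension seven. -/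
def prof : Prof 6 where
  A := A
  B := B
  A' := A'
  B' := B'
  g := g
  α := 1937 / 50400
  bd := 1
  smoothA := by
    refine ContDiffOn.div (by fun_prop) (by fun_prop) fun s hs => ?_
    have : (0 : ℝ) < s := hs
    positivity
  smoothB := by
    refine ContDiffOn.div (by fun_prop) (by fun_prop) fun s hs => ?_
    have : (0 : ℝ) < s := hs
    positivity
  derivA := fun _ => deriv_A
  derivB := fun _ => deriv_B
  B_nonpos := fun s hs => by
    rw [B, neg_div, neg_nonpos]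
    positivity
  B_bd := fun s hs => by
    rw [B, neg_div, neg_le_neg_iff, div_le_one (by positivity)]
    nlinarith
  pos := fun s hs v hv => by
    have e : A s + B s * v = (5600 + 5600 * s + 3584 * s ^ 2 + 936 * s ^ 3 - 104 * s ^ 2 * v) /
        (1937 * (s ^ 2 * (2 + s) ^ 2)) := by
      unfold A B
      field_simp
      ring
    rw [e]
    refine div_nonneg ?_ (by positivity)
    nlinarith [mul_le_mul_of_nonneg_left hv.2 (show 0 ≤ 104 * s ^ 2 by positivity)]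
  dec := fun _ hs _ hv => dec hs hv
  α_pos := by norm_num
  g_cont := by
    refine ContinuousOn.sub (by fun_prop) (ContinuousOn.mul continuousOn_const
      (ContinuousOn.div (by fun_prop) (by fun_prop) fun t ht => ?_))
    have : (0 : ℝ) ≤ t := ht.1
    positivity
  g_zero := by simp [g]
  g_mono := g_mono
  ker_nonneg := fun _ hs _ hw _ hv => ker_nonneg hs hw hv
  chord := fun _ hs _ hc _ hd => chord hs hc hd

end

end Vale.Agent.P219.SharpK.Seven
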