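import Vale.Agent.P219.SharpK.Five
import Vale.Agent.P219.SharpK.Seven
import Vale.Agent.P219.SharpK.Final
import Vale.Agent.P219.Univ.CoordBridge

/-!
# The sharp inequality in dimensions five and seven
-/

open MeasureTheory Set Filter Real
open scoped ENNReal ContDiff RealInnerProductSpace

namespace Vale.Agent.P219.SharpK

open Vale.Agent.P219 Vale.Agent.P219.Univ Vale.Agent.P219.Six

noncomputable section

/-- The weight on `[-1, 1]` in dimension five. -/
def w5 (t : ℝ) : ℝ := 1 - t ^ 2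

/-- The weight on `[-1, 1]` in dimension seven. -/
def w7 (t : ℝ) : ℝ := (1 - t ^ 2) ^ 2

theorem int5 (j : ℕ) : ∫ t in (-1)..1, t ^ j * w5 t =
    (1 - (-1) ^ (j + 1)) * (1 / ((j : ℝ) + 1) - 1 / ((j : ℝ) + 3)) := by
  simp only [w5, mul_sub, mul_one, ← pow_add]
  rw [intervalIntegral.integral_sub ((continuous_pow j).intervalIntegrable _ _)
    ((continuous_pow (j + 2)).intervalIntegrable _ _), integral_pow, integral_pow]
  push_cast
  simp only [one_pow, show j + 2 + 1 = (j + 1) + 2 by ring, pow_add (-1 : ℝ) (j + 1) 2]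
  ring

theorem int7 (j : ℕ) : ∫ t in (-1)..1, t ^ j * w7 t =
    (1 - (-1) ^ (j + 1)) * (1 / ((j : ℝ) + 1) - 2 / ((j : ℝ) + 3) + 1 / ((j : ℝ) + 5)) := by
  have e : ∀ t : ℝ, t ^ j * w7 t = t ^ j - 2 * t ^ (j + 2) + t ^ (j + 4) := fun t => by
    simp only [w7]; ring
  simp only [e]
  rw [intervalIntegral.integral_add (f := fun t => t ^ j - 2 * t ^ (j + 2))
      (g := fun t => t ^ (j + 4)) (Continuous.intervalIntegrable (by fun_prop) _ _) (Continuous.intervalIntegrable (by fun_prop) _ _),
    intervalIntegral.integral_sub (f := fun t => t ^ j) (g := fun t => 2 * t ^ (j + 2)) (Continuous.intervalIntegrable (by fun_prop) _ _) (Continuous.intervalIntegrable (by fun_prop) _ _),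
    intervalIntegral.integral_const_mul, integral_pow, integral_pow, integral_pow]
  push_cast
  simp only [one_pow, show j + 2 + 1 = (j + 1) + 2 by ring, show j + 4 + 1 = (j + 1) + 4 by ring,
    pow_add (-1 : ℝ) (j + 1) 2, pow_add (-1 : ℝ) (j + 1) 4]
  ring

theorem weight5 : Weight 4 w5 := by
  refine ⟨by unfold w5; fun_prop, fun t ht => ?_, ?_, fun j => ?_⟩
  · unfold w5
    nlinarith [ht.1, ht.2]
  · have := int5 1
    simpa using this
  · rw [int5, int5, show j + 2 + 1 = (j + 1) + 2 by ring, pow_add (-1 : ℝ) (j + 1) 2]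
    push_cast
    field_simp
    ring

theorem weight7 : Weight 6 w7 := by
  refine ⟨by unfold w7; fun_prop, fun t _ => by unfold w7; positivity, ?_, fun j => ?_⟩
  · have := int7 1
    simpa using this
  · rw [int7, int7, show j + 2 + 1 = (j + 1) + 2 by ring, pow_add (-1 : ℝ) (j + 1) 2]
    push_cast
    field_simp
    ring

/-- The moment of the boundary weight from a one-dimensional integral. -/
theorem moment_of_weight {k : ℕ} (p : Prof k) {w h : ℝ → ℝ} (hw : Weight k w) {W0 I : ℝ}
    (hW : ∫ t in (-1)..1, w t = W0) (hW0 : W0 ≠ 0) (hh : Continuous h)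
    (hgh : ∀ t ∈ Icc (0 : ℝ) 1, p.g t * t * w t = h t) (hI : ∫ t in (0 : ℝ)..1, h t = I) :
    HasMoment p (I / W0 * Om k) := by
  intro e he
  set F : ℝ → ℝ := fun t => p.gc (max t 0) * max t 0 with hF
  have hFc : Continuous F := by
    have := p.continuous_gc
    rw [hF]
    fun_prop
  have h1 := sphere_integral hw he hFc
  have hi : ∀ a b : ℝ, IntervalIntegrable (fun t => F t * w t) volume a b :=
    fun a b => (hFc.mul hw.cont).intervalIntegrable a b
  have h2 : ∫ t in (-1)..1, F t * w t = I := by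
    rw [← intervalIntegral.integral_add_adjacent_intervals (hi (-1) 0) (hi 0 1),
      intervalIntegral.integral_congr (g := fun _ => (0 : ℝ)) (a := -1) (b := 0) ?_,
      intervalIntegral.integral_congr (g := h) (a := 0) (b := 1) ?_, intervalIntegral.integral_zero,
      zero_add, hI]
    · intro t ht
      rw [Set.uIcc_of_le zero_le_one] at ht
      simp only [hF, max_eq_left ht.1, p.gc_eq ht.1 ht.2, hgh t ht]
    · intro t ht
      rw [Set.uIcc_of_le (by norm_num)] at ht
      simp [hF, max_eq_right ht.2]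
  rw [h2, hW] at h1
  change ∫ v, F ⟪(v : Space (k + 1)), e⟫ ∂dirs (k + 1) = _
  rw [div_mul_eq_mul_div, eq_div_iff hW0, mul_comm, h1, Om, mul_comm]

theorem moment5 : HasMoment Five.prof (67 / 960 * Om 4) := by
  have hI : ∫ t in (0 : ℝ)..1, (2 / 3 * t ^ 2 - 71 / 144 * t ^ 4 - 29 / 120 * t ^ 5 +
      49 / 720 * t ^ 6) = 67 / 720 := by
    rw [intervalIntegral.integral_add ?_ ?_, intervalIntegral.integral_sub ?_ ?_, intervalIntegral.integral_sub ?_ ?_]
    all_goals first
      | (apply Continuous.intervalIntegrable; fun_prop)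
      | norm_num
  have h := moment_of_weight Five.prof weight5 (W0 := 4 / 3) ?_ (by norm_num) ?_ ?_ hI
  · convert h using 2
    ring
  · have := int5 0
    simp only [pow_zero, one_mul] at this
    rw [this]
    norm_num
  · fun_prop
  · intro t ht
    have : (1 : ℝ) + t ≠ 0 := by linarith [ht.1]
    show Five.g t * t * w5 t = _
    unfold Five.g w5
    field_simp
    ring

theorem moment7 : HasMoment Seven.prof (5263 / 100800 * Om 6) := by
  have hI : ∫ t in (0 : ℝ)..1, (2 / 3 * t ^ 2 - 6 / 5 * t ^ 4 + 13 / 1575 * t ^ 5 +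
      142 / 225 * t ^ 6 - 494 / 1575 * t ^ 7 + 6 / 175 * t ^ 8 + 13 / 75 * t ^ 9) = 5263 / 94500 := by
    rw [intervalIntegral.integral_add ?_ ?_, intervalIntegral.integral_add ?_ ?_, intervalIntegral.integral_sub ?_ ?_, intervalIntegral.integral_add ?_ ?_, intervalIntegral.integral_add ?_ ?_, intervalIntegral.integral_sub ?_ ?_]
    all_goals first
      | (apply Continuous.intervalIntegrable; fun_prop)
      | norm_num
  have h := moment_of_weight Seven.prof weight7 (W0 := 16 / 15) ?_ (by norm_num) ?_ ?_ hI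
  · convert h using 2
    ring
  · have := int7 0
    simp only [pow_zero, one_mul] at this
    rw [this]
    norm_num
  · fun_prop
  · intro t ht
    have : (1 : ℝ) + t ≠ 0 := by linarith [ht.1]
    show Seven.g t * t * w7 t = _
    unfold Seven.g w7
    field_simp
    ring

theorem Om_odd {j : ℕ} : Om (2 * j) =
    ((2 * j : ℕ) + 1 : ℝ) * (π ^ j * 2 ^ (j + 1) / ((2 * j + 1).doubleFactorial : ℕ)) := by
  rw [Om, measureReal_def, dirs, Measure.toSphere_apply_univ,
    InnerProductSpace.volume_ball_of_dim_odd (k := j) (by simp), finrank_euclideanSpace_fin,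
    ENNReal.ofReal_one, one_pow, one_mul, ENNReal.toReal_mul, ENNReal.toReal_natCast,
    ENNReal.toReal_ofReal (by positivity)]
  push_cast
  ring

theorem Om_four : Om 4 = 5 * (8 * π ^ 2 / 15) := by
  show Om (2 * 2) = _
  rw [Om_odd]
  norm_num [Nat.doubleFactorial]
  ring

theorem Om_six : Om 6 = 7 * (16 * π ^ 3 / 105) := by
  show Om (2 * 3) = _
  rw [Om_odd]
  norm_num [Nat.doubleFactorial]
  ring

end

end Vale.Agent.P219.SharpK

namespace Vale.Agent.P219.Coord

open Vale.Agent.P219

noncomputable section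

theorem sharp_five {G : Fin 5 → Fin 5 → Space 5 → ℝ} (hG : IsMetric G) (hs : SecLE G 0)
    (hc : NormalCharts G) {φ : Space 5 → ℝ} (hφ : ContDiff ℝ 2 φ)
    (hb : Bornology.IsBounded {x | φ x < 0}) (hr : ∀ x, φ x = 0 → fderiv ℝ φ x ≠ 0) :
    ENNReal.ofReal (5 * (8 * Real.pi ^ 2 / 15) ^ (1 / 5 : ℝ) * vol G {x | φ x < 0} ^ (4 / 5 : ℝ)) ≤
      per G {x | φ x < 0} := by
  have hv : vol G {x | φ x < 0} = Univ.gVol (toField G) {x | φ x < 0} := by
    rw [vol, Univ.gVol, dens_eq]
  rw [hv, per_eq hG]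
  have h := SharpK.cartan_hadamard SharpK.Five.prof (k := 4) (by norm_num) SharpK.moment5
    (mul_nonneg (by norm_num) SharpK.Om_nonneg) (by simp [SharpK.Five.prof]; ring)
    (isMetric hG) (normalCharts hG hc) (secBound hG hs) hφ hb hr
  rw [SharpK.Om_four] at h
  norm_num at h ⊢
  exact h

theorem sharp_seven {G : Fin 7 → Fin 7 → Space 7 → ℝ} (hG : IsMetric G) (hs : SecLE G 0)
    (hc : NormalCharts G) {φ : Space 7 → ℝ} (hφ : ContDiff ℝ 2 φ)
    (hb : Bornology.IsBounded {x | φ x < 0}) (hr : ∀ x, φ x = 0 → fderiv ℝ φ x ≠ 0) :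
    ENNReal.ofReal (7 * (16 * Real.pi ^ 3 / 105) ^ (1 / 7 : ℝ) * vol G {x | φ x < 0} ^ (6 / 7 : ℝ)) ≤
      per G {x | φ x < 0} := by
  have hv : vol G {x | φ x < 0} = Univ.gVol (toField G) {x | φ x < 0} := by
    rw [vol, Univ.gVol, dens_eq]
  rw [hv, per_eq hG]
  have h := SharpK.cartan_hadamard SharpK.Seven.prof (k := 6) (by norm_num) SharpK.moment7
    (mul_nonneg (by norm_num) SharpK.Om_nonneg) (by simp [SharpK.Seven.prof]; ring)
    (isMetric hG) (normalCharts hG hc) (secBound hG hs) hφ hb hr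
  rw [SharpK.Om_six] at h
  norm_num at h ⊢
  exact h

end

end Vale.Agent.P219.Coord
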