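import Mathlib

/-!
# Polynomial certificates in dimension 5
-/

namespace Vale.Agent.P219.SharpK.Five

noncomputable section

/-- The coefficient of `l ^ 0` in the quotient on the diagonal. -/
def diagQ0 (t : ℝ) : ℝ :=
  ((1036/45)*t^6 + (1187/15)*t^5*(1-t) + (1568/15)*t^4*(1-t)^2 + (2425/36)*t^3*(1-t)^3 +
    (64/3)*t^2*(1-t)^4 + (8/3)*t*(1-t)^5)

theorem diagQ0_nonneg {t : ℝ} (ht : 0 ≤ t) (ht1 : 0 ≤ 1 - t) : 0 ≤ diagQ0 t := by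
  unfold diagQ0
  positivity

/-- The coefficient of `l ^ 1` in the quotient on the diagonal. -/
def diagQ1 (t : ℝ) : ℝ :=
  ((374/9)*t^6 + (13397/90)*t^5*(1-t) + (3127/15)*t^4*(1-t)^2 + (52897/360)*t^3*(1-t)^3 +
    (1969/36)*t^2*(1-t)^4 + (10)*t*(1-t)^5 + (2/3)*(1-t)^6)

theorem diagQ1_nonneg {t : ℝ} (ht : 0 ≤ t) (ht1 : 0 ≤ 1 - t) : 0 ≤ diagQ1 t := by
  unfold diagQ1
  positivity

/-- The coefficient of `l ^ 2` in the quotient on the diagonal. -/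
def diagQ2 (t : ℝ) : ℝ :=
  ((436/15)*t^6 + (1657/15)*t^5*(1-t) + (2494/15)*t^4*(1-t)^2 + (3841/30)*t^3*(1-t)^3 +
    (3209/60)*t^2*(1-t)^4 + (553/48)*t*(1-t)^5 + (1)*(1-t)^6)

theorem diagQ2_nonneg {t : ℝ} (ht : 0 ≤ t) (ht1 : 0 ≤ 1 - t) : 0 ≤ diagQ2 t := by
  unfold diagQ2
  positivity

/-- The coefficient of `l ^ 3` in the quotient on the diagonal. -/
def diagQ3 (t : ℝ) : ℝ :=
  ((34/3)*t^6 + (481/10)*t^5*(1-t) + (1228/15)*t^4*(1-t)^2 + (12967/180)*t^3*(1-t)^3 +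
    (4171/120)*t^2*(1-t)^4 + (1401/160)*t*(1-t)^5 + (65/72)*(1-t)^6)

theorem diagQ3_nonneg {t : ℝ} (ht : 0 ≤ t) (ht1 : 0 ≤ 1 - t) : 0 ≤ diagQ3 t := by
  unfold diagQ3
  positivity

/-- The coefficient of `l ^ 4` in the quotient on the diagonal. -/
def diagQ4 (t : ℝ) : ℝ :=
  ((79/30)*t^6 + (2263/180)*t^5*(1-t) + (8633/360)*t^4*(1-t)^2 + (1879/80)*t^3*(1-t)^3 +
    (1801/144)*t^2*(1-t)^4 + (4963/1440)*t*(1-t)^5 + (37/96)*(1-t)^6)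

theorem diagQ4_nonneg {t : ℝ} (ht : 0 ≤ t) (ht1 : 0 ≤ 1 - t) : 0 ≤ diagQ4 t := by
  unfold diagQ4
  positivity

/-- The coefficient of `l ^ 5` in the quotient on the diagonal. -/
def diagQ5 (t : ℝ) : ℝ :=
  ((43/180)*t^6 + (95/72)*t^5*(1-t) + (407/144)*t^4*(1-t)^2 + (4381/1440)*t^3*(1-t)^3 +
    (2519/1440)*t^2*(1-t)^4 + (739/1440)*t*(1-t)^5 + (29/480)*(1-t)^6)

theorem diagQ5_nonneg {t : ℝ} (ht : 0 ≤ t) (ht1 : 0 ≤ 1 - t) : 0 ≤ diagQ5 t := by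
  unfold diagQ5
  positivity

/-- The quotient on the diagonal, in Bernstein form. -/
def diagQ (l t : ℝ) : ℝ :=
  diagQ0 t*l^0 + diagQ1 t*l^1 + diagQ2 t*l^2 + diagQ3 t*l^3 + diagQ4 t*l^4 + diagQ5 t*l^5

/-- The coefficient of `l ^ 0` in the multiplier of the square on the edge. -/
def edgeS0 (t : ℝ) : ℝ :=
  ((1036/45)*t^5 + (6151/90)*t^4*(1-t) + (334/5)*t^3*(1-t)^2 + (2481/100)*t^2*(1-t)^3 +
    (367/100)*t*(1-t)^4)

theorem edgeS0_nonneg {t : ℝ} (ht : 0 ≤ t) (ht1 : 0 ≤ 1 - t) : 0 ≤ edgeS0 t := by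
  unfold edgeS0
  positivity

/-- The coefficient of `l ^ 1` in the multiplier of the square on the edge. -/
def edgeS1 (t : ℝ) : ℝ :=
  ((374/9)*t^5 + (22747/180)*t^4*(1-t) + (1329/10)*t^3*(1-t)^2 + (273/5)*t^2*(1-t)^3 +
    (192/25)*t*(1-t)^4)

theorem edgeS1_nonneg {t : ℝ} (ht : 0 ≤ t) (ht1 : 0 ≤ 1 - t) : 0 ≤ edgeS1 t := by
  unfold edgeS1
  positivity

/-- The coefficient of `l ^ 2` in the multiplier of the square on the edge. -/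
def edgeS2 (t : ℝ) : ℝ :=
  ((436/15)*t^5 + (2747/30)*t^4*(1-t) + (10019/100)*t^3*(1-t)^2 + (4161/100)*t^2*(1-t)^3 +
    (79/20)*t*(1-t)^4)

theorem edgeS2_nonneg {t : ℝ} (ht : 0 ≤ t) (ht1 : 0 ≤ 1 - t) : 0 ≤ edgeS2 t := by
  unfold edgeS2
  positivity

/-- The coefficient of `l ^ 3` in the multiplier of the square on the edge. -/
def edgeS3 (t : ℝ) : ℝ :=
  ((34/3)*t^5 + (2293/60)*t^4*(1-t) + (4451/100)*t^3*(1-t)^2 + (1873/100)*t^2*(1-t)^3 +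
    (4/5)*t*(1-t)^4)

theorem edgeS3_nonneg {t : ℝ} (ht : 0 ≤ t) (ht1 : 0 ≤ 1 - t) : 0 ≤ edgeS3 t := by
  unfold edgeS3
  positivity

/-- The coefficient of `l ^ 4` in the multiplier of the square on the edge. -/
def edgeS4 (t : ℝ) : ℝ :=
  ((79/30)*t^5 + (431/45)*t^4*(1-t) + (233/20)*t^3*(1-t)^2 + (106/25)*t^2*(1-t)^3)

theorem edgeS4_nonneg {t : ℝ} (ht : 0 ≤ t) (ht1 : 0 ≤ 1 - t) : 0 ≤ edgeS4 t := by
  unfold edgeS4
  positivity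

/-- The coefficient of `l ^ 5` in the multiplier of the square on the edge. -/
def edgeS5 (t : ℝ) : ℝ :=
  ((43/180)*t^5 + (23/24)*t^4*(1-t) + (107/100)*t^3*(1-t)^2)

theorem edgeS5_nonneg {t : ℝ} (ht : 0 ≤ t) (ht1 : 0 ≤ 1 - t) : 0 ≤ edgeS5 t := by
  unfold edgeS5
  positivity

/-- The multiplier of the square on the edge, in Bernstein form. -/
def edgeS (l t : ℝ) : ℝ :=
  edgeS0 t*l^0 + edgeS1 t*l^1 + edgeS2 t*l^2 + edgeS3 t*l^3 + edgeS4 t*l^4 + edgeS5 t*l^5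

/-- The coefficient of `l ^ 0` in the remainder on the edge. -/
def edgeR0 (t : ℝ) : ℝ :=
  ((76/3)*t^5*(1-t)^2 + (14071/225)*t^4*(1-t)^3 + (1297/25)*t^3*(1-t)^4 +
    (5293/300)*t^2*(1-t)^5 + (1877/900)*t*(1-t)^6)

theorem edgeR0_nonneg {t : ℝ} (ht : 0 ≤ t) (ht1 : 0 ≤ 1 - t) : 0 ≤ edgeR0 t := by
  unfold edgeR0
  positivity

/-- The coefficient of `l ^ 1` in the remainder on the edge. -/
def edgeR1 (t : ℝ) : ℝ :=
  ((1/15)*t^5*(1-t)^2 + (117/50)*t^4*(1-t)^3 + (1/50)*t^3*(1-t)^4 + (1/50)*t^2*(1-t)^5 +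
    (22/75)*t*(1-t)^6)

theorem edgeR1_nonneg {t : ℝ} (ht : 0 ≤ t) (ht1 : 0 ≤ 1 - t) : 0 ≤ edgeR1 t := by
  unfold edgeR1
  positivity

/-- The coefficient of `l ^ 2` in the remainder on the edge. -/
def edgeR2 (t : ℝ) : ℝ :=
  ((1/25)*t^5*(1-t)^2 + (3/200)*t^4*(1-t)^3 + (1/20)*t^3*(1-t)^4 + (57/100)*t^2*(1-t)^5 +
    (17/300)*t*(1-t)^6)

theorem edgeR2_nonneg {t : ℝ} (ht : 0 ≤ t) (ht1 : 0 ≤ 1 - t) : 0 ≤ edgeR2 t := by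
  unfold edgeR2
  positivity

/-- The coefficient of `l ^ 3` in the remainder on the edge. -/
def edgeR3 (t : ℝ) : ℝ :=
  ((23/900)*t^5*(1-t)^2 + (49/1200)*t^4*(1-t)^3 + (109/1800)*t^3*(1-t)^4 +
    (1709/1800)*t^2*(1-t)^5 + (3451/1800)*t*(1-t)^6 + (7/9)*(1-t)^7)

theorem edgeR3_nonneg {t : ℝ} (ht : 0 ≤ t) (ht1 : 0 ≤ 1 - t) : 0 ≤ edgeR3 t := by
  unfold edgeR3
  positivity

/-- The coefficient of `l ^ 4` in the remainder on the edge. -/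
def edgeR4 (t : ℝ) : ℝ :=
  ((7/90)*t^5*(1-t)^2 + (877/900)*t^4*(1-t)^3 + (3/100)*t^3*(1-t)^4 +
    (10067/7200)*t^2*(1-t)^5 + (7001/2880)*t*(1-t)^6 + (1819/2880)*(1-t)^7)

theorem edgeR4_nonneg {t : ℝ} (ht : 0 ≤ t) (ht1 : 0 ≤ 1 - t) : 0 ≤ edgeR4 t := by
  unfold edgeR4
  positivity

/-- The coefficient of `l ^ 5` in the remainder on the edge. -/
def edgeR5 (t : ℝ) : ℝ :=
  ((13/1800)*t^5*(1-t)^2 + (1/200)*t^4*(1-t)^3 + (301/120)*t^3*(1-t)^4 +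
    (17893/2880)*t^2*(1-t)^5 + (7387/1920)*t*(1-t)^6 + (571/1152)*(1-t)^7)

theorem edgeR5_nonneg {t : ℝ} (ht : 0 ≤ t) (ht1 : 0 ≤ 1 - t) : 0 ≤ edgeR5 t := by
  unfold edgeR5
  positivity

/-- The coefficient of `l ^ 6` in the remainder on the edge. -/
def edgeR6 (t : ℝ) : ℝ :=
  ((119/1800)*t^5*(1-t)^2 + (507/400)*t^4*(1-t)^3 + (18161/3600)*t^3*(1-t)^4 +
    (87949/14400)*t^2*(1-t)^5 + (3631/1440)*t*(1-t)^6 + (247/960)*(1-t)^7)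

theorem edgeR6_nonneg {t : ℝ} (ht : 0 ≤ t) (ht1 : 0 ≤ 1 - t) : 0 ≤ edgeR6 t := by
  unfold edgeR6
  positivity

/-- The coefficient of `l ^ 7` in the remainder on the edge. -/
def edgeR7 (t : ℝ) : ℝ :=
  ((1333/3600)*t^5*(1-t)^2 + (4229/2400)*t^4*(1-t)^3 + (3311/1200)*t^3*(1-t)^4 +
    (211/120)*t^2*(1-t)^5 + (157/360)*t*(1-t)^6 + (13/288)*(1-t)^7)

theorem edgeR7_nonneg {t : ℝ} (ht : 0 ≤ t) (ht1 : 0 ≤ 1 - t) : 0 ≤ edgeR7 t := by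
  unfold edgeR7
  positivity

/-- The remainder on the edge, in Bernstein form. -/
def edgeR (l t : ℝ) : ℝ :=
  edgeR0 t*l^0 + edgeR1 t*l^1 + edgeR2 t*l^2 + edgeR3 t*l^3 + edgeR4 t*l^4 + edgeR5 t*l^5 +
    edgeR6 t*l^6 + edgeR7 t*l^7

theorem certs_nonneg {l t : ℝ} (hl : 0 ≤ l) (ht : 0 ≤ t) (ht1 : t ≤ 1) :
    0 ≤ diagQ l t ∧ 0 ≤ edgeS l t ∧ 0 ≤ edgeR l t := by
  have h : 0 ≤ 1 - t := by linarith
  refine ⟨?_, ?_, ?_⟩
  · exact add_nonneg (add_nonneg (add_nonneg (add_nonneg (add_nonneg (mul_nonneg (diagQ0_nonneg ht h) (pow_nonneg hl 0))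
      (mul_nonneg (diagQ1_nonneg ht h) (pow_nonneg hl 1)))
      (mul_nonneg (diagQ2_nonneg ht h) (pow_nonneg hl 2)))
      (mul_nonneg (diagQ3_nonneg ht h) (pow_nonneg hl 3)))
      (mul_nonneg (diagQ4_nonneg ht h) (pow_nonneg hl 4)))
      (mul_nonneg (diagQ5_nonneg ht h) (pow_nonneg hl 5))
  · exact add_nonneg (add_nonneg (add_nonneg (add_nonneg (add_nonneg (mul_nonneg (edgeS0_nonneg ht h) (pow_nonneg hl 0))
      (mul_nonneg (edgeS1_nonneg ht h) (pow_nonneg hl 1)))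
      (mul_nonneg (edgeS2_nonneg ht h) (pow_nonneg hl 2)))
      (mul_nonneg (edgeS3_nonneg ht h) (pow_nonneg hl 3)))
      (mul_nonneg (edgeS4_nonneg ht h) (pow_nonneg hl 4)))
      (mul_nonneg (edgeS5_nonneg ht h) (pow_nonneg hl 5))
  · exact add_nonneg (add_nonneg (add_nonneg (add_nonneg (add_nonneg (add_nonneg (add_nonneg (mul_nonneg (edgeR0_nonneg ht h) (pow_nonneg hl 0))
      (mul_nonneg (edgeR1_nonneg ht h) (pow_nonneg hl 1)))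
      (mul_nonneg (edgeR2_nonneg ht h) (pow_nonneg hl 2)))
      (mul_nonneg (edgeR3_nonneg ht h) (pow_nonneg hl 3)))
      (mul_nonneg (edgeR4_nonneg ht h) (pow_nonneg hl 4)))
      (mul_nonneg (edgeR5_nonneg ht h) (pow_nonneg hl 5)))
      (mul_nonneg (edgeR6_nonneg ht h) (pow_nonneg hl 6)))
      (mul_nonneg (edgeR7_nonneg ht h) (pow_nonneg hl 7))

end

end Vale.Agent.P219.SharpK.Five
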