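import Mathlib
import Vale.Agent.P219.SharpK.Check
import Vale.Agent.P219.SharpK.FiveCert

/-!
# The profile in dimension five
-/

open Set
open scoped ContDiff

namespace Vale.Agent.P219.SharpK.Five

noncomputable section

/-- The radial part of the profile. -/
def A (s : ℝ) : ℝ := (160 + 73 * s + 11 * s ^ 2) / (87 * (2 + s) ^ 2)

/-- The derivative of `A`. -/
def A' (s : ℝ) : ℝ := -(6 + s) / (3 * (2 + s) ^ 3)

/-- The coefficient of the cosine at the pole. -/
def B (s : ℝ) : ℝ := -s / (3 * (2 + s) ^ 2)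

/-- The derivative of `B`. -/
def B' (s : ℝ) : ℝ := -(2 - s) / (3 * (2 + s) ^ 3)

/-- The boundary weight. -/
def g (t : ℝ) : ℝ :=
  29 / 120 * (t / (1 + t)) + 17 / 40 * t + 29 / 120 * t ^ 2 - 49 / 720 * t ^ 3

theorem deriv_A {s : ℝ} (hs : 0 < s) : HasDerivAt A (A' s) s := by
  have h1 : HasDerivAt (fun x : ℝ => 160 + 73 * x + 11 * x ^ 2) (73 + 22 * s) s := by
    refine ((((hasDerivAt_id s).const_mul 73).const_add 160).add
      ((hasDerivAt_pow 2 s).const_mul 11)).congr_deriv ?_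
    simp; ring
  have h2 : HasDerivAt (fun x : ℝ => 87 * (2 + x) ^ 2) (174 * (2 + s)) s := by
    refine ((((hasDerivAt_id s).const_add 2).fun_pow 2).const_mul 87).congr_deriv ?_
    simp; ring
  refine (h1.div h2 (by positivity)).congr_deriv ?_
  unfold A'
  field_simp
  ring

theorem deriv_B {s : ℝ} (hs : 0 < s) : HasDerivAt B (B' s) s := by
  have h2 : HasDerivAt (fun x : ℝ => 3 * (2 + x) ^ 2) (6 * (2 + s)) s := by
    refine ((((hasDerivAt_id s).const_add 2).fun_pow 2).const_mul 3).congr_deriv ?_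
    simp; ring
  refine ((hasDerivAt_id s).neg.div h2 (by positivity)).congr_deriv ?_
  unfold B'
  simp only [id, Pi.neg_apply]
  field_simp
  ring

theorem g_sub {x y : ℝ} (hx : 0 ≤ x) (hy : 0 ≤ y) :
    g y - g x = (y - x) * (29 / 120 / ((1 + x) * (1 + y)) + 17 / 40 + 29 / 120 * (x + y) -
      49 / 720 * (x ^ 2 + x * y + y ^ 2)) := by
  unfold g
  have : 1 + x ≠ 0 := by positivity
  have : 1 + y ≠ 0 := by positivity
  field_simp
  ring

theorem g_mono : MonotoneOn g (Icc 0 1) := by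
  intro x hx y hy hxy
  rw [← sub_nonneg, g_sub hx.1 hy.1]
  refine mul_nonneg (sub_nonneg.2 hxy) ?_
  have : 0 ≤ 29 / 120 / ((1 + x) * (1 + y)) := by
    have := hx.1; have := hy.1; positivity
  nlinarith [mul_le_mul hx.2 hy.2 hy.1 zero_le_one, mul_le_mul hx.2 hx.2 hx.1 zero_le_one,
    mul_le_mul hy.2 hy.2 hy.1 zero_le_one, hx.1, hy.1]

theorem dec {s : ℝ} (hs : 0 < s) {v : ℝ} (hv : v ∈ Icc (-1 : ℝ) 1) :
    s * (A' s + B' s * v) - A s - 2 * B s * v ≤ 0 := by
  have e : s * (A' s + B' s * v) - A s - 2 * B s * v =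
      -((320 + 480 * s + 124 * s ^ 2 + 11 * s ^ 3) - 29 * s * (2 + 3 * s) * v) /
        (87 * (2 + s) ^ 3) := by
    unfold A A' B B'
    field_simp
    ring
  rw [e, neg_div, neg_nonpos]
  refine div_nonneg ?_ (by positivity)
  nlinarith [mul_le_mul_of_nonneg_left hv.2 (show 0 ≤ 29 * s * (2 + 3 * s) by positivity),
    pow_pos hs 3]

theorem ker_nonneg {s : ℝ} (hs : 0 < s) {w v : ℝ} (hw : w ∈ Icc (-1 : ℝ) 1)
    (hv : v ∈ Icc (-1 : ℝ) 1) : 0 ≤ kerVal (4 : ℕ) (A s) (A' s) (B s) (B' s) s w v := by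
  have hB : B s ≤ 0 := by
    unfold B
    rw [neg_div, neg_nonpos]
    positivity
  have hm := mixed_bound (v := v) hB hs hw
  set F : ℝ → ℝ := fun v => 1 + (A' s + B' s * v) * (1 - w ^ 2) + (3 + w ^ 2) * (A s + B s * v) / s +
    B s * (11 / 10) / (2 * s) - 4 * (A s + B s * v) * w with hF
  have h : 0 ≤ F v := by
    have h1 : 0 ≤ 1 + w := by linarith [hw.1]
    have h2 : 0 ≤ 1 - w := by linarith [hw.2]
    have key : ∀ c0 c1 c2 : ℝ, 0 ≤ c0 → 0 ≤ c1 → 0 ≤ c2 →
        0 ≤ (c0 * (1 + w) ^ 2 + c1 * ((1 + w) * (1 - w)) + c2 * (1 - w) ^ 2) /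
          (4 * (s * (2 + s) ^ 3)) := fun c0 c1 c2 a b c => by positivity
    refine affine_nonneg hv (by simp only [hF]; ring) ?_ ?_
    · rw [show F 1 = (((1280/87) + (3761/870) * s + (6001/1740) * s ^ 2 + (302/87) * s ^ 3 + (43/87) * s ^ 4) * (1 + w) ^ 2 + ((1280/87) + (6961/435) * s + (23201/870) * s ^ 2 + (1088/87) * s ^ 3 + 2 * s ^ 4) * ((1 + w) * (1 - w)) +
          ((1280/87) + (9787/290) * s + (15227/580) * s ^ 2 + (830/87) * s ^ 3 + (131/87) * s ^ 4) * (1 - w) ^ 2) / (4 * (s * (2 + s) ^ 3)) by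
        simp only [hF]; unfold A A' B B'; field_simp; ring]
      exact key _ _ _ (by positivity) (by positivity) (by positivity)
    · rw [show F (-1) = (((1280/87) + (8401/870) * s + (1361/1740) * s ^ 2 + (70/87) * s ^ 3 + (43/87) * s ^ 4) * (1 + w) ^ 2 + ((1280/87) + (3867/145) * s + (23201/870) * s ^ 2 + (1088/87) * s ^ 3 + 2 * s ^ 4) * ((1 + w) * (1 - w)) +
          ((1280/87) + (34001/870) * s + (19867/580) * s ^ 2 + (354/29) * s ^ 3 + (131/87) * s ^ 4) * (1 - w) ^ 2) / (4 * (s * (2 + s) ^ 3)) by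
        simp only [hF]; unfold A A' B B'; field_simp; ring]
      exact key _ _ _ (by positivity) (by positivity) (by positivity)
  refine h.trans ?_
  simp only [hF, kerVal, areaVal]
  push_cast
  linarith

/-- The chord inequality as a function of the sum `S` and the product `p` of the cosines. -/
def Psi (s S p : ℝ) : ℝ :=
  29 / 480 * s ^ 4 / 2 * (2 + A' s * (2 - S ^ 2 + 2 * p) + B' s * (S - S * p) +
    (3 * (2 * A s + B s * S) + A s * (S ^ 2 - 2 * p) + B s * (S * p)) / s +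
    B s * S * (2 - S ^ 2 + 2 * p) / (2 * s) - 4 * (A s * S + 2 * B s * p)) +
  (29 / 120 * (p * (S + 2 * p) / (1 + S + p)) + 17 / 40 * (p * S) +
    29 / 120 * (p * (S ^ 2 - 2 * p)) - 49 / 720 * (p * (S ^ 3 - 3 * S * p))) - s * p

theorem Psi_eq {s c d : ℝ} (hs : 0 < s) (hc : 0 ≤ c) (hd : 0 ≤ d) :
    Psi s (c + d) (c * d) = 29 / 480 * s ^ 4 * (kerVal (4 : ℕ) (A s) (A' s) (B s) (B' s) s d c +
      kerVal (4 : ℕ) (A s) (A' s) (B s) (B' s) s c d) / 2 + c * d * (g c + g d) - s * (c * d) := by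
  unfold Psi kerVal areaVal g
  rw [abs_of_nonneg hc, abs_of_nonneg hd, show 1 + (c + d) + c * d = (1 + c) * (1 + d) by ring]
  have : 1 + c ≠ 0 := by positivity
  have : 1 + d ≠ 0 := by positivity
  push_cast
  field_simp
  ring

theorem Psi_diag {s t : ℝ} (hs : 0 < s) (ht : 0 ≤ t) : Psi s (2 * t) (t ^ 2) =
    (s - 2 * t) ^ 2 * diagQ s t / ((2 + s) ^ 3 * (1 + t) ^ 3) := by
  unfold Psi diagQ
  simp only [diagQ0, diagQ1, diagQ2, diagQ3, diagQ4, diagQ5]
  unfold A A' B B'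
  rw [show 1 + 2 * t + t ^ 2 = (1 + t) ^ 2 by ring]
  field_simp
  ring

theorem Psi_edge {s t : ℝ} (hs : 0 < s) (ht : 0 ≤ t) : Psi s (1 + t) t =
    ((s - 1 - t) ^ 2 * edgeS s t + edgeR s t) / ((2 + s) ^ 3 * (1 + t) ^ 3) := by
  unfold Psi edgeS edgeR
  simp only [edgeS0, edgeS1, edgeS2, edgeS3, edgeS4, edgeS5, edgeR0, edgeR1, edgeR2, edgeR3, edgeR4, edgeR5, edgeR6, edgeR7]
  unfold A A' B B'
  rw [show 1 + (1 + t) + t = 2 * (1 + t) by ring]
  field_simp
  ring

/-- `Psi` is concave in the product where it is needed. -/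
theorem Psi_conc {s S a b p : ℝ} (hS : 0 ≤ S) (hS2 : S ≤ 2) (ha : 0 ≤ a) (hap : a ≤ p) (hpb : p ≤ b)
    (hκ : 29 / 120 * ((1 + S) * (2 + S)) ≤ (29 / 60 - 49 / 240 * S) * (1 + S + a) ^ 3) :
    (b - p) * Psi s S a + (p - a) * Psi s S b ≤ (b - a) * Psi s S p := by
  have hp0 : 0 ≤ p := ha.trans hap
  have hb0 : 0 ≤ b := hp0.trans hpb
  have hA : 0 < 1 + S + a := by positivity
  have hB : 0 < 1 + S + b := by positivity
  have hP : 0 < 1 + S + p := by positivity
  have e : (b - a) * Psi s S p - ((b - p) * Psi s S a + (p - a) * Psi s S b) =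
      (b - a) * (p - a) * (b - p) * (29 / 60 - 49 / 240 * S - 29 / 120 * ((1 + S) * (2 + S)) /
        ((1 + S + a) * (1 + S + b) * (1 + S + p))) := by
    unfold Psi
    field_simp
    ring
  have h3 : 29 / 120 * ((1 + S) * (2 + S)) / ((1 + S + a) * (1 + S + b) * (1 + S + p)) ≤
      29 / 60 - 49 / 240 * S := by
    rw [div_le_iff₀ (by positivity)]
    refine hκ.trans (mul_le_mul_of_nonneg_left ?_ (by linarith))
    rw [show (1 + S + a) ^ 3 = (1 + S + a) * (1 + S + a) * (1 + S + a) by ring]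
    gcongr
    linarith
  have h4 := mul_nonneg (mul_nonneg (mul_nonneg (show 0 ≤ b - a by linarith)
    (sub_nonneg.2 hap)) (sub_nonneg.2 hpb)) (sub_nonneg.2 h3)
  linarith

theorem conc_small {S : ℝ} (h0 : 0 ≤ S) (h1 : S ≤ 1) :
    29 / 120 * ((1 + S) * (2 + S)) ≤ (29 / 60 - 49 / 240 * S) * (1 + S + 0) ^ 3 := by
  nlinarith [mul_nonneg h0 (sub_nonneg.2 h1), mul_nonneg h0 h0,
    mul_nonneg (mul_nonneg h0 h0) (sub_nonneg.2 h1),
    mul_nonneg (mul_nonneg (mul_nonneg h0 h0) h0) (sub_nonneg.2 h1)]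

theorem conc_large {S : ℝ} (h1 : 1 ≤ S) (h2 : S ≤ 2) :
    29 / 120 * ((1 + S) * (2 + S)) ≤ (29 / 60 - 49 / 240 * S) * (1 + S + (S - 1)) ^ 3 := by
  have q1 := mul_nonneg (sub_nonneg.2 h1) (sub_nonneg.2 h2)
  have h0 : 0 ≤ S := by linarith
  nlinarith [q1, mul_nonneg q1 h0, mul_nonneg q1 (mul_nonneg h0 h0)]

theorem chord {s : ℝ} (hs : 0 < s) {c d : ℝ} (hc : c ∈ Ioc (0 : ℝ) 1) (hd : d ∈ Ioc (0 : ℝ) 1) :
    s * (c * d) ≤ 29 / 480 * s ^ 4 * (kerVal (4 : ℕ) (A s) (A' s) (B s) (B' s) s d c +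
      kerVal (4 : ℕ) (A s) (A' s) (B s) (B' s) s c d) / 2 + c * d * (g c + g d) := by
  obtain ⟨hc0, hc1⟩ := hc
  obtain ⟨hd0, hd1⟩ := hd
  have he := Psi_eq hs hc0.le hd0.le
  suffices h : 0 ≤ Psi s (c + d) (c * d) by linarith
  obtain ⟨S, hS⟩ : ∃ S, S = c + d := ⟨_, rfl⟩
  rw [← hS]
  have hS0 : 0 ≤ S := by linarith
  have hS2 : S ≤ 2 := by linarith
  have htop : 0 ≤ Psi s S (S ^ 2 / 4) := by
    have h1 := Psi_diag hs (t := S / 2) (by linarith)
    rw [show 2 * (S / 2) = S by ring, show (S / 2) ^ 2 = S ^ 2 / 4 by ring] at h1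
    rw [h1]
    have := (certs_nonneg hs.le (t := S / 2) (by linarith) (by linarith)).1
    positivity
  have hcd : c * d ≤ S ^ 2 / 4 := by rw [hS]; nlinarith [sq_nonneg (c - d)]
  rcases le_total S 1 with h | h
  · have hlo : (0 : ℝ) ≤ c * d := by positivity
    refine conc_nonneg hlo hcd ?_ htop (Psi_conc hS0 hS2 le_rfl hlo hcd (conc_small hS0 h))
    have e0 := Psi_eq (c := 0) (d := S) hs le_rfl hS0
    rw [zero_add, zero_mul] at e0
    rw [e0]
    have h1 := ker_nonneg hs (w := S) (v := 0) ⟨by linarith, h⟩ ⟨by norm_num, by norm_num⟩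
    have h2 := ker_nonneg hs (w := 0) (v := S) ⟨by norm_num, by norm_num⟩ ⟨by linarith, h⟩
    simp only [zero_mul, mul_zero, sub_zero, add_zero]
    positivity
  · have hlo : S - 1 ≤ c * d := by
      linarith [mul_nonneg (sub_nonneg.2 hc1) (sub_nonneg.2 hd1)]
    refine conc_nonneg hlo hcd ?_ htop (Psi_conc hS0 hS2 (by linarith) hlo hcd (conc_large h hS2))
    have h1 := Psi_edge hs (t := S - 1) (by linarith)
    rw [show 1 + (S - 1) = S by ring] at h1
    rw [h1]
    obtain ⟨-, h2, h3⟩ := certs_nonneg hs.le (t := S - 1) (by linarith) (by linarith)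
    positivity

/-- The profile in dimension five. -/
def prof : Prof 4 where
  A := A
  B := B
  A' := A'
  B' := B'
  g := g
  α := 29 / 480
  bd := 1
  smoothA := by
    refine ContDiffOn.div (by fun_prop) (by fun_prop) fun s hs => ?_
    have : (0 : ℝ) < s := hs
    positivity
  smoothB := by
    refine ContDiffOn.div (by fun_prop) (by fun_prop) fun s hs => ?_
    have : (0 : ℝ) < s := hs
    positivity
  derivA := fun _ => deriv_A
  derivB := fun _ => deriv_B
  B_nonpos := fun s hs => by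
    rw [B, neg_div, neg_nonpos]
    positivity
  B_bd := fun s hs => by
    rw [B, neg_div, neg_le_neg_iff, div_le_one (by positivity)]
    nlinarith
  pos := fun s hs v hv => by
    have e : A s + B s * v = (160 + 73 * s + 11 * s ^ 2 - 29 * s * v) / (87 * (2 + s) ^ 2) := by
      unfold A B
      field_simp
      ring
    rw [e]
    refine div_nonneg ?_ (by positivity)
    nlinarith [mul_le_mul_of_nonneg_left hv.2 (show 0 ≤ 29 * s by positivity)]
  dec := fun _ hs _ hv => dec hs hv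
  α_pos := by norm_num
  g_cont := by
    refine ContinuousOn.sub (ContinuousOn.add (ContinuousOn.add (ContinuousOn.mul continuousOn_const
      (ContinuousOn.div (by fun_prop) (by fun_prop) fun t ht => ?_)) (by fun_prop)) (by fun_prop))
      (by fun_prop)
    have : (0 : ℝ) ≤ t := ht.1
    positivity
  g_zero := by simp [g]
  g_mono := g_mono
  ker_nonneg := fun _ hs _ hw _ hv => ker_nonneg hs hw hv
  chord := fun _ hs _ hc _ hd => chord hs hc hd

end

end Vale.Agent.P219.SharpK.Five
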