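import Vale.Agent.P219.SharpK.Chord

/-!
# Switching the order of integration, for a profile
-/

open MeasureTheory Set Filter Topology
open scoped ENNReal ContDiff RealInnerProductSpace

namespace Vale.Agent.P219.SharpK

open Vale.Agent.P219 Vale.Agent.P219.Univ Vale.Agent.P219.Six Vale.Agent.P219.Six.Surf

noncomputable section

variable {k : ℕ} (p : Prof k) {g : MetricField (k + 1)}
  {Ex Lo : Space (k + 1) → Space (k + 1) → Space (k + 1)} {φ : Space (k + 1) → ℝ} {η : ℝ}

/-- The moment of the boundary weight. -/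
def HasMoment (G : ℝ) : Prop :=
  ∀ e : Space (k + 1), ‖e‖ = 1 → ∫ v,
    p.gc (max ⟪(v : Space (k + 1)), e⟫ 0) * max ⟪(v : Space (k + 1)), e⟫ 0 ∂dirs (k + 1) = G

theorem dirs_total : (dirs (k + 1)) univ = ENNReal.ofReal (Om k) :=
  (ofReal_measureReal (measure_ne_top _ _)).symm

theorem Om_nonneg : 0 ≤ Om k := measureReal_nonneg

theorem Om_pos : 0 < Om k := by
  refine ENNReal.toReal_pos ?_ (measure_ne_top _ _)
  rw [dirs, Measure.toSphere_apply_univ]
  simp [(Metric.measure_ball_pos (volume : Measure (Space (k + 1))) 0 one_pos).ne']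

theorem sphere_norm (w : Metric.sphere (0 : Space (k + 1)) 1) : ‖(w : Space (k + 1))‖ = 1 :=
  mem_sphere_zero_iff_norm.1 w.2

/-- The bound at one boundary point. -/
theorem point_le (hg : IsMetric g) (hc : JointCharts g Ex Lo) (hs : SecBound g 0) (hd : Defining φ)
    (hw : RegWindow φ η) {κ : ℝ → ℝ} (hk0 : ∀ s, 0 ≤ κ s)
    (hks : ∀ s, κ s ≠ 0 → s ∈ Ioo (-(η / 2)) 0) {G₀ : ℝ} (hG₀ : HasMoment p G₀) (hG₀0 : 0 ≤ G₀) {l ε δ B : ℝ} (hl : 0 < l) (hε : 0 < ε) (hδ : 0 < δ)
    (hB : ∀ τ, κ τ ≠ 0 → ∀ a, φ a = τ → area g φ η τ (kernel p g Lo φ l ε δ a) ≤ B)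
    (hB0 : 0 ≤ B) (y : Space (k + 1)) :
    ∫⁻ w, chordVal p g Ex φ κ l ε y w * ENNReal.ofReal (exitT Ex φ (φ y) y w) ∂dirs (k + 1) ≤
      ENNReal.ofReal (κ (φ y) * gradLen g φ y * (p.α * l ^ k * B / 2 + G₀ +
        Om k * (((k : ℝ) + 1) * (l * Real.sqrt ε) / 2))) := by
  refine (lintegral_mono fun w : Metric.sphere (0 : Space (k + 1)) 1 =>
    chordVal_le p hg hc hs hk0 hl hε hδ.le y (w : Space (k + 1)) (sphere_norm w)).trans ?_
  rcases eq_or_ne (κ (φ y)) 0 with h0 | h0
  · simp [h0]
  have hyI := hks _ h0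
  have hyw : |φ y| < η / 2 := abs_lt.2 ⟨hyI.1, by linarith [hyI.2, hw.1]⟩
  have hyr := window_reg hw hyw rfl
  have hgl := gradLen_pos hg hyr
  set e : Space (k + 1) := -fderiv ℝ (Lo y) y (unitN g φ y)
  have he : ‖e‖ = 1 := by
    have h1 := hc.metric_eq y (unitN g φ y) (unitN g φ y)
    rw [real_inner_self_eq_norm_sq, ← gNorm_sq hg, gNorm_unitN hg hyr] at h1
    rw [norm_neg]
    exact (pow_left_inj₀ (norm_nonneg _) zero_le_one two_ne_zero).1 h1.symm
  have hci : ∀ w : Space (k + 1), cosIn g Ex φ y w = ⟪w, e⟫ := fun w => by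
    rw [cosIn, ← cosN_eq hg hyr, vel, zero_smul, hc.metric_eq, inner_neg_right]
    have h2 := hc.dLog_dExp y 0 w
    rw [hc.zero] at h2
    rw [h2]
  set G : Metric.sphere (0 : Space (k + 1)) 1 → ℝ := fun w =>
    if 0 < ⟪(w : Space (k + 1)), e⟫ then p.gc ⟪(w : Space (k + 1)), e⟫ * ⟪(w : Space (k + 1)), e⟫ else 0
  have hGc : Continuous G := by
    have e1 : G = fun w : Metric.sphere (0 : Space (k + 1)) 1 =>
        p.gc (max ⟪(w : Space (k + 1)), e⟫ 0) * max ⟪(w : Space (k + 1)), e⟫ 0 := funext fun w => by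
      simp only [G]
      split_ifs with h
      · rw [max_eq_left h.le]
      · rw [max_eq_right (not_lt.1 h), mul_zero]
    rw [e1]
    have := p.continuous_gc
    fun_prop
  have hG0 : ∀ w, 0 ≤ G w := fun w => by
    simp only [G]
    split_ifs with h
    · exact mul_nonneg (p.gc_nonneg _) h.le
    · exact le_rfl
  have hGi : ∫⁻ w, ENNReal.ofReal (G w) ∂dirs (k + 1) = ENNReal.ofReal (G₀) := by
    rw [← ofReal_integral_eq_lintegral_ofReal
      (hGc.integrable_of_hasCompactSupport (HasCompactSupport.of_compactSpace _))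
      (ae_of_all _ hG0), show ∫ w, G w ∂dirs (k + 1) = G₀ from (integral_congr_ae (ae_of_all _ fun w => by
        simp only [G]
        split_ifs with h
        · rw [max_eq_left h.le]
        · rw [max_eq_right (not_lt.1 h), mul_zero])).trans (hG₀ e he)]
  have harea := exit_area hg hc hd hw hyw (y := y) rfl (kernel_contDiffOn p hg hc hd hl hε hδ y)
    (fun z _ => kernel_nonneg p hg hc hl hε hδ.le y z)
  have hBy := hB _ h0 y rfl
  simp only [hci]
  rw [lintegral_const_mul' _ _ ENNReal.ofReal_ne_top, lintegral_add_left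
    (show Measurable fun w => ENNReal.ofReal (G w) from hGc.measurable.ennreal_ofReal),
    hGi, lintegral_add_left measurable_const, lintegral_const, dirs_total,
    lintegral_const_mul' _ _ ENNReal.ofReal_ne_top, ← ENNReal.ofReal_mul (by positivity),
    ENNReal.ofReal_mul (mul_nonneg (hk0 _) hgl.le)]
  refine mul_le_mul' le_rfl ?_
  have hOm := Om_nonneg (k := k)
  have hα : 0 ≤ p.α * l ^ k / 2 := by have := p.α_pos; positivity
  refine (add_le_add le_rfl (add_le_add le_rfl (mul_le_mul' le_rfl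
    (d := ENNReal.ofReal B) ?_))).trans (le_of_eq ?_)
  · refine le_trans (le_of_eq ?_) (harea.trans (ENNReal.ofReal_le_ofReal hBy))
    refine lintegral_congr fun w => ?_
    rw [Set.indicator_apply]
    exact if_congr Iff.rfl rfl rfl
  · rw [← ENNReal.ofReal_mul hα, ← ENNReal.ofReal_add (by positivity) (mul_nonneg hα hB0),
      ← ENNReal.ofReal_add (by positivity) (by positivity)]
    exact congrArg ENNReal.ofReal (by ring)

/-- The chords through one point, by exit times and polar coordinates. -/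
theorem chords_le (hg : IsMetric g) (hc : JointCharts g Ex Lo) (hs : SecBound g 0) (hd : Defining φ)
    (hw : RegWindow φ η) {κ : ℝ → ℝ} (hk : Continuous κ) (hk1 : ∀ s, κ s ≠ 0 → |s| < η / 2)
    {l ε : ℝ} (hl : 0 < l) (hε : 0 < ε) (x : Space (k + 1)) (hPr : Measurable (pairFn p g Ex Lo φ κ l ε x)) :
    (∫⁻ s in Ioo (φ x) 1, ENNReal.ofReal (κ s)) * ENNReal.ofReal (Om k * l) ≤
      2 * ∫⁻ y, pairFn p g Ex Lo φ κ l ε x y * ENNReal.ofReal (dens g y) := by
  set F : Metric.sphere (0 : Space (k + 1)) 1 → ℝ≥0∞ := fun v => ∫⁻ s in Ioo (φ x) 1,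
    ENNReal.ofReal (κ s) * half p g Ex φ l ε s (exitT Ex φ s x v) x v with hF
  have hkm : Measurable fun s => ENNReal.ofReal (κ s) := hk.measurable.ennreal_ofReal
  have hjoint : Measurable fun z : Metric.sphere (0 : Space (k + 1)) 1 × ℝ =>
      ENNReal.ofReal (κ z.2) * half p g Ex φ l ε z.2 (exitT Ex φ z.2 x z.1) x z.1 := by
    have hv : Measurable fun z : Metric.sphere (0 : Space (k + 1)) 1 × ℝ => (z.1 : Space (k + 1)) :=
      measurable_subtype_coe.comp measurable_fst
    have he := measurable_exit_comp hg hc hd (xf := fun _ : Metric.sphere (0 : Space (k + 1)) 1 × ℝ => x)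
      (sf := fun z : Metric.sphere (0 : Space (k + 1)) 1 × ℝ => z.2) measurable_const hv measurable_snd
    exact (hkm.comp measurable_snd).mul
      (measurable_half p hg hc hd measurable_const hv measurable_snd he hl hε)
  have hFm : Measurable F := hjoint.lintegral_prod_right'
  have h1 : (∫⁻ s in Ioo (φ x) 1, ENNReal.ofReal (κ s)) * ENNReal.ofReal (Om k * l) ≤
      ∫⁻ v, (F v + F (-v)) ∂dirs (k + 1) := by
    calc _ = ∫⁻ _v, (∫⁻ s in Ioo (φ x) 1, ENNReal.ofReal (κ s) * ENNReal.ofReal l) ∂dirs (k + 1) := by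
          rw [lintegral_const, dirs_total, lintegral_mul_const _ hkm, mul_comm (Om k),
            ENNReal.ofReal_mul hl.le, mul_assoc]
      _ ≤ _ := lintegral_mono fun v => by
          rw [hF]
          dsimp only
          rw [coe_neg_sphere, ← lintegral_add_left
            (show Measurable fun s => ENNReal.ofReal (κ s) * half p g Ex φ l ε s (exitT Ex φ s x v) x v
              from hjoint.comp measurable_prodMk_left)]
          refine lintegral_mono_ae ?_
          rw [ae_restrict_iff' measurableSet_Ioo]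
          exact chord_ae p hg hc hd hw hk1 hl hε x v (sphere_norm v)
  have h2 : ∀ v : Metric.sphere (0 : Space (k + 1)) 1, F v ≤ ∫⁻ t in Ioi (0 : ℝ),
      pairFn p g Ex Lo φ κ l ε x (Ex x (t • (v : Space (k + 1)))) *
        ENNReal.ofReal (t ^ k * jac g Ex x (t • (v : Space (k + 1)))) := by
    intro v
    have hv0 : (v : Space (k + 1)) ≠ 0 := ne_zero_of_mem_unit_sphere v
    refine (exit_change hc hd x v hv0
      fun s t => ENNReal.ofReal (κ s) * half p g Ex φ l ε s t x v).le.trans ?_
    set S := {t : ℝ | 0 < t ∧ φ x < φ (Ex x (t • (v : Space (k + 1)))) ∧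
      φ (Ex x (t • (v : Space (k + 1)))) < 1 ∧
      exitT Ex φ (φ (Ex x (t • (v : Space (k + 1))))) x v = t}
    have hp : Measurable fun t : ℝ => φ (Ex x (t • (v : Space (k + 1)))) :=
      (hd.smooth.continuous.comp ((hc.smooth_exp_at x).continuous.comp
        (continuous_id.smul continuous_const))).measurable
    have hS : MeasurableSet S := (measurableSet_lt measurable_const measurable_id).inter
      ((measurableSet_lt measurable_const hp).inter ((measurableSet_lt hp measurable_const).inter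
        (measurableSet_eq_fun (measurable_exit_comp hg hc hd measurable_const measurable_const hp)
          measurable_id)))
    rw [← lintegral_indicator hS, ← lintegral_indicator measurableSet_Ioi]
    refine lintegral_mono fun t => ?_
    by_cases ht : t ∈ S
    · rw [indicator_of_mem ht, indicator_of_mem (show t ∈ Ioi (0 : ℝ) from ht.1)]
      have hn : ‖t • (v : Space (k + 1))‖ = t := by
        rw [norm_smul, sphere_norm, mul_one, Real.norm_of_nonneg ht.1.le]
      have hJ : 0 < t ^ k * jac g Ex x (t • (v : Space (k + 1))) :=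
        mul_pos (pow_pos ht.1 k) (jac_pos hg hc hs x _)
      simp only [pairFn, hc.left, hn, smul_smul, inv_mul_cancel₀ ht.1.ne', one_smul]
      rw [ENNReal.div_mul_cancel (ENNReal.ofReal_pos.2 hJ).ne' ENNReal.ofReal_ne_top, ray]
      exact le_of_eq (if_pos ht).symm
    · rw [indicator_of_notMem ht]; exact zero_le
  calc _ ≤ ∫⁻ v, (F v + F (-v)) ∂dirs (k + 1) := h1
    _ = 2 * ∫⁻ v, F v ∂dirs (k + 1) := by
        rw [lintegral_add_left hFm, dirs_neg.lintegral_comp hFm, two_mul]
    _ ≤ _ := by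
        rw [polar hc x hPr]
        exact mul_le_mul' le_rfl (lintegral_mono h2)

/-- The weighted forms of volume and boundary. -/
theorem weighted (hg : IsMetric g) (hc : JointCharts g Ex Lo) (hs : SecBound g 0) (hd : Defining φ)
    (hw : RegWindow φ η) {κ : ℝ → ℝ} (hk : Continuous κ) (hk0 : ∀ s, 0 ≤ κ s)
    (hks : ∀ s, κ s ≠ 0 → s ∈ Ioo (-(η / 2)) 0) {G₀ : ℝ} (hG₀ : HasMoment p G₀) (hG₀0 : 0 ≤ G₀) {l ε δ B : ℝ} (hl : 0 < l) (hε : 0 < ε) (hδ : 0 < δ)
    (hB : ∀ τ, κ τ ≠ 0 → ∀ a, φ a = τ → area g φ η τ (kernel p g Lo φ l ε δ a) ≤ B)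
    (hB0 : 0 ≤ B) :
    ∫⁻ x, (∫⁻ s in Ioo (φ x) 1, ENNReal.ofReal (κ s)) *
        ENNReal.ofReal (Om k * l) * ENNReal.ofReal (dens g x) ≤
      2 * ∫⁻ y, ENNReal.ofReal (κ (φ y) * gradLen g φ y * (p.α * l ^ k * B / 2 +
        G₀ + Om k * (((k : ℝ) + 1) * (l * Real.sqrt ε) / 2))) *
          ENNReal.ofReal (dens g y) := by
  have hk1 : ∀ s, κ s ≠ 0 → |s| < η / 2 := fun s h =>
    abs_lt.2 ⟨(hks s h).1, by linarith [(hks s h).2, hw.1]⟩
  have hPm' := measurable_pairFn p hg hc hd hk hl hε
  generalize hP : pairFn p g Ex Lo φ κ l ε = P at hPm'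
  have hPm : Measurable fun z : Space (k + 1) × Space (k + 1) => P z.1 z.2 := hPm'
  have hPr : ∀ x, Measurable (P x) := fun x => hPm.comp measurable_prodMk_left
  have hdens : Measurable fun x => ENNReal.ofReal (dens g x) :=
    (contDiff_dens hg).continuous.measurable.ennreal_ofReal
  have hx : ∀ x, (∫⁻ s in Ioo (φ x) 1, ENNReal.ofReal (κ s)) * ENNReal.ofReal (Om k * l) ≤
      2 * ∫⁻ y, P x y * ENNReal.ofReal (dens g y) := fun x =>
    by subst hP; exact chords_le p hg hc hs hd hw hk hk1 hl hε x (hPr x)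
  calc ∫⁻ x, (∫⁻ s in Ioo (φ x) 1, ENNReal.ofReal (κ s)) *
          ENNReal.ofReal (Om k * l) * ENNReal.ofReal (dens g x)
      ≤ ∫⁻ x, (2 * ∫⁻ y, P x y * ENNReal.ofReal (dens g y)) * ENNReal.ofReal (dens g x) :=
        lintegral_mono fun x => mul_le_mul' (hx x) le_rfl
    _ = 2 * ∫⁻ x, ∫⁻ y, P x y * ENNReal.ofReal (dens g y) * ENNReal.ofReal (dens g x) := by
        rw [← lintegral_const_mul' _ _ ENNReal.ofNat_ne_top]
        refine lintegral_congr fun x => ?_
        rw [lintegral_mul_const _ ((hPr x).fun_mul hdens), mul_assoc]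
    _ = 2 * ∫⁻ y, ∫⁻ x, P x y * ENNReal.ofReal (dens g y) * ENNReal.ofReal (dens g x) := by
        rw [lintegral_lintegral_swap]
        exact ((hPm.mul (hdens.comp measurable_snd)).mul (hdens.comp measurable_fst)).aemeasurable
    _ ≤ _ := mul_le_mul' le_rfl (lintegral_mono fun y => by
        have hPl : Measurable fun x => P x y := hPm.comp measurable_prodMk_right
        calc ∫⁻ x, P x y * ENNReal.ofReal (dens g y) * ENNReal.ofReal (dens g x)
            = (∫⁻ x, P x y * ENNReal.ofReal (dens g x)) * ENNReal.ofReal (dens g y) := by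
              rw [← lintegral_mul_const _ (hPl.fun_mul hdens)]
              exact lintegral_congr fun x => mul_right_comm _ _ _
          _ ≤ _ := by
              rw [polar hc y hPl]
              subst hP
              exact mul_le_mul' ((lintegral_mono fun w : Metric.sphere (0 : Space (k + 1)) 1 =>
                line_le p hg hc hs hd hk0 y (w : Space (k + 1)) (sphere_norm w)).trans
                  (point_le p hg hc hs hd hw hk0 hks hG₀ hG₀0 hl hε hδ hB hB0 y)) le_rfl)

/-- Volume is controlled by the boundary and the kernel. -/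
theorem switch (hg : IsMetric g) (hc : JointCharts g Ex Lo) (hs : SecBound g 0) (hd : Defining φ)
    (hw : RegWindow φ η) {G₀ : ℝ} (hG₀ : HasMoment p G₀) (hG₀0 : 0 ≤ G₀) {l ε δ B : ℝ} (hl : 0 < l) (hε : 0 < ε) (hδ : 0 < δ) (hB0 : 0 ≤ B)
    (hB : ∀ᶠ τ in 𝓝[<] (0 : ℝ), ∀ a, φ a = τ → area g φ η τ (kernel p g Lo φ l ε δ a) ≤ B) :
    Om k * (l * Univ.gVol g (sub φ 0)) ≤ area g φ η 0 (fun _ => 1) *
      (p.α * l ^ k * B + 2 * (G₀) + Om k * (((k : ℝ) + 1) * (l * Real.sqrt ε))) := by
  set C := p.α * l ^ k * B / 2 + G₀ + Om k * (((k : ℝ) + 1) * (l * Real.sqrt ε) / 2)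
  have hC : 0 ≤ C := by have := p.α_pos; have := Om_nonneg (k := k); simp only [C]; positivity
  have h0I : (0 : ℝ) ∈ Ioo (-(η / 2)) (η / 2) := ⟨by linarith [hw.1], by linarith [hw.1]⟩
  have hone : ContDiffOn ℝ 1 (fun _ : Space (k + 1) => (1 : ℝ)) (regSet φ) := contDiffOn_const
  have hA0 : 0 ≤ area g φ η 0 (fun _ => 1) :=
    area_nonneg hg hd hw (abs_lt.2 h0I) hone fun _ _ => zero_le_one
  set A := fun τ => area g φ η τ (fun _ => 1) with hA
  set V := fun τ => Univ.gVol g (sub φ τ)
  suffices h : Om k * l * V 0 ≤ 2 * C * A 0 by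
    have h1 : A 0 * (2 * C) ≤ A 0 * (p.α * l ^ k * B + 2 * (G₀) +
        Om k * (((k : ℝ) + 1) * (l * Real.sqrt ε))) := by
      refine mul_le_mul_of_nonneg_left ?_ hA0
      have : 0 ≤ Om k * (((k : ℝ) + 1) * (l * Real.sqrt ε)) := by
        have := Om_nonneg (k := k)
        positivity
      simp only [C]
      linarith
    simp only [V, hA] at h h1
    linarith
  by_contra hcon
  rw [not_le] at hcon
  -- a weight concentrated at levels just below zero
  set d := (Om k * l * V 0 - 2 * C * A 0) / 3 with hd0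
  have hdpos : 0 < d := by rw [hd0]; linarith
  have hVc : ContinuousAt (fun τ => Om k * l * V τ) 0 :=
    ((gVol_continuous hg hd hw).continuousAt (isOpen_Ioo.mem_nhds h0I)).const_mul _
  have hAc : ContinuousAt (fun τ => 2 * C * A τ) 0 :=
    ((area_continuous hg hd hw hone).continuousAt (isOpen_Ioo.mem_nhds h0I)).const_mul _
  obtain ⟨ρ, hρ, hnear⟩ := Metric.eventually_nhds_iff.1
    ((((Metric.tendsto_nhds.1 hVc) d hdpos).and ((Metric.tendsto_nhds.1 hAc) d hdpos)).and
      (eventually_nhdsWithin_iff.1 hB))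
  set r := min ρ (η / 2) / 2 with hr0
  have hr : 0 < r := by rw [hr0]; have := hw.1; positivity
  obtain ⟨hkc, hk01, hksupp, hkone⟩ := tent_props (-r) hr
  set κ := tent (-r) r
  have hks : ∀ s, κ s ≠ 0 → s ∈ Ioo (-(η / 2)) 0 ∧ dist s 0 < ρ := fun s h => by
    obtain ⟨h1, h2⟩ := abs_lt.1 (hksupp s h)
    have h3 : 2 * r ≤ ρ ∧ 2 * r ≤ η / 2 := by
      rw [hr0]; constructor <;> linarith [min_le_left ρ (η / 2), min_le_right ρ (η / 2)]
    rw [Real.dist_eq, sub_zero, abs_lt]
    refine ⟨⟨?_, ?_⟩, ?_, ?_⟩ <;> linarith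
  have hk1 : ∀ s, κ s ≠ 0 → |s| < η / 2 := fun s h =>
    abs_lt.2 ⟨(hks s h).1.1, by linarith [(hks s h).1.2, hw.1]⟩
  have hW := weighted p hg hc hs hd hw hkc (fun s => (hk01 s).1) (fun s h => (hks s h).1) hG₀ hG₀0 hl hε hδ
    (fun s h => (hnear (hks s h).2).2 (hks s h).1.2) hB0
  have hdc : Continuous (dens g) := (contDiff_dens hg).continuous
  have hdn : ∀ x, 0 ≤ dens g x := fun x => (dens_pos hg x).le
  have hkcs : HasCompactSupport κ := by
    refine HasCompactSupport.intro isCompact_Icc (K := Icc (-(η / 2)) 0) fun s hs => ?_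
    by_contra h
    exact hs (Ioo_subset_Icc_self (hks s h).1)
  have hK : Integrable κ := hkc.integrable_of_hasCompactSupport hkcs
  set K := ∫ s, κ s
  have hKpos : 0 < K := hkc.integral_pos_of_hasCompactSupport_nonneg_nonzero hkcs
    (fun s => (hk01 s).1) (x := -r) (by rw [hkone]; exact one_ne_zero)
  -- the right-hand side
  set Y := fun y => κ (φ y) * gradLen g φ y * C * dens g y
  have hYc : Continuous Y :=
    (((hkc.comp hd.smooth.continuous).mul (gradLen_continuous hg hd.smooth)).mul continuous_const).mul hdc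
  have hYs : HasCompactSupport Y := by
    obtain ⟨R, hR⟩ := sub_subset_ball hd zero_le_one
    refine HasCompactSupport.intro (isCompact_closedBall (0 : Space (k + 1)) R) fun y hy => ?_
    rcases eq_or_ne (κ (φ y)) 0 with h | h
    · simp [Y, h]
    · exact absurd (hR (show y ∈ sub φ 0 from (hks _ h).1.2)) hy
  have hY0 : ∀ y, 0 ≤ Y y := fun y =>
    mul_nonneg (mul_nonneg (mul_nonneg (hk01 _).1 (gradLen_nonneg g φ y)) hC) (hdn y)
  have hRHS : ∫⁻ y, ENNReal.ofReal (κ (φ y) * gradLen g φ y * C) * ENNReal.ofReal (dens g y) =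
      ENNReal.ofReal (C * ∫ s, κ s * A s) := by
    rw [coarea hg hd hw hone hkc hk1, ← integral_const_mul,
      ofReal_integral_eq_lintegral_ofReal]
    · refine lintegral_congr fun y => ?_
      rw [← ENNReal.ofReal_mul' (hdn y)]
      exact congrArg ENNReal.ofReal (by ring)
    · exact (hYc.integrable_of_hasCompactSupport hYs).congr (ae_of_all _ fun y => by
        simp only [Y]; ring)
    · exact ae_of_all _ fun y => le_of_le_of_eq (hY0 y) (by simp only [Y]; ring)
  -- the left-hand side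
  have hLHS : ENNReal.ofReal (K * (Om k * l * V 0 - d)) ≤
      ∫⁻ x, (∫⁻ s in Ioo (φ x) 1, ENNReal.ofReal (κ s)) *
        ENNReal.ofReal (Om k * l) * ENNReal.ofReal (dens g x) := by
    have hsub : MeasurableSet {p : Space (k + 1) × ℝ | φ p.1 < p.2} :=
      measurableSet_lt (hd.smooth.continuous.measurable.comp measurable_fst) measurable_snd
    set J : Space (k + 1) → ℝ → ℝ≥0∞ := fun x s => {p : Space (k + 1) × ℝ | φ p.1 < p.2}.indicator
      (fun p => ENNReal.ofReal (κ p.2) * ENNReal.ofReal (Om k * l) *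
        ENNReal.ofReal (dens g p.1)) (x, s)
    have hJm : Measurable (Function.uncurry J) :=
      (((hkc.measurable.comp measurable_snd).ennreal_ofReal.mul measurable_const).mul
        (hdc.measurable.comp measurable_fst).ennreal_ofReal).indicator hsub
    have e1 : ∀ x, (∫⁻ s in Ioo (φ x) 1, ENNReal.ofReal (κ s)) *
        ENNReal.ofReal (Om k * l) * ENNReal.ofReal (dens g x) = ∫⁻ s, J x s := fun x => by
      rw [← lintegral_mul_const' _ _ ENNReal.ofReal_ne_top,
        ← lintegral_mul_const' _ _ ENNReal.ofReal_ne_top, ← lintegral_indicator measurableSet_Ioo]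
      refine lintegral_congr fun s => ?_
      simp only [J, indicator_apply, Set.mem_ofPred_eq, mem_Ioo]
      rcases eq_or_ne (κ s) 0 with h | h
      · simp [h]
      · have : s < 1 := by linarith [(hks s h).1.2]
        simp [this]
    simp only [e1]
    rw [lintegral_lintegral_swap hJm.aemeasurable]
    have e2 : ENNReal.ofReal (K * (Om k * l * V 0 - d)) =
        ∫⁻ s, ENNReal.ofReal (κ s * (Om k * l * V 0 - d)) := by
      rw [← integral_mul_const, ofReal_integral_eq_lintegral_ofReal (hK.mul_const _)]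
      refine ae_of_all _ fun s => mul_nonneg (hk01 s).1 ?_
      have hA' : 0 ≤ 2 * C * A 0 := by positivity
      rw [hd0]
      linarith
    rw [e2]
    refine lintegral_mono fun s => ?_
    rcases eq_or_ne (κ s) 0 with h | h
    · simp [h]
    have e3 : ∫⁻ x, J x s = ENNReal.ofReal (κ s) * ENNReal.ofReal (Om k * l) *
        ∫⁻ x in sub φ s, ENNReal.ofReal (dens g x) := by
      rw [← lintegral_const_mul' _ _ (ENNReal.mul_ne_top ENNReal.ofReal_ne_top
        ENNReal.ofReal_ne_top), ← lintegral_indicator (measurableSet_sub hd.smooth.continuous s)]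
      rfl
    rw [e3, ← ofReal_integral_eq_lintegral_ofReal
      (integrableOn_sub hd (by linarith [(hks s h).1.2]) hdc) (ae_of_all _ hdn),
      ← ENNReal.ofReal_mul (hk01 s).1, ← ENNReal.ofReal_mul (mul_nonneg (hk01 s).1 (mul_nonneg Om_nonneg hl.le))]
    refine ENNReal.ofReal_le_ofReal ?_
    have h1 := (abs_lt.1 (by simpa [Real.dist_eq] using (hnear (hks s h).2).1.1)).1
    rw [mul_assoc (κ s)]
    refine mul_le_mul_of_nonneg_left ?_ (hk01 s).1
    simp only [V, Univ.gVol] at h1 ⊢
    linarith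
  -- comparing
  have hAle : ∫ s, κ s * A s ≤ ∫ s, κ s * ((2 * C * A 0 + d) / (2 * C)) := by
    refine integral_mono_of_nonneg (ae_of_all _ fun s => ?_) (hK.mul_const _)
      (ae_of_all _ fun s => ?_)
    · rcases eq_or_ne (κ s) 0 with h | h
      · simp [h]
      · exact mul_nonneg (hk01 s).1 (area_nonneg hg hd hw (hk1 s h) hone fun _ _ => zero_le_one)
    · rcases eq_or_ne (κ s) 0 with h | h
      · simp [h]
      refine mul_le_mul_of_nonneg_left ?_ (hk01 s).1
      have h1 := (abs_lt.1 (by simpa [Real.dist_eq] using (hnear (hks s h).2).1.2)).2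
      have hC' : 0 < 2 * C := by have := p.α_pos; have := Om_pos (k := k); simp only [C]; positivity
      rw [le_div_iff₀ hC']
      linarith
  have hkey := hLHS.trans hW
  rw [hRHS, ← ENNReal.ofReal_ofNat 2, ← ENNReal.ofReal_mul zero_le_two] at hkey
  have hnn : 0 ≤ ∫ s, κ s * A s := integral_nonneg fun s => by
    rcases eq_or_ne (κ s) 0 with h | h
    · simp [h]
    · exact mul_nonneg (hk01 s).1 (area_nonneg hg hd hw (hk1 s h) hone fun _ _ => zero_le_one)
  rw [ENNReal.ofReal_le_ofReal_iff (by positivity)] at hkey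
  rw [integral_mul_const] at hAle
  have hC' : 0 < 2 * C := by have := p.α_pos; have := Om_pos (k := k); simp only [C]; positivity
  have h5 := mul_le_mul_of_nonneg_left hAle hC'.le
  rw [show 2 * C * (K * ((2 * C * A 0 + d) / (2 * C))) = K * (2 * C * A 0 + d) by
    rw [mul_left_comm, mul_div_cancel₀ _ hC'.ne']] at h5
  have h6 : K * (2 * C * A 0 + d) < K * (Om k * l * V 0 - d) :=
    mul_lt_mul_of_pos_left (by rw [hd0]; linarith) hKpos
  linarith

end

end Vale.Agent.P219.SharpK
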